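import Vale.Agent.P139.H579.NDefs

/-! # P139 / block N : basic properties of the scaled norms -/

open Set Filter Topology MeasureTheory
open scoped ComplexConjugate ContDiff

namespace Vale.Agent.P139.N

open Vale.Agent.P139.A Vale.Agent.P139.A.WA Vale.Agent.P139.H203 Vale.Agent.P139.BU

variable {d k : ℕ}

theorem wt_nonneg {ℓ : ℝ} (h0 : 0 ≤ ℓ) (j : ℕ) (n : Lat d) : 0 ≤ (1 + ℓ * ‖n‖) ^ j := by
  positivity

theorem one_le_wt {ℓ : ℝ} (h0 : 0 ≤ ℓ) (j : ℕ) (n : Lat d) : 1 ≤ (1 + ℓ * ‖n‖) ^ j := by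
  apply one_le_pow₀
  have : 0 ≤ ℓ * ‖n‖ := by positivity
  linarith

theorem wt_le_W {ℓ : ℝ} (h0 : 0 ≤ ℓ) (h1 : ℓ ≤ 1) {j : ℕ} (hj : j ≤ k) (n : Lat d) :
    (1 + ℓ * ‖n‖) ^ j ≤ W k n := by
  unfold W
  have h2 : ℓ * ‖n‖ ≤ ‖n‖ := mul_le_of_le_one_left (norm_nonneg _) h1
  calc (1 + ℓ * ‖n‖) ^ j ≤ (1 + ‖n‖) ^ j := by gcongr
    _ ≤ (1 + ‖n‖) ^ k := pow_le_pow_right₀ (by linarith [norm_nonneg n]) hj

theorem summable_Nn {ℓ : ℝ} (h0 : 0 ≤ ℓ) (h1 : ℓ ≤ 1) {j : ℕ} (hj : j ≤ k) (h : WA d k) :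
    Summable fun n : Lat d => (1 + ℓ * ‖n‖) ^ j * ‖coef h n‖ :=
  Summable.of_nonneg_of_le (fun n => mul_nonneg (wt_nonneg h0 j n) (norm_nonneg _))
    (fun n => mul_le_mul_of_nonneg_right (wt_le_W h0 h1 hj n) (norm_nonneg _)) h.summable

theorem top_le_wt {ℓ : ℝ} (h0 : 0 ≤ ℓ) (j : ℕ) (n : Lat d) :
    (ℓ * ‖n‖) ^ j ≤ (1 + ℓ * ‖n‖) ^ j := by
  have : 0 ≤ ℓ * ‖n‖ := by positivity
  gcongr
  linarith

theorem summable_Tn {ℓ : ℝ} (h0 : 0 ≤ ℓ) (h1 : ℓ ≤ 1) {j : ℕ} (hj : j ≤ k) (h : WA d k) :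
    Summable fun n : Lat d => (ℓ * ‖n‖) ^ j * ‖coef h n‖ :=
  Summable.of_nonneg_of_le (fun n => by positivity)
    (fun n => mul_le_mul_of_nonneg_right (top_le_wt h0 j n) (norm_nonneg _))
    (summable_Nn h0 h1 hj h)

theorem Nn_nonneg {ℓ : ℝ} (h0 : 0 ≤ ℓ) (j : ℕ) (h : WA d k) : 0 ≤ Nn ℓ j h :=
  tsum_nonneg fun n => mul_nonneg (wt_nonneg h0 j n) (norm_nonneg _)

theorem Tn_nonneg {ℓ : ℝ} (h0 : 0 ≤ ℓ) (j : ℕ) (h : WA d k) : 0 ≤ Tn ℓ j h :=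
  tsum_nonneg fun n => by positivity

theorem Nn_le_norm {ℓ : ℝ} (h0 : 0 ≤ ℓ) (h1 : ℓ ≤ 1) {j : ℕ} (hj : j ≤ k) (h : WA d k) :
    Nn ℓ j h ≤ ‖h‖ := by
  rw [norm_eq]
  exact (summable_Nn h0 h1 hj h).tsum_le_tsum
    (fun n => mul_le_mul_of_nonneg_right (wt_le_W h0 h1 hj n) (norm_nonneg _)) h.summable

theorem norm_le_Nn {ℓ : ℝ} (h0 : 0 < ℓ) (h1 : ℓ ≤ 1) (h : WA d k) :
    ‖h‖ ≤ (ℓ⁻¹) ^ k * Nn ℓ k h := by
  rw [norm_eq, Nn, ← tsum_mul_left]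
  refine h.summable.tsum_le_tsum (fun n => ?_) ((summable_Nn h0.le h1 le_rfl h).mul_left _)
  rw [← mul_assoc, ← mul_pow]
  refine mul_le_mul_of_nonneg_right ?_ (norm_nonneg _)
  unfold W
  have h2 : ℓ⁻¹ * (1 + ℓ * ‖n‖) = ℓ⁻¹ + ‖n‖ := by field_simp
  rw [h2]
  have h3 : 1 ≤ ℓ⁻¹ := (one_le_inv₀ h0).2 h1
  gcongr

theorem Nn_add_le {ℓ : ℝ} (h0 : 0 ≤ ℓ) (h1 : ℓ ≤ 1) {j : ℕ} (hj : j ≤ k) (g h : WA d k) :
    Nn ℓ j (g + h) ≤ Nn ℓ j g + Nn ℓ j h := by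
  unfold Nn
  rw [← (summable_Nn h0 h1 hj g).tsum_add (summable_Nn h0 h1 hj h)]
  refine (summable_Nn h0 h1 hj (g + h)).tsum_le_tsum (fun n => ?_)
    ((summable_Nn h0 h1 hj g).add (summable_Nn h0 h1 hj h))
  rw [coef_add, ← mul_add]
  exact mul_le_mul_of_nonneg_left (norm_add_le _ _) (wt_nonneg h0 j n)

theorem Nn_neg (ℓ : ℝ) (j : ℕ) (h : WA d k) : Nn ℓ j (-h) = Nn ℓ j h := by
  unfold Nn
  simp only [coef_neg, norm_neg]

theorem Nn_sub_le {ℓ : ℝ} (h0 : 0 ≤ ℓ) (h1 : ℓ ≤ 1) {j : ℕ} (hj : j ≤ k) (g h : WA d k) :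
    Nn ℓ j (g - h) ≤ Nn ℓ j g + Nn ℓ j h := by
  rw [sub_eq_add_neg, ← Nn_neg ℓ j h]
  exact Nn_add_le h0 h1 hj g (-h)

theorem Nn_sub_comm (ℓ : ℝ) (j : ℕ) (g h : WA d k) : Nn ℓ j (g - h) = Nn ℓ j (h - g) := by
  rw [← Nn_neg, neg_sub]

theorem Nn_smul (ℓ : ℝ) (j : ℕ) (c : ℂ) (h : WA d k) : Nn ℓ j (c • h) = ‖c‖ * Nn ℓ j h := by
  unfold Nn
  rw [← tsum_mul_left]
  refine tsum_congr fun n => ?_
  rw [coef_smul, norm_mul]
  ring

theorem Nn_shift (ℓ : ℝ) (j : ℕ) (c : ℂ) (x0 : Fin d → ℝ) (h : WA d k) :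
    Nn ℓ j (shift c x0 h) = ‖c‖ * Nn ℓ j h := by
  unfold Nn
  rw [← tsum_mul_left]
  refine tsum_congr fun n => ?_
  rw [coef_shift, norm_mul, norm_mul, norm_expi, mul_one]
  ring

theorem Nn_zero (ℓ : ℝ) (h : WA d k) : Nn ℓ 0 h = ∑' n, ‖coef h n‖ := by
  unfold Nn
  simp only [pow_zero, one_mul]

theorem Nn_conjL (ℓ : ℝ) (j : ℕ) (h : WA d k) : Nn ℓ j (conjL h) = Nn ℓ j h := by
  unfold Nn
  rw [← (Equiv.neg (Lat d)).tsum_eq fun n => (1 + ℓ * ‖n‖) ^ j * ‖coef h n‖]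
  refine tsum_congr fun n => ?_
  rw [coef_conjL, RCLike.norm_conj]
  simp only [Equiv.neg_apply, norm_neg]

theorem Nn_mono {ℓ ℓ' : ℝ} (h0 : 0 ≤ ℓ) (hl : ℓ ≤ ℓ') (h1 : ℓ' ≤ 1) {j : ℕ} (hj : j ≤ k)
    (h : WA d k) : Nn ℓ j h ≤ Nn ℓ' j h := by
  refine (summable_Nn h0 (hl.trans h1) hj h).tsum_le_tsum (fun n => ?_)
    (summable_Nn (h0.trans hl) h1 hj h)
  gcongr

theorem Nn_mono_right {ℓ : ℝ} (h0 : 0 ≤ ℓ) (h1 : ℓ ≤ 1) {i j : ℕ} (hij : i ≤ j) (hj : j ≤ k)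
    (h : WA d k) : Nn ℓ i h ≤ Nn ℓ j h := by
  refine (summable_Nn h0 h1 (hij.trans hj) h).tsum_le_tsum (fun n => ?_) (summable_Nn h0 h1 hj h)
  refine mul_le_mul_of_nonneg_right (pow_le_pow_right₀ ?_ hij) (norm_nonneg _)
  have : 0 ≤ ℓ * ‖n‖ := by positivity
  linarith

/-- Changing the scale by a factor `c ≥ 1` costs at most `c^j`. -/
theorem Nn_scale {ℓ c : ℝ} (h0 : 0 ≤ ℓ) (hc : 1 ≤ c) (h1 : c * ℓ ≤ 1) {j : ℕ} (hj : j ≤ k)
    (h : WA d k) : Nn (c * ℓ) j h ≤ c ^ j * Nn ℓ j h := by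
  have hl : ℓ ≤ 1 := (le_mul_of_one_le_left h0 hc).trans h1
  unfold Nn
  rw [← tsum_mul_left]
  refine (summable_Nn (by positivity) h1 hj h).tsum_le_tsum (fun n => ?_)
    ((summable_Nn h0 hl hj h).mul_left _)
  rw [← mul_assoc, ← mul_pow]
  refine mul_le_mul_of_nonneg_right ?_ (norm_nonneg _)
  have h2 : 0 ≤ ℓ * ‖n‖ := by positivity
  gcongr
  nlinarith

theorem norm_ev_le_Nn {ℓ : ℝ} (h0 : 0 ≤ ℓ) (h1 : ℓ ≤ 1) {j : ℕ} (hj : j ≤ k) (h : WA d k)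
    (x : Fin d → ℝ) : ‖ev h x‖ ≤ Nn ℓ j h := by
  unfold ev series
  have hs : Summable fun n => ‖coef h n * expi n x‖ := by
    simpa only [norm_mul, norm_expi, mul_one] using h.summable_norm
  refine (norm_tsum_le_tsum_norm hs).trans ?_
  refine hs.tsum_le_tsum (fun n => ?_) (summable_Nn h0 h1 hj h)
  rw [norm_mul, norm_expi, mul_one]
  exact le_mul_of_one_le_left (norm_nonneg _) (one_le_wt h0 j n)

theorem Tn_le_Nn {ℓ : ℝ} (h0 : 0 ≤ ℓ) (h1 : ℓ ≤ 1) {j : ℕ} (hj : j ≤ k) (h : WA d k) :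
    Tn ℓ j h ≤ Nn ℓ j h :=
  (summable_Tn h0 h1 hj h).tsum_le_tsum
    (fun n => mul_le_mul_of_nonneg_right (top_le_wt h0 j n) (norm_nonneg _))
    (summable_Nn h0 h1 hj h)

theorem Nn_le_Tn {ℓ : ℝ} (h0 : 0 ≤ ℓ) (h1 : ℓ ≤ 1) {j : ℕ} (hj : j ≤ k) (h : WA d k) :
    Nn ℓ j h ≤ 2 ^ j * (Nn ℓ 0 h + Tn ℓ j h) := by
  unfold Nn Tn
  rw [← (summable_Nn h0 h1 (Nat.zero_le k) h).tsum_add (summable_Tn h0 h1 hj h), ← tsum_mul_left]
  refine (summable_Nn h0 h1 hj h).tsum_le_tsum (fun n => ?_)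
    (((summable_Nn h0 h1 (Nat.zero_le k) h).add (summable_Tn h0 h1 hj h)).mul_left _)
  rw [pow_zero, ← add_mul, ← mul_assoc]
  refine mul_le_mul_of_nonneg_right ?_ (norm_nonneg _)
  set x : ℝ := ℓ * ‖n‖ with hx
  have hx0 : 0 ≤ x := by positivity
  rcases le_total x 1 with h | h
  · calc (1 + x) ^ j ≤ 2 ^ j := by
          gcongr
          linarith
      _ ≤ 2 ^ j * (1 + x ^ j) := le_mul_of_one_le_right (by positivity)
          (by have : 0 ≤ x ^ j := by positivity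
              linarith)
  · calc (1 + x) ^ j ≤ (2 * x) ^ j := by
          gcongr
          linarith
      _ = 2 ^ j * x ^ j := mul_pow _ _ _
      _ ≤ 2 ^ j * (1 + x ^ j) := by
          gcongr
          linarith

theorem Tn_add_le {ℓ : ℝ} (h0 : 0 ≤ ℓ) (h1 : ℓ ≤ 1) {j : ℕ} (hj : j ≤ k) (g h : WA d k) :
    Tn ℓ j (g + h) ≤ Tn ℓ j g + Tn ℓ j h := by
  unfold Tn
  rw [← (summable_Tn h0 h1 hj g).tsum_add (summable_Tn h0 h1 hj h)]
  refine (summable_Tn h0 h1 hj (g + h)).tsum_le_tsum (fun n => ?_)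
    ((summable_Tn h0 h1 hj g).add (summable_Tn h0 h1 hj h))
  rw [coef_add, ← mul_add]
  exact mul_le_mul_of_nonneg_left (norm_add_le _ _) (by positivity)

theorem Tn_neg (ℓ : ℝ) (j : ℕ) (h : WA d k) : Tn ℓ j (-h) = Tn ℓ j h := by
  unfold Tn
  simp only [coef_neg, norm_neg]

theorem Tn_sub_le {ℓ : ℝ} (h0 : 0 ≤ ℓ) (h1 : ℓ ≤ 1) {j : ℕ} (hj : j ≤ k) (g h : WA d k) :
    Tn ℓ j (g - h) ≤ Tn ℓ j g + Tn ℓ j h := by
  rw [sub_eq_add_neg, ← Tn_neg ℓ j h]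
  exact Tn_add_le h0 h1 hj g (-h)

theorem Tn_smul (ℓ : ℝ) (j : ℕ) (c : ℂ) (h : WA d k) : Tn ℓ j (c • h) = ‖c‖ * Tn ℓ j h := by
  unfold Tn
  rw [← tsum_mul_left]
  refine tsum_congr fun n => ?_
  rw [coef_smul, norm_mul]
  ring

theorem Tn_conjL (ℓ : ℝ) (j : ℕ) (h : WA d k) : Tn ℓ j (conjL h) = Tn ℓ j h := by
  unfold Tn
  rw [← (Equiv.neg (Lat d)).tsum_eq fun n => (ℓ * ‖n‖) ^ j * ‖coef h n‖]
  refine tsum_congr fun n => ?_
  rw [coef_conjL, RCLike.norm_conj]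
  simp only [Equiv.neg_apply, norm_neg]

/-- The top part is homogeneous in the scale. -/
theorem Tn_scale (c ℓ : ℝ) (j : ℕ) (h : WA d k) : Tn (c * ℓ) j h = c ^ j * Tn ℓ j h := by
  unfold Tn
  rw [← tsum_mul_left]
  refine tsum_congr fun n => ?_
  rw [mul_assoc c, mul_pow]
  ring

/-! ### Products -/

/-- General weighted convolution estimate, dominated by a summable function on pairs. -/
theorem conv_le_aux {om : Lat d → ℝ} (g h : WA d k) (hom0 : ∀ n, 0 ≤ om n)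
    (hom : ∀ n, om n ≤ W k n) (G : Lat d × Lat d → ℝ) (hG : Summable G)
    (hle : ∀ m n : Lat d, om (m + n) * (‖coef g m‖ * ‖coef h n‖) ≤ G (m, n)) :
    ∑' n, om n * ‖coef (g * h) n‖ ≤ ∑' q, G q := by
  have hsh : Summable fun p : Lat d × Lat d => G (p.2, p.1 - p.2) :=
    (shear d).summable_iff.2 hG
  have h1 : ∀ n, om n * ‖coef (g * h) n‖ ≤ ∑' m, G (m, n - m) := by
    intro n
    rw [coef_mul]
    have hs1 : Summable fun m => ‖coef g m * coef h (n - m)‖ := summable_conv_norm g h n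
    calc om n * ‖∑' m, coef g m * coef h (n - m)‖
        ≤ om n * ∑' m, ‖coef g m * coef h (n - m)‖ :=
          mul_le_mul_of_nonneg_left (norm_tsum_le_tsum_norm hs1) (hom0 n)
      _ = ∑' m, om n * ‖coef g m * coef h (n - m)‖ := tsum_mul_left.symm
      _ ≤ _ := by
          refine (hs1.mul_left (om n)).tsum_le_tsum (fun m => ?_) (hsh.prod_factor n)
          rw [norm_mul]
          have h2 := hle m (n - m)
          rwa [add_sub_cancel] at h2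
  have homs : Summable fun n => om n * ‖coef (g * h) n‖ :=
    Summable.of_nonneg_of_le (fun n => mul_nonneg (hom0 n) (norm_nonneg _))
      (fun n => mul_le_mul_of_nonneg_right (hom n) (norm_nonneg _)) (g * h).summable
  refine (homs.tsum_le_tsum h1 hsh.prod).trans (le_of_eq ?_)
  rw [← hsh.tsum_prod]
  exact (shear d).tsum_eq G

/-- Weighted convolution estimate for one product of weights. -/
theorem conv_le {om α β : Lat d → ℝ} (g h : WA d k) (hom0 : ∀ n, 0 ≤ om n)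
    (hom : ∀ n, om n ≤ W k n) (hα0 : ∀ n, 0 ≤ α n) (hβ0 : ∀ n, 0 ≤ β n)
    (hα : Summable fun n => α n * ‖coef g n‖) (hβ : Summable fun n => β n * ‖coef h n‖)
    (hle : ∀ m n : Lat d, om (m + n) ≤ α m * β n) :
    ∑' n, om n * ‖coef (g * h) n‖ ≤ (∑' n, α n * ‖coef g n‖) * (∑' n, β n * ‖coef h n‖) := by
  have hp : Summable fun q : Lat d × Lat d => (α q.1 * ‖coef g q.1‖) * (β q.2 * ‖coef h q.2‖) :=
    hα.mul_of_nonneg hβ (fun m => mul_nonneg (hα0 m) (norm_nonneg _))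
      (fun m => mul_nonneg (hβ0 m) (norm_nonneg _))
  rw [hα.tsum_mul_tsum hβ hp]
  refine conv_le_aux g h hom0 hom _ hp fun m n => ?_
  calc om (m + n) * (‖coef g m‖ * ‖coef h n‖) ≤ (α m * β n) * (‖coef g m‖ * ‖coef h n‖) :=
        mul_le_mul_of_nonneg_right (hle m n) (by positivity)
    _ = _ := by ring

/-- Weighted convolution estimate for a sum of two products of weights. -/
theorem conv_le_two {om α β α' β' : Lat d → ℝ} (g h : WA d k) (hom0 : ∀ n, 0 ≤ om n)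
    (hom : ∀ n, om n ≤ W k n) (hα0 : ∀ n, 0 ≤ α n) (hβ0 : ∀ n, 0 ≤ β n)
    (hα0' : ∀ n, 0 ≤ α' n) (hβ0' : ∀ n, 0 ≤ β' n)
    (hα : Summable fun n => α n * ‖coef g n‖) (hβ : Summable fun n => β n * ‖coef h n‖)
    (hα' : Summable fun n => α' n * ‖coef g n‖) (hβ' : Summable fun n => β' n * ‖coef h n‖)
    (hle : ∀ m n : Lat d, om (m + n) ≤ α m * β n + α' m * β' n) :
    ∑' n, om n * ‖coef (g * h) n‖ ≤ (∑' n, α n * ‖coef g n‖) * (∑' n, β n * ‖coef h n‖)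
      + (∑' n, α' n * ‖coef g n‖) * (∑' n, β' n * ‖coef h n‖) := by
  have hp : Summable fun q : Lat d × Lat d => (α q.1 * ‖coef g q.1‖) * (β q.2 * ‖coef h q.2‖) :=
    hα.mul_of_nonneg hβ (fun m => mul_nonneg (hα0 m) (norm_nonneg _))
      (fun m => mul_nonneg (hβ0 m) (norm_nonneg _))
  have hp' : Summable fun q : Lat d × Lat d =>
      (α' q.1 * ‖coef g q.1‖) * (β' q.2 * ‖coef h q.2‖) :=
    hα'.mul_of_nonneg hβ' (fun m => mul_nonneg (hα0' m) (norm_nonneg _))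
      (fun m => mul_nonneg (hβ0' m) (norm_nonneg _))
  rw [hα.tsum_mul_tsum hβ hp, hα'.tsum_mul_tsum hβ' hp', ← hp.tsum_add hp']
  refine conv_le_aux g h hom0 hom _ (hp.add hp') fun m n => ?_
  calc om (m + n) * (‖coef g m‖ * ‖coef h n‖)
      ≤ (α m * β n + α' m * β' n) * (‖coef g m‖ * ‖coef h n‖) :=
        mul_le_mul_of_nonneg_right (hle m n) (by positivity)
    _ = _ := by ring

theorem Nn_mul_le {ℓ : ℝ} (h0 : 0 ≤ ℓ) (h1 : ℓ ≤ 1) {j : ℕ} (hj : j ≤ k) (g h : WA d k) :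
    Nn ℓ j (g * h) ≤ Nn ℓ j g * Nn ℓ j h := by
  refine conv_le g h (fun n => wt_nonneg h0 j n) (fun n => wt_le_W h0 h1 hj n)
    (fun n => wt_nonneg h0 j n) (fun n => wt_nonneg h0 j n)
    (summable_Nn h0 h1 hj g) (summable_Nn h0 h1 hj h) (fun m n => ?_)
  rw [← mul_pow]
  gcongr
  have h2 := mul_le_mul_of_nonneg_left (norm_add_le m n) h0
  nlinarith [mul_nonneg (mul_nonneg h0 (norm_nonneg m)) (mul_nonneg h0 (norm_nonneg n))]

/-- `(x+y)^j ≤ 2 x^j + C y^j`. -/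
theorem exists_add_pow_le (j : ℕ) : ∃ C : ℝ, 0 ≤ C ∧ ∀ x y : ℝ, 0 ≤ x → 0 ≤ y →
    (x + y) ^ j ≤ 2 * x ^ j + C * y ^ j := by
  obtain ⟨ε, hε0, hε⟩ : ∃ ε : ℝ, 0 < ε ∧ (1 + ε) ^ j ≤ 2 := by
    have hc : ContinuousAt (fun ε : ℝ => (1 + ε) ^ j) 0 := by fun_prop
    have h2 : ∀ᶠ ε in 𝓝 (0 : ℝ), (1 + ε) ^ j < 2 := by
      refine hc.eventually_lt continuousAt_const ?_
      simp
    obtain ⟨δ, hδ, h3⟩ := Metric.eventually_nhds_iff.1 h2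
    refine ⟨δ / 2, by positivity, (h3 ?_).le⟩
    rw [Real.dist_eq, sub_zero, abs_of_pos (by positivity)]
    linarith
  refine ⟨(1 + ε⁻¹) ^ j, by positivity, fun x y hx hy => ?_⟩
  rcases le_total y (ε * x) with h | h
  · calc (x + y) ^ j ≤ ((1 + ε) * x) ^ j := by
          gcongr
          linarith
      _ = (1 + ε) ^ j * x ^ j := mul_pow _ _ _
      _ ≤ 2 * x ^ j := by gcongr
      _ ≤ 2 * x ^ j + (1 + ε⁻¹) ^ j * y ^ j := by
          have : 0 ≤ (1 + ε⁻¹) ^ j * y ^ j := by positivity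
          linarith
  · have h2 : x ≤ ε⁻¹ * y := by
      rw [← div_eq_inv_mul, le_div_iff₀ hε0]
      linarith
    calc (x + y) ^ j ≤ ((1 + ε⁻¹) * y) ^ j := by
          gcongr
          linarith
      _ = (1 + ε⁻¹) ^ j * y ^ j := mul_pow _ _ _
      _ ≤ 2 * x ^ j + (1 + ε⁻¹) ^ j * y ^ j := by
          have : 0 ≤ x ^ j := by positivity
          linarith

/-- The constant of the top order product estimate. -/
noncomputable def Cpow (j : ℕ) : ℝ := (exists_add_pow_le j).choose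

theorem Cpow_nonneg (j : ℕ) : 0 ≤ Cpow j := (exists_add_pow_le j).choose_spec.1

theorem add_pow_le_Cpow (j : ℕ) {x y : ℝ} (hx : 0 ≤ x) (hy : 0 ≤ y) :
    (x + y) ^ j ≤ 2 * x ^ j + Cpow j * y ^ j := (exists_add_pow_le j).choose_spec.2 x y hx hy

/-- Top order product estimate. -/
theorem Tn_mul_le {ℓ : ℝ} (h0 : 0 ≤ ℓ) (h1 : ℓ ≤ 1) {j : ℕ} (hj : j ≤ k) (g h : WA d k) :
    Tn ℓ j (g * h) ≤ 2 * Nn ℓ 0 g * Tn ℓ j h + Cpow j * Tn ℓ j g * Nn ℓ 0 h := by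
  have hC := Cpow_nonneg j
  have h2 := conv_le_two g h (om := fun n => (ℓ * ‖n‖) ^ j) (α := fun _ => 1)
    (β := fun n => 2 * (ℓ * ‖n‖) ^ j) (α' := fun n => Cpow j * (ℓ * ‖n‖) ^ j) (β' := fun _ => 1)
    (fun n => by positivity) (fun n => (top_le_wt h0 j n).trans (wt_le_W h0 h1 hj n))
    (fun n => zero_le_one) (fun n => by positivity) (fun n => by positivity)
    (fun n => zero_le_one) (by simpa using g.summable_norm)
    (by simpa only [mul_assoc] using (summable_Tn h0 h1 hj h).mul_left 2)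
    (by simpa only [mul_assoc] using (summable_Tn h0 h1 hj g).mul_left (Cpow j))
    (by simpa using h.summable_norm) (fun m n => by
      calc (ℓ * ‖m + n‖) ^ j ≤ (ℓ * ‖n‖ + ℓ * ‖m‖) ^ j := by
            gcongr
            rw [← mul_add, add_comm ‖n‖]
            exact mul_le_mul_of_nonneg_left (norm_add_le m n) h0
        _ ≤ 2 * (ℓ * ‖n‖) ^ j + Cpow j * (ℓ * ‖m‖) ^ j :=
            add_pow_le_Cpow j (by positivity) (by positivity)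
        _ = _ := by ring)
  refine h2.trans (le_of_eq ?_)
  simp only [one_mul, mul_assoc, tsum_mul_left, Nn_zero]
  unfold Tn
  ring

end Vale.Agent.P139.N
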