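import Vale.Agent.P139.H579.N0
import Vale.Agent.P139.H605.OneStep
import Vale.Agent.P139.H201.Ext6

/-! # P139 / block N : `MildProfile`, `MildModes`, `ModeUp` -/

open Set Filter Topology MeasureTheory FourierTransform
open scoped ComplexConjugate ContDiff

namespace Vale.Agent.P139.N

open Vale.Agent.P139.A Vale.Agent.P139.A.WA Vale.Agent.P139.H203 Vale.Agent.P139.BU
open Vale.Agent.P139.H201 Vale.Agent.P139.H730 Vale.Agent.P139.H605

variable {d k : ℕ}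

/-- **The cut-off lemma far from the origin.** -/
theorem fLem (d k : ℕ) : FLem d k := by
  intro ψ f r0 hr0 hψ h0 hf ε hε
  obtain ⟨φ, h1, h2, h3⟩ := hf
  have h := tail_tendsto (k := k) hψ.smooth hψ.supp3 hr0 h0 le_rfl h1 h2
  rw [Metric.tendsto_nhdsWithin_nhds] at h
  obtain ⟨δ, hδ, H⟩ := h ε hε
  refine ⟨min (δ / 2) 1, by positivity, min_le_right _ _, fun ℓ hℓ hle => ?_⟩
  have hd : dist ℓ 0 < δ := by
    rw [Real.dist_eq, sub_zero, abs_of_pos hℓ]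
    have := hle.trans (min_le_left _ _)
    linarith
  have h4 := H hℓ hd
  rw [Real.dist_eq, sub_zero] at h4
  have h5 : cu k ψ f ℓ = per k (fun x => ψ x * 𝓕⁻ φ (ℓ⁻¹ • x)) := by
    rw [cu]
    simp_rw [h3]
  rw [h5]
  exact (le_abs_self _).trans h4.le

theorem cA_pow_sub_eq_zero (n : ℕ) {x : BU.E d} (hx : ‖x‖ ≤ 1 / 2) :
    cA x - cA x * cA x ^ n = 0 := by
  rw [cA_eq_one hx]
  simp

/-- **The cut-off profile solves the rescaled equation up to a small error.** -/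
theorem mildProfile {m : ℕ} (hm : 1 ≤ m) {w : ℝ} {Q : E d → ℂ} (hQ : IsProfile d m w Q) :
    MildProfile d m k w Q := by
  intro A hA ε hε
  have ha2 : 0 < 2 * aa m := by have := aa_pos hm; positivity
  have hE := eig_profile hm hQ k
  have hwh := hE.wh.mono (Nat.le_succ k)
  have hwg := hE.wg.mono (Nat.le_succ k)
  have hψ : IsCut (fun x : BU.E d => cA x * cA x ^ (2 * m)) := isCut_cA_pow _
  set ε1 := ε / (2 * (A + 1)) with hε1
  have hε10 : 0 < ε1 := by positivity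
  obtain ⟨ℓ1, hℓ10, hℓ11, h1⟩ := fLem d k _ (NQ m Q) (1 / 2) (by norm_num) (isCut_cA.sub hψ)
    (fun x hx => cA_pow_sub_eq_zero _ hx) hwh ε1 hε10
  obtain ⟨C, hC0, hC⟩ := rho_bound (k := k) isCut_cA hwg
    (fun j => (hE.wp j).mono (Nat.le_succ k))
  refine ⟨min ℓ1 (ε1 / (C + 1)), by positivity, ?_⟩
  intro ℓ hℓ hℓle
  have hℓ1' : ℓ ≤ 1 := hℓle.trans ((min_le_left _ _).trans hℓ11)
  set D : ℝ → WA d k := fun s => (cu k cA (NQ m Q) (sc ℓ s) - rho k cA Q (sc ℓ s)) -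
      (-Complex.I) • F m (Up k Q (sc ℓ s)) with hD
  have hWc : ContinuousOn (fun s => Up k Q (sc ℓ s)) (Icc 0 A) :=
    continuousOn_cu isCut_cA hE.wg hℓ hℓ1' A
  have hBc : ContinuousOn (fun s => (-Complex.I) • F m (Up k Q (sc ℓ s))) (Icc 0 A) :=
    (continuousOn_F hWc).const_smul (-Complex.I)
  have hSc : ContinuousOn (fun s => cu k cA (NQ m Q) (sc ℓ s) - rho k cA Q (sc ℓ s)) (Icc 0 A) :=
    (continuousOn_cu isCut_cA hE.wh hℓ hℓ1' A).sub
      (continuousOn_rho isCut_cA hE.wg hE.wp hℓ hℓ1' A)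
  have hDc : ContinuousOn D (Icc 0 A) := hSc.sub hBc
  refine ⟨duh (aa m) w ℓ D, continuousOn_duh _ _ _ hA.le hDc, fun t ht => ⟨?_, ?_⟩⟩
  · have e1 := ecu_duhamel isCut_cA hE hℓ hℓ1' t ht
    have e2 := duh_add (aa m) w ℓ hBc hDc ht
    simp only [duh] at e2
    have e0 : ∀ s, ecu k cA Q 0 ℓ s = Up k Q (sc ℓ s) := by
      intro s
      rw [ecu, zero_mul, Real.exp_zero, Complex.ofReal_one, one_smul, Up_eq_cu]
    rw [e0, e0, sc_zero] at e1
    have e3 : (∫ s in (0 : ℝ)..t, Uf (aa m) w ℓ t s (((Real.exp (0 * s) : ℝ) : ℂ) •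
          (cu k cA (NQ m Q) (sc ℓ s) - rho k cA Q (sc ℓ s))))
        = ∫ s in (0 : ℝ)..t, Uf (aa m) w ℓ t s
            ((-Complex.I) • F m (Up k Q (sc ℓ s)) + D s) := by
      apply intervalIntegral.integral_congr
      intro s _
      show Uf (aa m) w ℓ t s _ = Uf (aa m) w ℓ t s (_ + D s)
      congr 1
      rw [hD, zero_mul, Real.exp_zero, Complex.ofReal_one, one_smul]
      exact (add_sub_cancel _ _).symm
    rw [duh, add_assoc, ← e2, ← e3]
    exact e1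
  · have hb : ∀ s ∈ Icc 0 A, Nn (sc ℓ s) k (D s) ≤ 2 * ε1 := by
      intro s hs
      have hs0 := sc_pos hℓ s
      have hs1 : sc ℓ s ≤ ℓ := sc_le_self hℓ.le hs.1
      have hs1' : sc ℓ s ≤ 1 := hs1.trans hℓ1'
      have e2 : D s = cu k (fun x => cA x - cA x * cA x ^ (2 * m)) (NQ m Q) (sc ℓ s)
            - rho k cA Q (sc ℓ s) := by
        rw [hD]
        simp only
        rw [F_Up hs0 hs1' hwg, ← Nn_cu_sub_le isCut_cA hψ hs0 hs1' hwh]
        abel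
      rw [e2]
      refine (Nn_sub_le hs0.le hs1' le_rfl _ _).trans ?_
      have h4 := h1 (sc ℓ s) hs0 (hs1.trans (hℓle.trans (min_le_left _ _)))
      have h5 := hC (sc ℓ s) hs0 hs1'
      have h6 : C * sc ℓ s ≤ ε1 := by
        have h7 : sc ℓ s ≤ ε1 / (C + 1) := hs1.trans (hℓle.trans (min_le_right _ _))
        rw [le_div_iff₀ (by positivity)] at h7
        nlinarith
      linarith
    refine (Nn_duh_le (aa_nonneg m) hℓ.le hℓ1' hDc (by positivity) hb t ht).trans ?_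
    rw [hε1]
    have : A * (2 * (ε / (2 * (A + 1)))) = A / (A + 1) * ε := by
      field_simp
    rw [this]
    have h9 : A / (A + 1) ≤ 1 := by
      rw [div_le_one (by positivity)]
      linarith
    calc A / (A + 1) * ε ≤ 1 * ε := by gcongr
      _ = ε := one_mul _

/-! ### The modes -/

theorem wn_phase {m : ℕ} (hm : 1 ≤ m) {w : ℝ} {Q : E d → ℂ} (hQ : IsProfile d m w Q) (K : ℕ) :
    Wn K (phaseMode Q) := by
  have ha : 0 < 2 * aa m := by have := aa_pos' hm; positivity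
  exact Symb.wn ha (symb_phaseMode hQ) K

theorem wn_pd {m : ℕ} (hm : 1 ≤ m) {w : ℝ} {Q : E d → ℂ} (hQ : IsProfile d m w Q) (K : ℕ)
    (j : Fin d) : Wn K (pd j Q) := by
  have ha : 0 < 2 * aa m + 1 := by have := aa_pos' hm; positivity
  exact Symb.wn ha (symb_pd hQ j) K

theorem wn_time {m : ℕ} (hm : 1 ≤ m) {w : ℝ} {Q : E d → ℂ} (hQ : IsProfile d m w Q) (K : ℕ) :
    Wn K (timeMode m w Q) := by
  have ha : 0 < 2 * aa m := by have := aa_pos' hm; positivity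
  exact Symb.wn ha (symb_timeMode hQ) K

theorem wn_profile {m : ℕ} (hm : 1 ≤ m) {w : ℝ} {Q : E d → ℂ} (hQ : IsProfile d m w Q) (K : ℕ) :
    Wn K Q := by
  have ha : 0 < 2 * aa m := by have := aa_pos' hm; positivity
  exact Symb.wn ha (IsProfile.symb hQ) K

theorem symb_modeOf {m : ℕ} {w : ℝ} {Q : E d → ℂ} (hQ : IsProfile d m w Q)
    (α : ℝ) (β : Fin d → ℝ) (γ : ℝ) : Symb (2 * aa m) (modeOf m w Q α β γ) := by
  classical
  have h2 : ∀ S : Finset (Fin d), Symb (2 * aa m) (fun y => ∑ i ∈ S, (β i : ℂ) * pd i Q y) := by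
    intro S
    induction S using Finset.induction_on with
    | empty =>
      simp only [Finset.sum_empty]
      have := (IsProfile.symb hQ).const_mul 0
      simpa using this
    | insert i S hi ih =>
      simp only [Finset.sum_insert hi]
      exact (((symb_pd hQ i).mono (by linarith)).const_mul _).add ih
  exact (((symb_phaseMode hQ).const_mul _).add (h2 Finset.univ)).add
    ((symb_timeMode hQ).const_mul _)

theorem wn_modeOf {m : ℕ} (hm : 1 ≤ m) {w : ℝ} {Q : E d → ℂ} (hQ : IsProfile d m w Q) (K : ℕ)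
    (α : ℝ) (β : Fin d → ℝ) (γ : ℝ) : Wn K (modeOf m w Q α β γ) := by
  have ha : 0 < 2 * aa m := by have := aa_pos' hm; positivity
  exact Symb.wn ha (symb_modeOf hQ α β γ) K

/-- decomposition of the cut-off of a mode -/
theorem cu_modeOf {m : ℕ} (hm : 1 ≤ m) {w : ℝ} {Q χ : E d → ℂ} (hQ : IsProfile d m w Q)
    (hχ : IsCut χ) {ℓ : ℝ} (hℓ : 0 < ℓ) (hℓ1 : ℓ ≤ 1) (α : ℝ) (β : Fin d → ℝ) (γ : ℝ) :
    cu k χ (modeOf m w Q α β γ) ℓ = (α : ℂ) • cu k χ (phaseMode Q) ℓ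
      + (∑ i, (β i : ℂ) • cu k χ (pd i Q) ℓ) + (γ : ℂ) • cu k χ (timeMode m w Q) ℓ := by
  apply A.WA.ev_injective
  intro x
  have e0 := (hχ.loc hℓ hℓ1 (wn_modeOf hm hQ k α β γ)).ev_per x
  have e1 := (hχ.loc hℓ hℓ1 (wn_phase hm hQ k)).ev_per x
  have e2 := fun i => (hχ.loc hℓ hℓ1 (wn_pd hm hQ k i)).ev_per x
  have e3 := (hχ.loc hℓ hℓ1 (wn_time hm hQ k)).ev_per x
  have e4 : A.WA.ev (∑ i, (β i : ℂ) • cu k χ (pd i Q) ℓ) x
      = ∑ i, (β i : ℂ) * A.WA.ev (cu k χ (pd i Q) ℓ) x := by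
    have : ∀ S : Finset (Fin d), A.WA.ev (∑ i ∈ S, (β i : ℂ) • cu k χ (pd i Q) ℓ) x
        = ∑ i ∈ S, (β i : ℂ) * A.WA.ev (cu k χ (pd i Q) ℓ) x := by
      classical
      intro S
      induction S using Finset.induction_on with
      | empty => simp [A.WA.ev_zero]
      | insert i S hi ih =>
        rw [Finset.sum_insert hi, Finset.sum_insert hi, A.WA.ev_add, ih, A.WA.ev_smul]
    exact this Finset.univ
  rw [A.WA.ev_add, A.WA.ev_add, A.WA.ev_smul, A.WA.ev_smul, e4]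
  unfold cu
  rw [e0, e1, e3]
  simp only [e2]
  simp only [perF, modeOf]
  simp only [mul_add, Finset.mul_sum]
  congr 1
  · congr 1
    · ring
    · exact Finset.sum_congr rfl fun i _ => by ring
  · ring

/-- **Boundedness and additivity of the cut-off modes.** -/
theorem modeUp {m : ℕ} (hm : 1 ≤ m) {w : ℝ} {Q : E d → ℂ} (hQ : IsProfile d m w Q) (K : ℕ) :
    ∃ C : ℝ, 0 ≤ C ∧ ModeUp d m K w Q C := by
  obtain ⟨C1, h10, h1⟩ := cu_bound (k := K) isCut_cA (wn_phase hm hQ K)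
  choose C2 h20 h2 using fun i => cu_bound (k := K) isCut_cA (wn_pd hm hQ K i)
  obtain ⟨C3, h30, h3⟩ := cu_bound (k := K) isCut_cA (wn_time hm hQ K)
  have hS : 0 ≤ ∑ i, C2 i := Finset.sum_nonneg fun i _ => h20 i
  have hC : 0 ≤ C1 + ∑ i, C2 i + C3 := by positivity
  refine ⟨C1 + ∑ i, C2 i + C3, hC, ?_, ?_⟩
  · intro ℓ hℓ hℓ1 α β γ
    rw [Up_eq_cu, cu_modeOf hm hQ isCut_cA hℓ hℓ1]
    refine (Nn_add_le hℓ.le hℓ1 le_rfl _ _).trans ?_
    have e1 := Nn_add_le hℓ.le hℓ1 le_rfl ((α : ℂ) • cu K cA (phaseMode Q) ℓ)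
      (∑ i, (β i : ℂ) • cu K cA (pd i Q) ℓ)
    have e2 := Nn_sum_le Finset.univ hℓ.le hℓ1 le_rfl fun i => (β i : ℂ) • cu K cA (pd i Q) ℓ
    simp only [Nn_smul, Complex.norm_real, Real.norm_eq_abs] at e1 e2 ⊢
    have a1 : |α| * Nn ℓ K (cu K cA (phaseMode Q) ℓ) ≤ |α| * (C1 + ∑ i, C2 i + C3) := by
      have := h1 ℓ hℓ hℓ1
      gcongr
      linarith
    have a2 : ∑ i, |β i| * Nn ℓ K (cu K cA (pd i Q) ℓ)
        ≤ ∑ i, |β i| * (C1 + ∑ i, C2 i + C3) := by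
      refine Finset.sum_le_sum fun i _ => ?_
      have := h2 i ℓ hℓ hℓ1
      have h4 : C2 i ≤ ∑ i, C2 i :=
        Finset.single_le_sum (f := C2) (fun i _ => h20 i) (Finset.mem_univ i)
      gcongr
      linarith
    have a3 : |γ| * Nn ℓ K (cu K cA (timeMode m w Q) ℓ) ≤ |γ| * (C1 + ∑ i, C2 i + C3) := by
      have := h3 ℓ hℓ hℓ1
      gcongr
      linarith
    have a4 : (C1 + ∑ i, C2 i + C3) * msz α β γ = |α| * (C1 + ∑ i, C2 i + C3)
        + ∑ i, |β i| * (C1 + ∑ i, C2 i + C3) + |γ| * (C1 + ∑ i, C2 i + C3) := by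
      rw [msz, ← Finset.sum_mul]
      ring
    rw [a4]
    linarith
  · intro ℓ hℓ hℓ1 α β γ
    rw [Up_eq_cu, Up_eq_cu, Up_eq_cu]
    exact (cu_add isCut_cA hℓ hℓ1 (wn_profile hm hQ K) (wn_modeOf hm hQ K α β γ)).symm

theorem LinMild.congr {m : ℕ} {a w ℓ A : ℝ} {W E E' H : ℝ → WA d k} {γ : ℝ} (hA : 0 ≤ A)
    (h : LinMild m a w ℓ A W E H γ) (he : ∀ t ∈ Icc 0 A, E' t = E t) :
    LinMild m a w ℓ A W E' H γ where
  contE := h.contE.congr he
  contH := h.contH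
  eqn t ht := by
    have e : (∫ s in (0 : ℝ)..t, Uf a w ℓ t s (BW m (W s) (E' s)))
        = ∫ s in (0 : ℝ)..t, Uf a w ℓ t s (BW m (W s) (E s)) := by
      refine intervalIntegral.integral_congr fun s hs => ?_
      rw [uIcc_of_le ht.1] at hs
      show Uf a w ℓ t s (BW m (W s) (E' s)) = Uf a w ℓ t s (BW m (W s) (E s))
      rw [he s ⟨hs.1, hs.2.trans ht.2⟩]
    rw [he t ht, he 0 ⟨le_rfl, hA⟩, e]
    exact h.eqn t ht
  bound := h.bound

/-- **The cut-off modes solve the linearised rescaled equation up to a small error.** -/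
theorem mildModes {m : ℕ} (hm : 1 ≤ m) {w : ℝ} {Q : E d → ℂ} (hQ : IsProfile d m w Q) :
    MildModes d m k w Q := by
  intro A hA ε hε
  have hQw := wn_profile hm hQ (k + 1)
  have hdiff : ∀ x : BU.E d, ‖x‖ ≤ 1 / 2 → cA x - cA x * cA x ^ (2 * m) = 0 :=
    fun x hx => cA_pow_sub_eq_zero _ hx
  have hlin := fun {lam : ℝ} {g : BU.E d → ℂ} (hE : Eig k (aa m) w lam g (BQ m Q g)) =>
    ecu_linMild (fLem d k) hm hA.le hQw isCut_cA conj_cA hE (r0 := 1 / 2) (by norm_num) hdiff ε hε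
  obtain ⟨ℓ1, h10, h11, h1⟩ := hlin (eig_phase hm hQ k)
  choose ℓ2 h20 h21 h2 using fun i => hlin (eig_pd hm hQ k i)
  obtain ⟨ℓ3, h30, h31, h3⟩ := hlin (eig_time hm hQ k)
  obtain ⟨ℓm, hm0, hmle⟩ : ∃ ℓm : ℝ, 0 < ℓm ∧ ∀ i, ℓm ≤ ℓ2 i := by
    classical
    rcases isEmpty_or_nonempty (Fin d) with he | hne
    · exact ⟨1, one_pos, fun i => (he.false i).elim⟩
    · obtain ⟨i, hi⟩ := Finite.exists_min ℓ2
      exact ⟨ℓ2 i, h20 i, hi⟩
  refine ⟨min (min ℓ1 ℓ3) ℓm, by positivity, ?_⟩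
  intro ℓ hℓ hℓle α β γ
  have l1 : ℓ ≤ ℓ1 := hℓle.trans ((min_le_left _ _).trans (min_le_left _ _))
  have l3 : ℓ ≤ ℓ3 := hℓle.trans ((min_le_left _ _).trans (min_le_right _ _))
  have l2 : ∀ i, ℓ ≤ ℓ2 i := fun i => (hℓle.trans (min_le_right _ _)).trans (hmle i)
  have hℓ1 : ℓ ≤ 1 := l1.trans h11
  obtain ⟨H1, g1⟩ := h1 ℓ hℓ l1
  choose H2 g2 using fun i => h2 i ℓ hℓ (l2 i)
  obtain ⟨H3, g3⟩ := h3 ℓ hℓ l3
  have hWc : ContinuousOn (fun s => (Up k Q (sc ℓ s) : WA d k)) (Icc 0 A) :=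
    continuousOn_cu isCut_cA hQw hℓ hℓ1 A
  have hsum := LinMild.sum Finset.univ hℓ.le hℓ1 hWc fun i _ => (g2 i).smul (β i)
  have htot := ((g1.smul α).add hℓ.le hℓ1 hWc hsum).add hℓ.le hℓ1 hWc (g3.smul γ)
  -- the curve is the mode flow
  have hcurve : ∀ t ∈ Icc 0 A, (α : ℂ) • ecu k cA (phaseMode Q) 0 ℓ t
      + (∑ i, (β i : ℂ) • ecu k cA (pd i Q) (1 / 2) ℓ t)
      + (γ : ℂ) • ecu k cA (timeMode m w Q) 1 ℓ t = Up k (modeFlow m w Q α β γ t) (sc ℓ t) := by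
    intro t ht
    have hs0 := sc_pos hℓ t
    have hs1 : sc ℓ t ≤ 1 := (sc_le_self hℓ.le ht.1).trans hℓ1
    rw [Up_eq_cu, modeFlow, cu_modeOf hm hQ isCut_cA hs0 hs1]
    simp only [ecu, smul_smul]
    congr 1
    · congr 1
      · rw [zero_mul, Real.exp_zero]
        simp
      · refine Finset.sum_congr rfl fun i _ => ?_
        congr 1
        rw [show (1 / 2 : ℝ) * t = t / 2 by ring]
        push_cast
        ring
    · congr 1
      rw [one_mul]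
      push_cast
      ring
  have hfin := LinMild.congr hA.le htot (E' := fun t => Up k (modeFlow m w Q α β γ t) (sc ℓ t))
    (fun t ht => (hcurve t ht).symm)
  obtain ⟨hc1, hc2, hc3, hc4⟩ := hfin
  refine ⟨_, hc2, hc1, fun t ht => ⟨?_, ?_⟩⟩
  · have e1 := hc3 t ht
    simp only [sc_zero, modeFlow_zero] at e1
    exact e1
  · refine (hc4 t ht).trans (le_of_eq ?_)
    rw [msz, ← Finset.sum_mul]
    ring

end Vale.Agent.P139.N
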