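import Vale.Agent.P139.H579.NDefs

/-!
# P139 / block N : the nested cut-offs

`cA = 1` on the support of `c1`, `c1 = 1` on the support of `c2`, `c2 = 1` near `0`.
-/

open Set Filter Topology MeasureTheory
open scoped ComplexConjugate ContDiff

namespace Vale.Agent.P139.N

open Vale.Agent.P139.A Vale.Agent.P139.A.WA Vale.Agent.P139.H203 Vale.Agent.P139.BU

variable {d k : ℕ}

/-- Cut-off of the restriction operator: `1` for `‖x‖ ≤ 1/4`, `0` for `‖x‖ ≥ 1/2`. -/
noncomputable def c1 (x : E d) : ℂ := cA ((2 : ℝ) • x)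

/-- Cut-off of the extension operator: `1` for `‖x‖ ≤ 1/8`, `0` for `‖x‖ ≥ 1/4`. -/
noncomputable def c2 (x : E d) : ℂ := cA ((4 : ℝ) • x)

theorem cA_eq_one {x : E d} (hx : ‖x‖ ≤ 1 / 2) : cA x = 1 := by
  have : (bA d) x = 1 := (bA d).one_of_mem_closedBall (by
    rw [mem_closedBall_zero_iff]; exact hx)
  simp [cA, this]

theorem cA_eq_zero {x : E d} (hx : 1 ≤ ‖x‖) : cA x = 0 := by
  have : (bA d) x = 0 := (bA d).zero_of_le_dist (by
    rw [dist_zero_right]; exact hx)
  simp [cA, this]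

theorem norm_cA_le (x : E d) : ‖cA x‖ ≤ 1 := by
  rw [cA, Complex.norm_real, Real.norm_of_nonneg ((bA d).nonneg)]
  exact (bA d).le_one

theorem conj_cA (x : E d) : conj (cA x) = cA x := by simp [cA]

theorem contDiff_cA : ContDiff ℝ ∞ (cA : E d → ℂ) :=
  Complex.ofRealCLM.contDiff.comp ((bA d).contDiff)

theorem c1_eq_one {x : E d} (hx : ‖x‖ ≤ 1 / 4) : c1 x = 1 := by
  apply cA_eq_one
  rw [norm_smul]; norm_num; linarith

theorem c1_eq_zero {x : E d} (hx : 1 / 2 ≤ ‖x‖) : c1 x = 0 := by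
  apply cA_eq_zero
  rw [norm_smul]; norm_num; linarith

theorem c2_eq_one {x : E d} (hx : ‖x‖ ≤ 1 / 8) : c2 x = 1 := by
  apply cA_eq_one
  rw [norm_smul]; norm_num; linarith

theorem c2_eq_zero {x : E d} (hx : 1 / 4 ≤ ‖x‖) : c2 x = 0 := by
  apply cA_eq_zero
  rw [norm_smul]; norm_num; linarith

theorem norm_c1_le (x : E d) : ‖c1 x‖ ≤ 1 := norm_cA_le _
theorem norm_c2_le (x : E d) : ‖c2 x‖ ≤ 1 := norm_cA_le _

theorem conj_c1 (x : E d) : conj (c1 x) = c1 x := conj_cA _
theorem conj_c2 (x : E d) : conj (c2 x) = c2 x := conj_cA _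

theorem contDiff_c1 : ContDiff ℝ ∞ (c1 : E d → ℂ) :=
  contDiff_cA.comp (contDiff_const_smul (2 : ℝ))

theorem contDiff_c2 : ContDiff ℝ ∞ (c2 : E d → ℂ) :=
  contDiff_cA.comp (contDiff_const_smul (4 : ℝ))

/-- `cA = 1` on the support of `c1`. -/
theorem c1_mul_cA (x : E d) : c1 x * cA x = c1 x := by
  rcases le_total ‖x‖ (1 / 2) with h | h
  · rw [cA_eq_one h, mul_one]
  · rw [c1_eq_zero h, zero_mul]

/-- `c1 = 1` on the support of `c2`. -/
theorem c2_mul_c1 (x : E d) : c2 x * c1 x = c2 x := by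
  rcases le_total ‖x‖ (1 / 4) with h | h
  · rw [c1_eq_one h, mul_one]
  · rw [c2_eq_zero h, zero_mul]

theorem c2_mul_cA (x : E d) : c2 x * cA x = c2 x := by
  rw [← c2_mul_c1, mul_assoc, c1_mul_cA]

theorem c1_mul_cA_pow (x : E d) (j : ℕ) : c1 x * cA x ^ j = c1 x := by
  induction j with
  | zero => simp
  | succ j ih => rw [pow_succ', ← mul_assoc, c1_mul_cA, ih]

theorem c2_mul_cA_pow (x : E d) (j : ℕ) : c2 x * cA x ^ j = c2 x := by
  induction j with
  | zero => simp
  | succ j ih => rw [pow_succ', ← mul_assoc, c2_mul_cA, ih]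

theorem hasCompactSupport_cA : HasCompactSupport (cA : E d → ℂ) := by
  have h : HasCompactSupport (fun x : E d => (bA d) x) := (bA d).hasCompactSupport
  exact h.comp_left (g := fun r : ℝ => (r : ℂ)) (by simp)

theorem hasCompactSupport_c1 : HasCompactSupport (c1 : E d → ℂ) := by
  refine HasCompactSupport.intro (K := Metric.closedBall (0 : E d) (1 / 2))
    (isCompact_closedBall _ _) fun x hx => c1_eq_zero ?_
  rw [mem_closedBall_zero_iff, not_le] at hx
  exact hx.le

theorem hasCompactSupport_c2 : HasCompactSupport (c2 : E d → ℂ) := by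
  refine HasCompactSupport.intro (K := Metric.closedBall (0 : E d) (1 / 4))
    (isCompact_closedBall _ _) fun x hx => c2_eq_zero ?_
  rw [mem_closedBall_zero_iff, not_le] at hx
  exact hx.le

end Vale.Agent.P139.N
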