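import Vale.Agent.P139.H579.Mild

/-! # P139 / block N : linearised potential and quadratic remainder on the torus -/

open Set Filter Topology MeasureTheory
open scoped ComplexConjugate

namespace Vale.Agent.P139.N

open Vale.Agent.P139.A Vale.Agent.P139.A.WA Vale.Agent.P139.H203 Vale.Agent.P139.BU

variable {d k : ℕ}

/-! ### Powers -/

theorem Nn_one (ℓ : ℝ) (j : ℕ) : Nn ℓ j (1 : WA d k) = 1 := by
  unfold Nn
  rw [tsum_eq_single 0]
  · simp [coef_one]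
  · intro n hn
    simp [coef_one, hn]

theorem Nn_pow_le {ℓ : ℝ} (h0 : 0 ≤ ℓ) (h1 : ℓ ≤ 1) {j : ℕ} (hj : j ≤ k) (g : WA d k) (n : ℕ) :
    Nn ℓ j (g ^ n) ≤ Nn ℓ j g ^ n := by
  induction n with
  | zero => simp [Nn_one]
  | succ n ih =>
    rw [pow_succ, pow_succ]
    exact (Nn_mul_le h0 h1 hj _ _).trans
      (mul_le_mul_of_nonneg_right ih (Nn_nonneg h0 j g))

theorem Nn_natCast_mul_le {ℓ : ℝ} (h0 : 0 ≤ ℓ) (h1 : ℓ ≤ 1) {j : ℕ} (hj : j ≤ k) (n : ℕ)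
    (g : WA d k) : Nn ℓ j ((n : WA d k) * g) ≤ n * Nn ℓ j g := by
  induction n with
  | zero =>
    simp only [Nat.cast_zero, zero_mul]
    have : Nn ℓ j (0 : WA d k) = 0 := by
      unfold Nn
      simp
    exact this.le
  | succ n ih =>
    rw [Nat.cast_succ, Nat.cast_succ, add_mul, add_mul, one_mul, one_mul]
    exact (Nn_add_le h0 h1 hj _ _).trans (by linarith)

/-- Second order Taylor remainder of a power. -/
noncomputable def powRem (n : ℕ) (p x : WA d k) : WA d k :=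
  (p + x) ^ n - p ^ n - (n : WA d k) * (p ^ (n - 1) * x)

theorem powRem_succ (n : ℕ) (p x : WA d k) :
    powRem (n + 1) p x = (p + x) * powRem n p x + (n : WA d k) * (p ^ (n - 1) * x * x) := by
  unfold powRem
  rcases n with _ | n
  · simp
  · simp only [Nat.add_sub_cancel]
    push_cast
    ring

theorem Nn_powRem_le {ℓ : ℝ} (h0 : 0 ≤ ℓ) (h1 : ℓ ≤ 1) {j : ℕ} (hj : j ≤ k) {M : ℝ}
    (hM : 1 ≤ M) {p x : WA d k} (hpx : Nn ℓ j p + Nn ℓ j x ≤ M) (n : ℕ) :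
    Nn ℓ j (powRem n p x) ≤ (n : ℝ) ^ 2 * M ^ n * Nn ℓ j x ^ 2 := by
  have hp0 := Nn_nonneg h0 j p
  have hx0 := Nn_nonneg h0 j x
  have hM0 : 0 ≤ M := zero_le_one.trans hM
  induction n with
  | zero =>
    have : powRem 0 p x = 0 := by
      unfold powRem
      simp
    rw [this]
    have h2 : Nn ℓ j (0 : WA d k) = 0 := by
      unfold Nn
      simp
    rw [h2]
    simp
  | succ n ih =>
    rw [powRem_succ]
    have h2 : Nn ℓ j ((p + x) * powRem n p x) ≤ M * ((n : ℝ) ^ 2 * M ^ n * Nn ℓ j x ^ 2) := by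
      refine (Nn_mul_le h0 h1 hj _ _).trans ?_
      exact mul_le_mul ((Nn_add_le h0 h1 hj p x).trans hpx) ih (Nn_nonneg h0 j _) hM0
    have h3 : Nn ℓ j ((n : WA d k) * (p ^ (n - 1) * x * x)) ≤ n * (M ^ n * Nn ℓ j x ^ 2) := by
      refine (Nn_natCast_mul_le h0 h1 hj n _).trans ?_
      refine mul_le_mul_of_nonneg_left ?_ (Nat.cast_nonneg n)
      have h4 : Nn ℓ j (p ^ (n - 1) * x * x) ≤ M ^ (n - 1) * Nn ℓ j x * Nn ℓ j x := by
        refine (Nn_mul_le h0 h1 hj _ _).trans (mul_le_mul_of_nonneg_right ?_ hx0)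
        refine (Nn_mul_le h0 h1 hj _ _).trans (mul_le_mul_of_nonneg_right ?_ hx0)
        refine (Nn_pow_le h0 h1 hj p _).trans ?_
        gcongr
        linarith
      refine h4.trans ?_
      rw [mul_assoc, ← sq]
      refine mul_le_mul_of_nonneg_right ?_ (sq_nonneg _)
      exact pow_le_pow_right₀ hM (Nat.sub_le _ _)
    refine (Nn_add_le h0 h1 hj _ _).trans ((add_le_add h2 h3).trans ?_)
    have h5 : M ^ n ≤ M ^ (n + 1) := pow_le_pow_right₀ hM (Nat.le_succ n)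
    have h6 : (0 : ℝ) ≤ n := Nat.cast_nonneg n
    have h7 : 0 ≤ Nn ℓ j x ^ 2 := sq_nonneg _
    have h8 : 0 ≤ M ^ n := pow_nonneg hM0 n
    push_cast
    calc M * ((n : ℝ) ^ 2 * M ^ n * Nn ℓ j x ^ 2) + n * (M ^ n * Nn ℓ j x ^ 2)
        = ((n : ℝ) ^ 2 * M ^ (n + 1) + n * M ^ n) * Nn ℓ j x ^ 2 := by ring
      _ ≤ ((n : ℝ) ^ 2 * M ^ (n + 1) + n * M ^ (n + 1)) * Nn ℓ j x ^ 2 := by gcongr
      _ ≤ (((n : ℝ) + 1) ^ 2 * M ^ (n + 1)) * Nn ℓ j x ^ 2 := by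
          refine mul_le_mul_of_nonneg_right ?_ h7
          rw [← add_mul]
          refine mul_le_mul_of_nonneg_right ?_ (pow_nonneg hM0 _)
          nlinarith

/-! ### The linearised potential -/

/-- The linearised potential `-i((m+1)|W|^{2m} h + m |W|^{2m-2} W² conj h)`. -/
noncomputable def BW (m : ℕ) (W h : WA d k) : WA d k :=
  (-Complex.I) • (((m : WA d k) + 1) * (W ^ m * conjL W ^ m * h) +
    (m : WA d k) * (W ^ (m + 1) * conjL W ^ (m - 1) * conjL h))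

theorem BW_add (m : ℕ) (W g h : WA d k) : BW m W (g + h) = BW m W g + BW m W h := by
  unfold BW
  rw [map_add, ← smul_add]
  congr 1
  ring

theorem BW_sub (m : ℕ) (W g h : WA d k) : BW m W (g - h) = BW m W g - BW m W h := by
  unfold BW
  rw [map_sub, ← smul_sub]
  congr 1
  ring

theorem BW_neg (m : ℕ) (W h : WA d k) : BW m W (-h) = - BW m W h := by
  unfold BW
  rw [map_neg, ← smul_neg]
  congr 1
  ring

theorem BW_zero (m : ℕ) (W : WA d k) : BW m W 0 = 0 := by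
  unfold BW
  simp

theorem ev_natCast (n : ℕ) (x : Fin d → ℝ) : ev ((n : WA d k)) x = n := by
  induction n with
  | zero => simp [ev_zero]
  | succ n ih => rw [Nat.cast_succ, ev_add, ih, ev_one]; push_cast; ring

theorem ev_BW {m : ℕ} (W h : WA d k) (x : Fin d → ℝ) :
    ev (BW m W h) x = -(Complex.I * (((m : ℂ) + 1) * W1 m (ev W x) * ev h x +
      (m : ℂ) * W2 m (ev W x) * conj (ev h x))) := by
  unfold BW W1 W2
  rw [ev_smul, ev_add, ev_mul, ev_mul, ev_mul, ev_mul, ev_mul, ev_mul, ev_add, ev_one,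
    ev_natCast, ev_pow, ev_pow, ev_pow, ev_pow, ev_conjL, ev_conjL, mul_pow]
  ring

theorem Nn_BW_le {ℓ : ℝ} (h0 : 0 ≤ ℓ) (h1 : ℓ ≤ 1) {j : ℕ} (hj : j ≤ k) {m : ℕ} (hm : 1 ≤ m)
    (W h : WA d k) : Nn ℓ j (BW m W h) ≤ (2 * m + 1) * Nn ℓ j W ^ (2 * m) * Nn ℓ j h := by
  have hW := Nn_nonneg h0 j W
  have hh := Nn_nonneg h0 j h
  have e1 : Nn ℓ j (W ^ m * conjL W ^ m * h) ≤ Nn ℓ j W ^ (2 * m) * Nn ℓ j h := by
    refine (Nn_mul_le h0 h1 hj _ _).trans (mul_le_mul_of_nonneg_right ?_ hh)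
    refine (Nn_mul_le h0 h1 hj _ _).trans ?_
    have e2 := Nn_pow_le h0 h1 hj W m
    have e3 := Nn_pow_le h0 h1 hj (conjL W) m
    rw [Nn_conjL] at e3
    calc _ ≤ Nn ℓ j W ^ m * Nn ℓ j W ^ m :=
          mul_le_mul e2 e3 (Nn_nonneg h0 j _) (pow_nonneg hW m)
      _ = _ := by rw [← pow_add]; congr 1; omega
  have e4 : Nn ℓ j (W ^ (m + 1) * conjL W ^ (m - 1) * conjL h) ≤
      Nn ℓ j W ^ (2 * m) * Nn ℓ j h := by
    refine (Nn_mul_le h0 h1 hj _ _).trans ?_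
    rw [Nn_conjL ℓ j h]
    refine mul_le_mul_of_nonneg_right ?_ hh
    refine (Nn_mul_le h0 h1 hj _ _).trans ?_
    have e2 := Nn_pow_le h0 h1 hj W (m + 1)
    have e3 := Nn_pow_le h0 h1 hj (conjL W) (m - 1)
    rw [Nn_conjL] at e3
    calc _ ≤ Nn ℓ j W ^ (m + 1) * Nn ℓ j W ^ (m - 1) :=
          mul_le_mul e2 e3 (Nn_nonneg h0 j _) (pow_nonneg hW _)
      _ = _ := by rw [← pow_add]; congr 1; omega
  unfold BW
  rw [Nn_smul, norm_neg, Complex.norm_I, one_mul]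
  refine (Nn_add_le h0 h1 hj _ _).trans ?_
  have e5 := Nn_natCast_mul_le h0 h1 hj (m + 1) (W ^ m * conjL W ^ m * h)
  have e6 := Nn_natCast_mul_le h0 h1 hj m (W ^ (m + 1) * conjL W ^ (m - 1) * conjL h)
  push_cast at e5
  have hm0 : (0 : ℝ) ≤ m := Nat.cast_nonneg m
  calc _ ≤ ((m : ℝ) + 1) * (Nn ℓ j W ^ (2 * m) * Nn ℓ j h) +
        m * (Nn ℓ j W ^ (2 * m) * Nn ℓ j h) :=
        add_le_add (e5.trans (by gcongr)) (e6.trans (by gcongr))
    _ = _ := by ring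

theorem Tn_natCast_mul_le {ℓ : ℝ} (h0 : 0 ≤ ℓ) (h1 : ℓ ≤ 1) {j : ℕ} (hj : j ≤ k) (n : ℕ)
    (g : WA d k) : Tn ℓ j ((n : WA d k) * g) ≤ n * Tn ℓ j g := by
  induction n with
  | zero =>
    simp only [Nat.cast_zero, zero_mul]
    have : Tn ℓ j (0 : WA d k) = 0 := by
      unfold Tn
      simp
    exact this.le
  | succ n ih =>
    rw [Nat.cast_succ, Nat.cast_succ, add_mul, add_mul, one_mul, one_mul]
    exact (Tn_add_le h0 h1 hj _ _).trans (by linarith)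

/-- Top order bound of the linearised potential. -/
theorem Tn_BW_le {ℓ : ℝ} (h0 : 0 ≤ ℓ) (h1 : ℓ ≤ 1) {j : ℕ} (hj : j ≤ k) {m : ℕ} (hm : 1 ≤ m)
    (W h : WA d k) : Tn ℓ j (BW m W h) ≤ 2 * (2 * m + 1) * Nn ℓ 0 W ^ (2 * m) * Tn ℓ j h +
      (2 * m + 1) * Cpow j * Nn ℓ j W ^ (2 * m) * Nn ℓ 0 h := by
  have hW := Nn_nonneg h0 j W
  have hW0 := Nn_nonneg h0 0 W
  have hh := Tn_nonneg h0 j h
  have hh0 := Nn_nonneg h0 0 h
  have hC := Cpow_nonneg j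
  have key : ∀ g g' : WA d k, Nn ℓ 0 g ≤ Nn ℓ 0 W ^ (2 * m) → Nn ℓ j g ≤ Nn ℓ j W ^ (2 * m) →
      Tn ℓ j g' = Tn ℓ j h → Nn ℓ 0 g' = Nn ℓ 0 h → Tn ℓ j (g * g') ≤
        2 * Nn ℓ 0 W ^ (2 * m) * Tn ℓ j h + Cpow j * Nn ℓ j W ^ (2 * m) * Nn ℓ 0 h := by
    intro g g' hg hg2 hg3 hg4
    refine (Tn_mul_le h0 h1 hj g g').trans ?_
    rw [hg3, hg4]
    have := (Tn_le_Nn h0 h1 hj g).trans hg2
    gcongr
  have pw : ∀ i : ℕ, i ≤ k → ∀ p q : ℕ, p + q = 2 * m →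
      Nn ℓ i (W ^ p * conjL W ^ q) ≤ Nn ℓ i W ^ (2 * m) := by
    intro i hi p q hpq
    refine (Nn_mul_le h0 h1 hi _ _).trans ?_
    have e2 := Nn_pow_le h0 h1 hi W p
    have e3 := Nn_pow_le h0 h1 hi (conjL W) q
    rw [Nn_conjL] at e3
    calc _ ≤ Nn ℓ i W ^ p * Nn ℓ i W ^ q :=
          mul_le_mul e2 e3 (Nn_nonneg h0 i _) (pow_nonneg (Nn_nonneg h0 i W) _)
      _ = _ := by rw [← pow_add, hpq]
  have e1 := key (W ^ m * conjL W ^ m) h (pw 0 (Nat.zero_le _) m m (by omega))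
    (pw j hj m m (by omega)) rfl rfl
  have e4 := key (W ^ (m + 1) * conjL W ^ (m - 1)) (conjL h)
    (pw 0 (Nat.zero_le _) (m + 1) (m - 1) (by omega))
    (pw j hj (m + 1) (m - 1) (by omega)) (Tn_conjL _ _ _) (Nn_conjL _ _ _)
  unfold BW
  rw [Tn_smul, norm_neg, Complex.norm_I, one_mul]
  refine (Tn_add_le h0 h1 hj _ _).trans ?_
  have e5 := Tn_natCast_mul_le h0 h1 hj (m + 1) (W ^ m * conjL W ^ m * h)
  have e6 := Tn_natCast_mul_le h0 h1 hj m (W ^ (m + 1) * conjL W ^ (m - 1) * conjL h)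
  push_cast at e5
  have hm0 : (0 : ℝ) ≤ m := Nat.cast_nonneg m
  calc _ ≤ ((m : ℝ) + 1) * (2 * Nn ℓ 0 W ^ (2 * m) * Tn ℓ j h +
          Cpow j * Nn ℓ j W ^ (2 * m) * Nn ℓ 0 h) +
        m * (2 * Nn ℓ 0 W ^ (2 * m) * Tn ℓ j h + Cpow j * Nn ℓ j W ^ (2 * m) * Nn ℓ 0 h) :=
        add_le_add (e5.trans (by gcongr)) (e6.trans (by gcongr))
    _ = _ := by ring

/-! ### The quadratic remainder -/

/-- The quadratic remainder of the nonlinearity (with the factor `-i`). -/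
noncomputable def RW (m : ℕ) (W h : WA d k) : WA d k :=
  (-Complex.I) • F m (W + h) - (-Complex.I) • F m W - BW m W h

theorem F_expand (m : ℕ) (W h : WA d k) :
    (-Complex.I) • F m (W + h) = (-Complex.I) • F m W + BW m W h + RW m W h := by
  unfold RW
  abel

theorem RW_eq {m : ℕ} (W h : WA d k) : RW m W h = (-Complex.I) •
    (powRem (m + 1) W h * (conjL W + conjL h) ^ m +
      (W ^ (m + 1) + ((m : WA d k) + 1) * (W ^ m * h)) * powRem m (conjL W) (conjL h) +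
      (((m : WA d k) + 1) * (W ^ m * h)) * ((m : WA d k) * (conjL W ^ (m - 1) * conjL h))) := by
  unfold RW BW F powRem
  rw [← smul_sub, ← smul_sub, map_add, Nat.add_sub_cancel]
  congr 1
  push_cast
  ring

/-- The constant in the remainder estimate. -/
noncomputable def CR (m : ℕ) : ℝ := ((m : ℝ) + 1) ^ 2 + (1 + ((m : ℝ) + 1)) * (m : ℝ) ^ 2 +
  ((m : ℝ) + 1) * m

theorem CR_nonneg (m : ℕ) : 0 ≤ CR m := by
  unfold CR
  positivity

theorem Nn_RW_le {ℓ : ℝ} (h0 : 0 ≤ ℓ) (h1 : ℓ ≤ 1) {j : ℕ} (hj : j ≤ k) {m : ℕ} {M : ℝ}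
    (hM : 1 ≤ M) {W h : WA d k} (hWh : Nn ℓ j W + Nn ℓ j h ≤ M) :
    Nn ℓ j (RW m W h) ≤ CR m * M ^ (2 * m + 1) * Nn ℓ j h ^ 2 := by
  have hW0 := Nn_nonneg h0 j W
  have hh0 := Nn_nonneg h0 j h
  have hM0 : 0 ≤ M := zero_le_one.trans hM
  have hWM : Nn ℓ j W ≤ M := by linarith
  have hhM : Nn ℓ j h ≤ M := by linarith
  have hm0 : (0 : ℝ) ≤ m := Nat.cast_nonneg m
  have hsq : 0 ≤ Nn ℓ j h ^ 2 := sq_nonneg _
  rw [RW_eq, Nn_smul, norm_neg, Complex.norm_I, one_mul]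
  -- first term
  have t1 : Nn ℓ j (powRem (m + 1) W h * (conjL W + conjL h) ^ m) ≤
      ((m : ℝ) + 1) ^ 2 * M ^ (2 * m + 1) * Nn ℓ j h ^ 2 := by
    refine (Nn_mul_le h0 h1 hj _ _).trans ?_
    have a1 := Nn_powRem_le h0 h1 hj hM hWh (m + 1)
    push_cast at a1
    have a2 : Nn ℓ j ((conjL W + conjL h) ^ m) ≤ M ^ m := by
      refine (Nn_pow_le h0 h1 hj _ m).trans ?_
      have : Nn ℓ j (conjL W + conjL h) ≤ M := by
        refine (Nn_add_le h0 h1 hj _ _).trans ?_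
        rw [Nn_conjL, Nn_conjL]
        exact hWh
      exact pow_le_pow_left₀ (Nn_nonneg h0 j _) this m
    calc _ ≤ (((m : ℝ) + 1) ^ 2 * M ^ (m + 1) * Nn ℓ j h ^ 2) * M ^ m :=
          mul_le_mul a1 a2 (Nn_nonneg h0 j _) (by positivity)
      _ = ((m : ℝ) + 1) ^ 2 * (M ^ (m + 1) * M ^ m) * Nn ℓ j h ^ 2 := by ring
      _ = _ := by rw [← pow_add]; congr 3; omega
  -- linear factor
  have lin : Nn ℓ j (((m : WA d k) + 1) * (W ^ m * h)) ≤ ((m : ℝ) + 1) * (M ^ m * Nn ℓ j h) := by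
    have a1 := Nn_natCast_mul_le h0 h1 hj (m + 1) (W ^ m * h)
    push_cast at a1
    refine a1.trans (mul_le_mul_of_nonneg_left ?_ (by positivity))
    refine (Nn_mul_le h0 h1 hj _ _).trans (mul_le_mul_of_nonneg_right ?_ hh0)
    exact (Nn_pow_le h0 h1 hj W m).trans (pow_le_pow_left₀ hW0 hWM m)
  -- second term
  have t2 : Nn ℓ j ((W ^ (m + 1) + ((m : WA d k) + 1) * (W ^ m * h)) *
      powRem m (conjL W) (conjL h)) ≤
      (1 + ((m : ℝ) + 1)) * (m : ℝ) ^ 2 * M ^ (2 * m + 1) * Nn ℓ j h ^ 2 := by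
    refine (Nn_mul_le h0 h1 hj _ _).trans ?_
    have a1 : Nn ℓ j (powRem m (conjL W) (conjL h)) ≤ (m : ℝ) ^ 2 * M ^ m * Nn ℓ j h ^ 2 := by
      have := Nn_powRem_le (p := conjL W) (x := conjL h) h0 h1 hj hM
        (by rw [Nn_conjL, Nn_conjL]; exact hWh) m
      rwa [Nn_conjL] at this
    have a2 : Nn ℓ j (W ^ (m + 1) + ((m : WA d k) + 1) * (W ^ m * h)) ≤
        (1 + ((m : ℝ) + 1)) * M ^ (m + 1) := by
      refine (Nn_add_le h0 h1 hj _ _).trans ?_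
      have b1 : Nn ℓ j (W ^ (m + 1)) ≤ M ^ (m + 1) :=
        (Nn_pow_le h0 h1 hj W _).trans (pow_le_pow_left₀ hW0 hWM _)
      have b2 : ((m : ℝ) + 1) * (M ^ m * Nn ℓ j h) ≤ ((m : ℝ) + 1) * M ^ (m + 1) := by
        rw [pow_succ]
        gcongr
      calc _ ≤ M ^ (m + 1) + ((m : ℝ) + 1) * M ^ (m + 1) := add_le_add b1 (lin.trans b2)
        _ = _ := by ring
    calc _ ≤ ((1 + ((m : ℝ) + 1)) * M ^ (m + 1)) * ((m : ℝ) ^ 2 * M ^ m * Nn ℓ j h ^ 2) :=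
          mul_le_mul a2 a1 (Nn_nonneg h0 j _) (by positivity)
      _ = (1 + ((m : ℝ) + 1)) * (m : ℝ) ^ 2 * (M ^ (m + 1) * M ^ m) * Nn ℓ j h ^ 2 := by ring
      _ = _ := by rw [← pow_add]; congr 3; omega
  -- third term
  have t3 : Nn ℓ j ((((m : WA d k) + 1) * (W ^ m * h)) *
      ((m : WA d k) * (conjL W ^ (m - 1) * conjL h))) ≤
      ((m : ℝ) + 1) * m * M ^ (2 * m + 1) * Nn ℓ j h ^ 2 := by
    refine (Nn_mul_le h0 h1 hj _ _).trans ?_
    have a1 : Nn ℓ j ((m : WA d k) * (conjL W ^ (m - 1) * conjL h)) ≤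
        m * (M ^ (m - 1) * Nn ℓ j h) := by
      refine (Nn_natCast_mul_le h0 h1 hj m _).trans (mul_le_mul_of_nonneg_left ?_ hm0)
      refine (Nn_mul_le h0 h1 hj _ _).trans ?_
      rw [Nn_conjL ℓ j h]
      refine mul_le_mul_of_nonneg_right ?_ hh0
      refine (Nn_pow_le h0 h1 hj _ _).trans ?_
      rw [Nn_conjL]
      exact pow_le_pow_left₀ hW0 hWM _
    calc _ ≤ (((m : ℝ) + 1) * (M ^ m * Nn ℓ j h)) * (m * (M ^ (m - 1) * Nn ℓ j h)) :=
          mul_le_mul lin a1 (Nn_nonneg h0 j _) (by positivity)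
      _ = ((m : ℝ) + 1) * m * (M ^ m * M ^ (m - 1)) * Nn ℓ j h ^ 2 := by ring
      _ ≤ ((m : ℝ) + 1) * m * M ^ (2 * m + 1) * Nn ℓ j h ^ 2 := by
          rw [← pow_add]
          have : M ^ (m + (m - 1)) ≤ M ^ (2 * m + 1) := pow_le_pow_right₀ hM (by omega)
          gcongr
  refine (Nn_add_le h0 h1 hj _ _).trans ?_
  refine (add_le_add_left (Nn_add_le h0 h1 hj _ _) _).trans ?_
  refine (add_le_add (add_le_add t1 t2) t3).trans (le_of_eq ?_)
  unfold CR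
  ring

/-! ### Continuity in all variables -/

theorem continuousOn_BW {m : ℕ} {Y : Type*} [TopologicalSpace Y] {S : Set Y} {W h : Y → WA d k}
    (hW : ContinuousOn W S) (hh : ContinuousOn h S) :
    ContinuousOn (fun y => BW m (W y) (h y)) S := by
  unfold BW
  have c1 : ContinuousOn (fun y => conjL (W y)) S := (conjL (d := d) (k := k)).continuous.comp_continuousOn hW
  have c2 : ContinuousOn (fun y => conjL (h y)) S := (conjL (d := d) (k := k)).continuous.comp_continuousOn hh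
  have c3 : ContinuousOn (fun y => ((m : WA d k) + 1) * (W y ^ m * conjL (W y) ^ m * h y)) S :=
    continuousOn_const.mul (((hW.pow m).mul (c1.pow m)).mul hh)
  have c4 : ContinuousOn (fun y => (m : WA d k) * (W y ^ (m + 1) * conjL (W y) ^ (m - 1) *
      conjL (h y))) S := continuousOn_const.mul (((hW.pow (m + 1)).mul (c1.pow (m - 1))).mul c2)
  exact (c3.add c4).const_smul (-Complex.I)

theorem continuousOn_RW {m : ℕ} {Y : Type*} [TopologicalSpace Y] {S : Set Y} {W h : Y → WA d k}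
    (hW : ContinuousOn W S) (hh : ContinuousOn h S) :
    ContinuousOn (fun y => RW m (W y) (h y)) S := by
  unfold RW
  have cF : Continuous (F m : WA d k → WA d k) := continuous_F m
  have c1 : ContinuousOn (fun y => F m (W y + h y)) S := cF.comp_continuousOn (hW.add hh)
  have c2 : ContinuousOn (fun y => F m (W y)) S := cF.comp_continuousOn hW
  exact ((c1.const_smul (-Complex.I)).sub (c2.const_smul (-Complex.I))).sub (continuousOn_BW hW hh)

end Vale.Agent.P139.N
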