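import Vale.Agent.P139.H579.Nonlin

/-! # P139 / block N : weight operators and lowering operators on the torus side -/

open Set Filter Topology MeasureTheory
open scoped ComplexConjugate

namespace Vale.Agent.P139.N

open Vale.Agent.P139.A Vale.Agent.P139.A.WA Vale.Agent.P139.H203 Vale.Agent.P139.BU

variable {d k k' : ℕ}

/-! ### Weighted diagonal operators into `WA d k'` -/

theorem wop_summable {ω : Lat d → ℂ} {C : ℝ} (hω : ∀ n, W k' n * ‖ω n‖ ≤ C * W k n)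
    (h : WA d k) : Summable fun n => W k' n * ‖ω n * coef h n‖ := by
  refine Summable.of_nonneg_of_le (fun n => mul_nonneg (W_pos n).le (norm_nonneg _)) (fun n => ?_)
    (h.summable.mul_left C)
  rw [norm_mul, ← mul_assoc, ← mul_assoc]
  exact mul_le_mul_of_nonneg_right (hω n) (norm_nonneg _)

/-- Multiplication of the coefficients by `ω`, from `WA d k` to `WA d k'`. -/
noncomputable def wop (ω : Lat d → ℂ) (C : ℝ) (hω : ∀ n, W k' n * ‖ω n‖ ≤ C * W k n) :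
    WA d k →L[ℂ] WA d k' :=
  LinearMap.mkContinuous
    { toFun := fun h => mk (fun n => ω n * coef h n) (wop_summable hω h)
      map_add' := fun a b => by
        ext n
        simp only [coef_mk, coef_add]
        ring
      map_smul' := fun r a => by
        ext n
        simp only [coef_mk, coef_smul, RingHom.id_apply]
        ring } C (fun h => by
        simp only [LinearMap.coe_mk, AddHom.coe_mk]
        rw [norm_eq, norm_eq, ← tsum_mul_left]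
        simp only [coef_mk]
        refine (wop_summable hω h).tsum_le_tsum (fun n => ?_) (h.summable.mul_left C)
        rw [norm_mul, ← mul_assoc, ← mul_assoc]
        exact mul_le_mul_of_nonneg_right (hω n) (norm_nonneg _))

@[simp] theorem coef_wop (ω : Lat d → ℂ) (C : ℝ) (hω : ∀ n, W k' n * ‖ω n‖ ≤ C * W k n)
    (h : WA d k) (n : Lat d) : coef (wop ω C hω h) n = ω n * coef h n :=
  coef_mk _ (wop_summable hω h) _

theorem norm_wop_le (ω : Lat d → ℂ) {C : ℝ} (hC : 0 ≤ C) (hω : ∀ n, W k' n * ‖ω n‖ ≤ C * W k n) :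
    ‖(wop ω C hω : WA d k →L[ℂ] WA d k')‖ ≤ C :=
  LinearMap.mkContinuous_norm_le _ hC _

/-- The inclusion `WA d k → WA d k'` for `k' ≤ k`. -/
noncomputable def dn (h : k' ≤ k) : WA d k →L[ℂ] WA d k' :=
  wop (fun _ => 1) 1 fun n => by
    rw [norm_one, mul_one, one_mul]
    exact pow_le_pow_right₀ (by linarith [norm_nonneg n]) h

@[simp] theorem coef_dn (h : k' ≤ k) (v : WA d k) (n : Lat d) :
    coef (dn h v) n = coef v n := by
  simp [dn]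

theorem Nn_dn (h : k' ≤ k) (ℓ : ℝ) (j : ℕ) (v : WA d k) : Nn ℓ j (dn h v) = Nn ℓ j v := by
  simp [Nn]

theorem Tn_dn (h : k' ≤ k) (ℓ : ℝ) (j : ℕ) (v : WA d k) : Tn ℓ j (dn h v) = Tn ℓ j v := by
  simp [Tn]

theorem dn_mul (h : k' ≤ k) (u v : WA d k) : dn h (u * v) = dn h u * dn h v := by
  ext n
  simp [coef_mul]

theorem dn_Uf (h : k' ≤ k) (a w ℓ t s : ℝ) (v : WA d k) :
    dn h (Uf a w ℓ t s v) = Uf a w ℓ t s (dn h v) := by
  ext n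
  simp

/-! ### The scaled weights -/

/-- clamp to `[0,1]` -/
noncomputable def clp (ℓ : ℝ) : ℝ := max 0 (min ℓ 1)

theorem clp_nonneg (ℓ : ℝ) : 0 ≤ clp ℓ := le_max_left _ _
theorem clp_le_one (ℓ : ℝ) : clp ℓ ≤ 1 := max_le zero_le_one (min_le_right _ _)
theorem clp_eq {ℓ : ℝ} (h0 : 0 ≤ ℓ) (h1 : ℓ ≤ 1) : clp ℓ = ℓ := by
  rw [clp, min_eq_left h1, max_eq_right h0]

theorem Jw_aux (ℓ : ℝ) {j : ℕ} (n : Lat d) (hj : j ≤ k) :
    W 0 n * ‖(((1 + clp ℓ * ‖n‖) ^ j : ℝ) : ℂ)‖ ≤ 1 * W k n := by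
  rw [W0, one_mul, one_mul, Complex.norm_real,
    Real.norm_of_nonneg (wt_nonneg (clp_nonneg ℓ) j n)]
  exact wt_le_W (clp_nonneg ℓ) (clp_le_one ℓ) hj n

theorem Jt_aux (ℓ : ℝ) {j : ℕ} (n : Lat d) (hj : j ≤ k) :
    W 0 n * ‖(((clp ℓ * ‖n‖) ^ j : ℝ) : ℂ)‖ ≤ 1 * W k n := by
  have h0 : 0 ≤ clp ℓ * ‖n‖ := mul_nonneg (clp_nonneg ℓ) (norm_nonneg _)
  rw [W0, one_mul, one_mul, Complex.norm_real, Real.norm_of_nonneg (by positivity)]
  exact (top_le_wt (clp_nonneg ℓ) j n).trans (wt_le_W (clp_nonneg ℓ) (clp_le_one ℓ) hj n)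

/-- The full weight `(1+ℓ‖n‖)^j` as an operator, norm `Nn ℓ j`. -/
noncomputable def Jw (ℓ : ℝ) (j : ℕ) (hj : j ≤ k) : WA d k →L[ℂ] WA d 0 :=
  wop (fun n => (((1 + clp ℓ * ‖n‖) ^ j : ℝ) : ℂ)) 1 fun n => Jw_aux ℓ n hj

/-- The top order weight `(ℓ‖n‖)^j` as an operator, norm `Tn ℓ j`. -/
noncomputable def Jtp (ℓ : ℝ) (j : ℕ) (hj : j ≤ k) : WA d k →L[ℂ] WA d 0 :=
  wop (fun n => (((clp ℓ * ‖n‖) ^ j : ℝ) : ℂ)) 1 fun n => Jt_aux ℓ n hj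

theorem norm_WA0 (v : WA d 0) : ‖v‖ = ∑' n, ‖coef v n‖ := by
  rw [norm_eq]
  simp only [W0, one_mul]

theorem norm_Jw {ℓ : ℝ} (h0 : 0 ≤ ℓ) (h1 : ℓ ≤ 1) {j : ℕ} (hj : j ≤ k) (v : WA d k) :
    ‖Jw ℓ j hj v‖ = Nn ℓ j v := by
  rw [norm_WA0, Nn]
  congr 1
  ext n
  rw [Jw, coef_wop, norm_mul, Complex.norm_real, clp_eq h0 h1,
    Real.norm_of_nonneg (wt_nonneg h0 j n)]

theorem norm_Jtp {ℓ : ℝ} (h0 : 0 ≤ ℓ) (h1 : ℓ ≤ 1) {j : ℕ} (hj : j ≤ k) (v : WA d k) :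
    ‖Jtp ℓ j hj v‖ = Tn ℓ j v := by
  rw [norm_WA0, Tn]
  congr 1
  ext n
  have h2 : 0 ≤ ℓ * ‖n‖ := by positivity
  rw [Jtp, coef_wop, norm_mul, Complex.norm_real, clp_eq h0 h1,
    Real.norm_of_nonneg (by positivity)]

theorem wop_sub_le {ω ω' : Lat d → ℂ} {C C' : ℝ} (hω : ∀ n, W k' n * ‖ω n‖ ≤ C * W k n)
    (hω' : ∀ n, W k' n * ‖ω' n‖ ≤ C' * W k n) {D : ℝ} (hD0 : 0 ≤ D)
    (hD : ∀ n, W k' n * ‖ω n - ω' n‖ ≤ D * W k n) :
    ‖(wop ω C hω - wop ω' C' hω' : WA d k →L[ℂ] WA d k')‖ ≤ D := by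
  have : (wop ω C hω - wop ω' C' hω' : WA d k →L[ℂ] WA d k')
      = wop (fun n => ω n - ω' n) D hD := by
    ext v n
    rw [ContinuousLinearMap.sub_apply, coef_sub, coef_wop, coef_wop, coef_wop]
    ring
  rw [this]
  exact norm_wop_le _ hD0 _

theorem pow_diff_aux {x y : ℝ} (hx : 0 ≤ x) (hy : 0 ≤ y) {M : ℝ} (hxM : x ≤ M) (hyM : y ≤ M)
    (j : ℕ) : |x ^ j - y ^ j| ≤ |x - y| * j * M ^ (j - 1) := by
  refine (abs_pow_sub_pow_le x y j).trans ?_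
  have : max |x| |y| ≤ M := by
    rw [abs_of_nonneg hx, abs_of_nonneg hy]
    exact max_le hxM hyM
  gcongr

theorem clp_lip (ℓ ℓ' : ℝ) : |clp ℓ - clp ℓ'| ≤ |ℓ - ℓ'| := by
  unfold clp
  refine (abs_max_sub_max_le_max _ _ _ _).trans ?_
  rw [sub_self, abs_zero]
  refine max_le (abs_nonneg _) ?_
  refine (abs_min_sub_min_le_max _ _ _ _).trans ?_
  rw [sub_self, abs_zero]
  exact max_le le_rfl (abs_nonneg _)

theorem Jw_lip (ℓ ℓ' : ℝ) {j : ℕ} (hj : j ≤ k) :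
    ‖(Jw ℓ j hj - Jw ℓ' j hj : WA d k →L[ℂ] WA d 0)‖ ≤ j * |ℓ - ℓ'| := by
  refine wop_sub_le _ _ (by positivity) fun n => ?_
  rw [W0, one_mul, ← Complex.ofReal_sub, Complex.norm_real, Real.norm_eq_abs]
  rcases Nat.eq_zero_or_pos j with h | h
  · subst h; simp
  have hn := norm_nonneg n
  have h0 := clp_nonneg ℓ
  have h0' := clp_nonneg ℓ'
  have h1 := clp_le_one ℓ
  have h1' := clp_le_one ℓ'
  have e1 : 1 + clp ℓ * ‖n‖ ≤ 1 + ‖n‖ := by nlinarith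
  have e2 : 1 + clp ℓ' * ‖n‖ ≤ 1 + ‖n‖ := by nlinarith
  refine (pow_diff_aux (by positivity) (by positivity) e1 e2 j).trans ?_
  have e3 : (1 + clp ℓ * ‖n‖) - (1 + clp ℓ' * ‖n‖) = (clp ℓ - clp ℓ') * ‖n‖ := by ring
  rw [e3, abs_mul, abs_of_nonneg hn]
  have e4 := clp_lip ℓ ℓ'
  have e5 : (1 + ‖n‖) ^ k = (1 + ‖n‖) ^ k := rfl
  calc |clp ℓ - clp ℓ'| * ‖n‖ * j * (1 + ‖n‖) ^ (j - 1)
      ≤ |ℓ - ℓ'| * (1 + ‖n‖) * j * (1 + ‖n‖) ^ (j - 1) := by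
        gcongr
        linarith
    _ = j * |ℓ - ℓ'| * (1 + ‖n‖) ^ j := by
        obtain ⟨i, rfl⟩ : ∃ i, j = i + 1 := ⟨j - 1, by omega⟩
        rw [Nat.add_sub_cancel, pow_succ]
        ring
    _ ≤ j * |ℓ - ℓ'| * W k n := by
        unfold W
        gcongr
        linarith

theorem Jtp_lip (ℓ ℓ' : ℝ) {j : ℕ} (hj : j ≤ k) :
    ‖(Jtp ℓ j hj - Jtp ℓ' j hj : WA d k →L[ℂ] WA d 0)‖ ≤ j * |ℓ - ℓ'| := by
  refine wop_sub_le _ _ (by positivity) fun n => ?_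
  rw [W0, one_mul, ← Complex.ofReal_sub, Complex.norm_real, Real.norm_eq_abs]
  rcases Nat.eq_zero_or_pos j with h | h
  · subst h; simp
  have hn := norm_nonneg n
  have h0 := clp_nonneg ℓ
  have h0' := clp_nonneg ℓ'
  have h1 := clp_le_one ℓ
  have h1' := clp_le_one ℓ'
  have e1 : clp ℓ * ‖n‖ ≤ 1 + ‖n‖ := by nlinarith
  have e2 : clp ℓ' * ‖n‖ ≤ 1 + ‖n‖ := by nlinarith
  refine (pow_diff_aux (by positivity) (by positivity) e1 e2 j).trans ?_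
  have e3 : clp ℓ * ‖n‖ - clp ℓ' * ‖n‖ = (clp ℓ - clp ℓ') * ‖n‖ := by ring
  rw [e3, abs_mul, abs_of_nonneg hn]
  have e4 := clp_lip ℓ ℓ'
  calc |clp ℓ - clp ℓ'| * ‖n‖ * j * (1 + ‖n‖) ^ (j - 1)
      ≤ |ℓ - ℓ'| * (1 + ‖n‖) * j * (1 + ‖n‖) ^ (j - 1) := by
        gcongr
        linarith
    _ = j * |ℓ - ℓ'| * (1 + ‖n‖) ^ j := by
        obtain ⟨i, rfl⟩ : ∃ i, j = i + 1 := ⟨j - 1, by omega⟩
        rw [Nat.add_sub_cancel, pow_succ]
        ring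
    _ ≤ j * |ℓ - ℓ'| * W k n := by
        unfold W
        gcongr
        linarith

theorem continuous_Jw {j : ℕ} (hj : j ≤ k) :
    Continuous fun ℓ : ℝ => (Jw ℓ j hj : WA d k →L[ℂ] WA d 0) := by
  have : LipschitzWith (Real.toNNReal j) fun ℓ : ℝ => (Jw ℓ j hj : WA d k →L[ℂ] WA d 0) :=
    LipschitzWith.of_dist_le_mul fun x y => by
      rw [dist_eq_norm, Real.dist_eq, Real.coe_toNNReal _ (Nat.cast_nonneg j)]
      exact Jw_lip x y hj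
  exact this.continuous

theorem continuous_Jtp {j : ℕ} (hj : j ≤ k) :
    Continuous fun ℓ : ℝ => (Jtp ℓ j hj : WA d k →L[ℂ] WA d 0) := by
  have : LipschitzWith (Real.toNNReal j) fun ℓ : ℝ => (Jtp ℓ j hj : WA d k →L[ℂ] WA d 0) :=
    LipschitzWith.of_dist_le_mul fun x y => by
      rw [dist_eq_norm, Real.dist_eq, Real.coe_toNNReal _ (Nat.cast_nonneg j)]
      exact Jtp_lip x y hj
  exact this.continuous

/-- Continuity of `y ↦ Jw (ℓ y) (f y)`. -/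
theorem continuousOn_Jw {Y : Type*} [TopologicalSpace Y] {S : Set Y} {ℓ : Y → ℝ} {f : Y → WA d k}
    {j : ℕ} (hj : j ≤ k) (hℓ : ContinuousOn ℓ S) (hf : ContinuousOn f S) :
    ContinuousOn (fun y => Jw (ℓ y) j hj (f y)) S :=
  ((continuous_Jw hj).comp_continuousOn hℓ).clm_apply hf

theorem continuousOn_Jtp {Y : Type*} [TopologicalSpace Y] {S : Set Y} {ℓ : Y → ℝ}
    {f : Y → WA d k} {j : ℕ} (hj : j ≤ k) (hℓ : ContinuousOn ℓ S) (hf : ContinuousOn f S) :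
    ContinuousOn (fun y => Jtp (ℓ y) j hj (f y)) S :=
  ((continuous_Jtp hj).comp_continuousOn hℓ).clm_apply hf

/-- The scaled norm of a continuous curve at a continuous positive scale is continuous. -/
theorem continuousOn_Nn {Y : Type*} [TopologicalSpace Y] {S : Set Y} {ℓ : Y → ℝ} {f : Y → WA d k}
    {j : ℕ} (hj : j ≤ k) (hℓ : ContinuousOn ℓ S) (hℓ01 : ∀ y ∈ S, 0 ≤ ℓ y ∧ ℓ y ≤ 1)
    (hf : ContinuousOn f S) : ContinuousOn (fun y => Nn (ℓ y) j (f y)) S := by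
  refine ((continuousOn_Jw hj hℓ hf).norm).congr fun y hy => ?_
  exact (norm_Jw (hℓ01 y hy).1 (hℓ01 y hy).2 hj (f y)).symm

/-- The order `0` weight, norm `Nn ℓ 0`. -/
noncomputable def Jz : WA d k →L[ℂ] WA d 0 := dn (Nat.zero_le k)

theorem norm_Jz (ℓ : ℝ) (v : WA d k) : ‖(Jz v : WA d 0)‖ = Nn ℓ 0 v := by
  rw [norm_WA0, Nn_zero]
  simp [Jz]

end Vale.Agent.P139.N
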