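import Vale.Agent.P139.H579.Frame

/-! # P139 / block N : the free propagator on the torus in the rescaled frame, mild form -/

open Set Filter Topology MeasureTheory
open scoped ComplexConjugate

namespace Vale.Agent.P139.N

open Vale.Agent.P139.A Vale.Agent.P139.A.WA Vale.Agent.P139.H203 Vale.Agent.P139.BU

variable {d k : ℕ}

/-! ### Diagonal operators -/

theorem diag_summable {α : Lat d → ℂ} {A : ℝ} (hα : ∀ n, ‖α n‖ ≤ A) (h : WA d k) :
    Summable fun n => W k n * ‖α n * coef h n‖ := by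
  refine Summable.of_nonneg_of_le (fun n => mul_nonneg (W_pos n).le (norm_nonneg _)) (fun n => ?_)
    (h.summable.mul_left A)
  rw [norm_mul]
  calc W k n * (‖α n‖ * ‖coef h n‖) ≤ W k n * (A * ‖coef h n‖) := by
        have := W_pos (k := k) n
        have := hα n
        gcongr
    _ = A * (W k n * ‖coef h n‖) := by ring

/-- The diagonal operator with bounded entries. -/
noncomputable def diagOp (α : Lat d → ℂ) (A : ℝ) (hα : ∀ n, ‖α n‖ ≤ A) : WA d k →L[ℂ] WA d k :=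
  LinearMap.mkContinuous
    { toFun := fun h => mk (fun n => α n * coef h n) (diag_summable hα h)
      map_add' := fun a b => by
        ext n
        simp only [coef_mk, coef_add]
        ring
      map_smul' := fun r a => by
        ext n
        simp only [coef_mk, coef_smul, RingHom.id_apply]
        ring } A (fun h => by
        simp only [LinearMap.coe_mk, AddHom.coe_mk]
        rw [norm_eq, norm_eq, ← tsum_mul_left]
        simp only [coef_mk]
        refine (diag_summable hα h).tsum_le_tsum (fun n => ?_) (h.summable.mul_left A)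
        rw [norm_mul]
        calc W k n * (‖α n‖ * ‖coef h n‖) ≤ W k n * (A * ‖coef h n‖) := by
              have := W_pos (k := k) n
              have := hα n
              gcongr
          _ = A * (W k n * ‖coef h n‖) := by ring)

@[simp] theorem coef_diagOp (α : Lat d → ℂ) (A : ℝ) (hα : ∀ n, ‖α n‖ ≤ A) (h : WA d k)
    (n : Lat d) : coef (diagOp α A hα h) n = α n * coef h n :=
  coef_mk _ (diag_summable hα h) _

/-! ### The free propagator -/

/-- The multiplier of the free flow from `s` to `t` (rescaled time, scale `ℓ` at time `0`). -/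
noncomputable def ufac (a w ℓ t s : ℝ) (n : Lat d) : ℂ :=
  Complex.exp ((Complex.I * w - a) * ((t - s : ℝ) : ℂ) -
    Complex.I * ((ℓ ^ 2 * (Real.exp (-s) - Real.exp (-t)) : ℝ) : ℂ) * sqNorm n)

theorem norm_ufac (a w ℓ t s : ℝ) (n : Lat d) :
    ‖ufac a w ℓ t s n‖ = Real.exp (-(a * (t - s))) := by
  unfold ufac
  generalize ℓ ^ 2 * (Real.exp (-s) - Real.exp (-t)) = x
  rw [Complex.norm_exp]
  congr 1
  simp only [Complex.sub_re, Complex.mul_re, Complex.mul_im, Complex.I_re, Complex.I_im,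
    Complex.ofReal_re, Complex.ofReal_im, Complex.sub_im]
  ring

theorem ufac_comp (a w ℓ t s r : ℝ) (n : Lat d) :
    ufac a w ℓ t s n * ufac a w ℓ s r n = ufac a w ℓ t r n := by
  unfold ufac
  rw [← Complex.exp_add]
  congr 1
  push_cast
  ring

theorem ufac_self (a w ℓ t : ℝ) (n : Lat d) : ufac a w ℓ t t n = 1 := by
  unfold ufac
  simp

/-- The free flow from `s` to `t`. -/
noncomputable def Uf (a w ℓ t s : ℝ) : WA d k →L[ℂ] WA d k :=
  diagOp (ufac a w ℓ t s) (Real.exp (-(a * (t - s)))) fun n => (norm_ufac a w ℓ t s n).le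

@[simp] theorem coef_Uf (a w ℓ t s : ℝ) (h : WA d k) (n : Lat d) :
    coef (Uf a w ℓ t s h) n = ufac a w ℓ t s n * coef h n := coef_diagOp _ _ _ h n

theorem Uf_comp (a w ℓ t s r : ℝ) (h : WA d k) :
    Uf a w ℓ t s (Uf a w ℓ s r h) = Uf a w ℓ t r h := by
  ext n
  rw [coef_Uf, coef_Uf, coef_Uf, ← mul_assoc, ufac_comp]

theorem Uf_self (a w ℓ t : ℝ) (h : WA d k) : Uf a w ℓ t t h = h := by
  ext n
  rw [coef_Uf, ufac_self, one_mul]

theorem norm_Uf_apply (a w ℓ t s : ℝ) (h : WA d k) :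
    ‖Uf a w ℓ t s h‖ = Real.exp (-(a * (t - s))) * ‖h‖ := by
  rw [norm_eq, norm_eq, ← tsum_mul_left]
  refine tsum_congr fun n => ?_
  rw [coef_Uf, norm_mul, norm_ufac]
  ring

theorem Nn_Uf_same (a w ℓ t s ρ : ℝ) (j : ℕ) (h : WA d k) :
    Nn ρ j (Uf a w ℓ t s h) = Real.exp (-(a * (t - s))) * Nn ρ j h := by
  unfold Nn
  rw [← tsum_mul_left]
  refine tsum_congr fun n => ?_
  rw [coef_Uf, norm_mul, norm_ufac]
  ring

theorem Tn_Uf_same (a w ℓ t s ρ : ℝ) (j : ℕ) (h : WA d k) :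
    Tn ρ j (Uf a w ℓ t s h) = Real.exp (-(a * (t - s))) * Tn ρ j h := by
  unfold Tn
  rw [← tsum_mul_left]
  refine tsum_congr fun n => ?_
  rw [coef_Uf, norm_mul, norm_ufac]
  ring

/-- The scale at rescaled time `t`. -/
noncomputable def sc (ℓ t : ℝ) : ℝ := ℓ * Real.exp (-t / 2)

theorem sc_pos {ℓ : ℝ} (hl : 0 < ℓ) (t : ℝ) : 0 < sc ℓ t := mul_pos hl (Real.exp_pos _)

theorem sc_zero (ℓ : ℝ) : sc ℓ 0 = ℓ := by simp [sc]

theorem sc_le {ℓ : ℝ} (hl : 0 ≤ ℓ) {s t : ℝ} (hst : s ≤ t) : sc ℓ t ≤ sc ℓ s := by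
  unfold sc
  gcongr

theorem sc_le_self {ℓ : ℝ} (hl : 0 ≤ ℓ) {t : ℝ} (ht : 0 ≤ t) : sc ℓ t ≤ ℓ := by
  have := sc_le hl ht
  rwa [sc_zero] at this

theorem sc_sq (ℓ t : ℝ) : sc ℓ t ^ 2 = ℓ ^ 2 * Real.exp (-t) := by
  unfold sc
  rw [mul_pow, ← Real.exp_nat_mul]
  congr 2
  push_cast
  ring

theorem sc_sc (ℓ t s : ℝ) : sc (sc ℓ s) t = sc ℓ (s + t) := by
  unfold sc
  rw [mul_assoc, ← Real.exp_add]
  congr 2
  ring

/-- The free flow contracts the scaled norms at rate `a`. -/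
theorem Nn_Uf_le {a w ℓ : ℝ} (hl : 0 ≤ ℓ) (h1 : ℓ ≤ 1) {j : ℕ} (hj : j ≤ k) {s t : ℝ}
    (hs : 0 ≤ s) (hst : s ≤ t) (h : WA d k) :
    Nn (sc ℓ t) j (Uf a w ℓ t s h) ≤ Real.exp (-(a * (t - s))) * Nn (sc ℓ s) j h := by
  rw [Nn_Uf_same]
  refine mul_le_mul_of_nonneg_left ?_ (Real.exp_pos _).le
  exact Nn_mono (mul_nonneg hl (Real.exp_pos _).le) (sc_le hl hst)
    ((sc_le_self hl hs).trans h1) hj h

/-- The free flow contracts the top part at rate `a + j/2`. -/
theorem Tn_Uf (a w ℓ : ℝ) (j : ℕ) (s t : ℝ) (h : WA d k) :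
    Tn (sc ℓ t) j (Uf a w ℓ t s h) =
      Real.exp (-((a + (j : ℝ) / 2) * (t - s))) * Tn (sc ℓ s) j h := by
  rw [Tn_Uf_same]
  have h1 : sc ℓ t = Real.exp (-(t - s) / 2) * sc ℓ s := by
    unfold sc
    rw [mul_comm (Real.exp (-(t - s) / 2)), mul_assoc, ← Real.exp_add]
    congr 2
    ring
  rw [h1, Tn_scale, ← Real.exp_nat_mul, ← mul_assoc, ← Real.exp_add]
  congr 2
  ring

/-! ### Continuity -/

theorem continuous_ufac (a w ℓ t : ℝ) (n : Lat d) : Continuous fun s => ufac a w ℓ t s n := by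
  unfold ufac
  fun_prop

theorem continuous_ufac_left (a w ℓ s : ℝ) (n : Lat d) : Continuous fun t => ufac a w ℓ t s n := by
  unfold ufac
  fun_prop

theorem continuous_ufac_two (a w ℓ : ℝ) (n : Lat d) :
    Continuous fun p : ℝ × ℝ => ufac a w ℓ p.1 p.2 n := by
  unfold ufac
  fun_prop

theorem tendsto_exp_rate {Y : Type*} [TopologicalSpace Y] {S : Set Y} (a : ℝ) {t s : Y → ℝ}
    {y0 : Y} (ht : ContinuousWithinAt t S y0) (hs : ContinuousWithinAt s S y0) :
    Tendsto (fun y => Real.exp (-(a * (t y - s y)))) (𝓝[S] y0)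
      (𝓝 (Real.exp (-(a * (t y0 - s y0))))) := by
  have h1 : ContinuousWithinAt (fun y => Real.exp (-(a * (t y - s y)))) S y0 :=
    Real.continuous_exp.continuousAt.comp_continuousWithinAt ((ht.sub hs).const_mul a).neg
  exact h1

theorem tendsto_Uf_fixed {Y : Type*} [TopologicalSpace Y] {S : Set Y}
    (a w ℓ : ℝ) {t s : Y → ℝ} {y0 : Y} (ht : ContinuousWithinAt t S y0)
    (hs : ContinuousWithinAt s S y0) (h : WA d k) :
    Tendsto (fun y => ∑' n : Lat d, W k n *
      (‖ufac a w ℓ (t y) (s y) n - ufac a w ℓ (t y0) (s y0) n‖ * ‖coef h n‖))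
      (𝓝[S] y0) (𝓝 0) := by
  set B : ℝ := Real.exp (-(a * (t y0 - s y0))) + 1 with hB
  have hB0 : 0 < B := by positivity
  have hev : ∀ᶠ y in 𝓝[S] y0, Real.exp (-(a * (t y - s y))) ≤ B :=
    ((tendsto_exp_rate a ht hs).eventually
      (gt_mem_nhds (show Real.exp (-(a * (t y0 - s y0))) < B by rw [hB]; linarith))).mono
      fun y hy => le_of_lt hy
  have h0 : ∑' n : Lat d, (0 : ℝ) = 0 := tsum_zero
  rw [← h0]
  refine tendsto_tsum_of_dominated_convergence
    (bound := fun n => 2 * B * (W k n * ‖coef h n‖)) (h.summable.mul_left _)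
    (fun n => ?_) ?_
  · have h4 : ContinuousWithinAt (fun y => ufac a w ℓ (t y) (s y) n) S y0 :=
      ContinuousAt.comp_continuousWithinAt (f := fun y => (t y, s y))
        (g := fun p : ℝ × ℝ => ufac a w ℓ p.1 p.2 n)
        (continuous_ufac_two a w ℓ n).continuousAt (ht.prodMk hs)
    have h5 : Tendsto (fun y => ‖ufac a w ℓ (t y) (s y) n - ufac a w ℓ (t y0) (s y0) n‖)
        (𝓝[S] y0) (𝓝 0) := tendsto_iff_norm_sub_tendsto_zero.1 h4
    have h6 := (h5.mul_const (‖coef h n‖)).const_mul (W k n)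
    rw [zero_mul, mul_zero] at h6
    exact h6
  · filter_upwards [hev] with y hy n
    rw [Real.norm_of_nonneg (mul_nonneg (W_pos n).le (by positivity))]
    have h6 : ‖ufac a w ℓ (t y) (s y) n - ufac a w ℓ (t y0) (s y0) n‖ ≤ 2 * B := by
      refine (norm_sub_le _ _).trans ?_
      rw [norm_ufac, norm_ufac]
      have : Real.exp (-(a * (t y0 - s y0))) ≤ B := by rw [hB]; linarith
      linarith
    have h7 := W_pos (k := k) n
    calc W k n * (‖ufac a w ℓ (t y) (s y) n - ufac a w ℓ (t y0) (s y0) n‖ * ‖coef h n‖)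
        ≤ W k n * (2 * B * ‖coef h n‖) := by gcongr
      _ = 2 * B * (W k n * ‖coef h n‖) := by ring

theorem norm_Uf_sub (a w ℓ t s t' s' : ℝ) (h : WA d k) :
    ‖Uf a w ℓ t s h - Uf a w ℓ t' s' h‖ =
      ∑' n : Lat d, W k n * (‖ufac a w ℓ t s n - ufac a w ℓ t' s' n‖ * ‖coef h n‖) := by
  rw [norm_eq]
  refine tsum_congr fun n => ?_
  rw [coef_sub, coef_Uf, coef_Uf, ← sub_mul, norm_mul]

/-- Strong joint continuity of `(t,s,h) ↦ Uf t s h`. -/
theorem continuousOn_Uf {Y : Type*} [TopologicalSpace Y] {S : Set Y}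
    (a w ℓ : ℝ) {t s : Y → ℝ} (ht : ContinuousOn t S) (hs : ContinuousOn s S) {h : Y → WA d k}
    (hh : ContinuousOn h S) : ContinuousOn (fun y => Uf a w ℓ (t y) (s y) (h y)) S := by
  intro y0 hy0
  rw [ContinuousWithinAt, tendsto_iff_norm_sub_tendsto_zero]
  have h1 : Tendsto (fun y => Real.exp (-(a * (t y - s y))) * ‖h y - h y0‖) (𝓝[S] y0) (𝓝 0) := by
    have h2 := tendsto_iff_norm_sub_tendsto_zero.1 (hh y0 hy0)
    have h3 := (tendsto_exp_rate a (ht y0 hy0) (hs y0 hy0)).mul h2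
    rw [mul_zero] at h3
    exact h3
  have h8 := h1.add (tendsto_Uf_fixed a w ℓ (ht y0 hy0) (hs y0 hy0) (h y0))
  rw [add_zero] at h8
  refine squeeze_zero (fun y => norm_nonneg _) (fun y => ?_) h8
  have h9 : Uf a w ℓ (t y) (s y) (h y) - Uf a w ℓ (t y0) (s y0) (h y0) =
      Uf a w ℓ (t y) (s y) (h y - h y0) +
        (Uf a w ℓ (t y) (s y) (h y0) - Uf a w ℓ (t y0) (s y0) (h y0)) := by
    rw [map_sub]
    abel
  rw [h9, ← norm_Uf_sub]
  exact (norm_add_le _ _).trans (add_le_add (norm_Uf_apply _ _ _ _ _ _).le le_rfl)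

/-! ### Mild form of the rescaled equation -/

theorem hasDerivAt_ufac (a w ℓ t s : ℝ) (n : Lat d) :
    HasDerivAt (fun s => ufac a w ℓ t s n)
      (((a : ℂ) - Complex.I * w + Complex.I * ((ℓ ^ 2 * Real.exp (-s) : ℝ) : ℂ) * sqNorm n) *
        ufac a w ℓ t s n) s := by
  have h1 : HasDerivAt (fun s : ℝ => ((t - s : ℝ) : ℂ)) (-1) s := by
    have := ((hasDerivAt_id s).const_sub t).ofReal_comp
    simpa using this
  have h2 : HasDerivAt (fun s : ℝ => ((ℓ ^ 2 * (Real.exp (-s) - Real.exp (-t)) : ℝ) : ℂ))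
      ((-(ℓ ^ 2 * Real.exp (-s)) : ℝ) : ℂ) s := by
    have h3 : HasDerivAt (fun s : ℝ => Real.exp (-s)) (Real.exp (-s) * -1) s :=
      (hasDerivAt_neg s).exp
    have h4 := ((h3.sub_const (Real.exp (-t))).const_mul (ℓ ^ 2)).ofReal_comp
    refine h4.congr_deriv ?_
    push_cast
    ring
  have h5 := (h1.const_mul (Complex.I * w - a : ℂ)).fun_sub
    ((h2.const_mul Complex.I).mul_const (sqNorm n : ℂ))
  have h6 := h5.cexp
  unfold ufac
  refine h6.congr_deriv ?_
  push_cast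
  ring

/-- A curve in the Wiener algebra which solves the linear inhomogeneous rescaled equation
coefficientwise is given by the Duhamel formula. -/
theorem duhamel_of_coef {a w ℓ A : ℝ} {v f : ℝ → WA d k}
    (hf : ContinuousOn f (Icc 0 A))
    (h : ∀ τ ∈ Icc 0 A, ∀ n, HasDerivWithinAt (fun s => coef (v s) n)
      (-(Complex.I * ((ℓ ^ 2 * Real.exp (-τ) : ℝ) : ℂ) * sqNorm n) * coef (v τ) n
        - ((a : ℂ) - Complex.I * (w : ℂ)) * coef (v τ) n + coef (f τ) n) (Icc 0 A) τ) :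
    ∀ t ∈ Icc 0 A, v t = Uf a w ℓ t 0 (v 0) + ∫ s in (0 : ℝ)..t, Uf a w ℓ t s (f s) := by
  intro t ht
  have hsub : Icc 0 t ⊆ Icc 0 A := Icc_subset_Icc_right ht.2
  have hc : ContinuousOn (fun s => Uf a w ℓ t s (f s)) (Icc 0 t) :=
    continuousOn_Uf a w ℓ continuousOn_const continuousOn_id (hf.mono hsub)
  have hci : ContinuousOn (fun s => Uf a w ℓ t s (f s)) (uIcc 0 t) := by
    rwa [uIcc_of_le ht.1]
  ext n
  rw [coef_add, coef_Uf]
  have h1 : coef (∫ s in (0 : ℝ)..t, Uf a w ℓ t s (f s)) n =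
      ∫ s in (0 : ℝ)..t, coef (Uf a w ℓ t s (f s)) n :=
    ((coefR (d := d) (k := k) n).intervalIntegral_comp_comm (hci.intervalIntegrable)).symm
  have hd : ∀ s ∈ Icc 0 t, HasDerivWithinAt (fun s => ufac a w ℓ t s n * coef (v s) n)
      (coef (Uf a w ℓ t s (f s)) n) (Icc 0 t) s := by
    intro s hs
    have h2 := (hasDerivAt_ufac a w ℓ t s n).hasDerivWithinAt (s := Icc 0 t)
    have h3 := (h s (hsub hs) n).mono hsub
    refine (h2.mul h3).congr_deriv ?_
    rw [coef_Uf]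
    ring
  have h4 : ∫ s in (0 : ℝ)..t, coef (Uf a w ℓ t s (f s)) n =
      ufac a w ℓ t t n * coef (v t) n - ufac a w ℓ t 0 n * coef (v 0) n := by
    refine intervalIntegral.integral_eq_sub_of_hasDerivAt_of_le ht.1
      (fun s hs => (hd s hs).continuousWithinAt) (fun s hs => ?_) ?_
    · exact (hd s (Ioo_subset_Icc_self hs)).hasDerivAt (Icc_mem_nhds hs.1 hs.2)
    · have h5 : ContinuousOn (fun s => coef (Uf a w ℓ t s (f s)) n) (uIcc 0 t) :=
        (coefR (d := d) (k := k) n).continuous.comp_continuousOn hci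
      exact h5.intervalIntegrable
  rw [h1, h4, ufac_self]
  ring

theorem continuousOn_F {m : ℕ} {S : Set ℝ} {v : ℝ → WA d k} (hv : ContinuousOn v S) :
    ContinuousOn (fun s => F m (v s)) S :=
  (continuous_F (d := d) (k := k) m).comp_continuousOn hv

/-- Mild form of the rescaled equation. -/
theorem RCurve.mild {m : ℕ} {w ℓ A : ℝ} {v : ℝ → WA d k} (hv : RCurve m w ℓ A v) :
    ∀ t ∈ Icc 0 A, v t = Uf (aa m) w ℓ t 0 (v 0) +
      ∫ s in (0 : ℝ)..t, Uf (aa m) w ℓ t s ((-Complex.I) • F m (v s)) := by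
  have hc : ContinuousOn (fun s => (-Complex.I) • F m (v s)) (Icc 0 A) :=
    (continuousOn_F hv.cont).const_smul (-Complex.I)
  refine duhamel_of_coef hc fun τ hτ n => ?_
  refine (hv.eqn τ hτ n).congr_deriv ?_
  rw [coef_smul]
  ring

/-! ### Integral bounds -/

/-- Scaled norm of an integral. -/
theorem Nn_integral_le {ρ : ℝ} (h0 : 0 ≤ ρ) (h1 : ρ ≤ 1) {j : ℕ} (hj : j ≤ k) {t : ℝ}
    (ht : 0 ≤ t) {f : ℝ → WA d k} (hf : ContinuousOn f (Icc 0 t)) {g : ℝ → ℝ}
    (hg : IntervalIntegrable g volume 0 t) (hfg : ∀ s ∈ Icc 0 t, Nn ρ j (f s) ≤ g s) :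
    Nn ρ j (∫ s in (0 : ℝ)..t, f s) ≤ ∫ s in (0 : ℝ)..t, g s := by
  have hfi : IntervalIntegrable f volume 0 t := by
    apply ContinuousOn.intervalIntegrable
    rwa [uIcc_of_le ht]
  have hcn : ∀ n, coef (∫ s in (0 : ℝ)..t, f s) n = ∫ s in (0 : ℝ)..t, coef (f s) n := fun n =>
    ((coefR (d := d) (k := k) n).intervalIntegral_comp_comm hfi).symm
  have hni : ∀ n : Lat d, IntervalIntegrable (fun s => ‖coef (f s) n‖) volume 0 t := fun n => by
    apply ContinuousOn.intervalIntegrable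
    rw [uIcc_of_le ht]
    exact ((coefR (d := d) (k := k) n).continuous.comp_continuousOn hf).norm
  unfold Nn
  refine Summable.tsum_le_of_sum_le (summable_Nn h0 h1 hj _) fun S => ?_
  calc ∑ n ∈ S, (1 + ρ * ‖n‖) ^ j * ‖coef (∫ s in (0 : ℝ)..t, f s) n‖
      ≤ ∑ n ∈ S, ∫ s in (0 : ℝ)..t, (1 + ρ * ‖n‖) ^ j * ‖coef (f s) n‖ := by
        refine Finset.sum_le_sum fun n _ => ?_
        rw [hcn, intervalIntegral.integral_const_mul]
        refine mul_le_mul_of_nonneg_left ?_ (wt_nonneg h0 j n)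
        exact intervalIntegral.norm_integral_le_integral_norm ht
    _ = ∫ s in (0 : ℝ)..t, ∑ n ∈ S, (1 + ρ * ‖n‖) ^ j * ‖coef (f s) n‖ :=
        (intervalIntegral.integral_finsetSum fun n _ => (hni n).const_mul _).symm
    _ ≤ ∫ s in (0 : ℝ)..t, g s := by
        refine intervalIntegral.integral_mono_on ht ?_ hg fun s hs => ?_
        · have h2 := IntervalIntegrable.sum S fun n (_ : n ∈ S) =>
            (hni n).const_mul ((1 + ρ * ‖n‖) ^ j)
          refine h2.congr fun s _ => ?_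
          simp only [Finset.sum_apply]
        · refine le_trans ?_ (hfg s hs)
          exact (summable_Nn h0 h1 hj (f s)).sum_le_tsum S fun n _ =>
            mul_nonneg (wt_nonneg h0 j n) (norm_nonneg _)

/-- Top part of an integral. -/
theorem Tn_integral_le {ρ : ℝ} (h0 : 0 ≤ ρ) (h1 : ρ ≤ 1) {j : ℕ} (hj : j ≤ k) {t : ℝ}
    (ht : 0 ≤ t) {f : ℝ → WA d k} (hf : ContinuousOn f (Icc 0 t)) {g : ℝ → ℝ}
    (hg : IntervalIntegrable g volume 0 t) (hfg : ∀ s ∈ Icc 0 t, Tn ρ j (f s) ≤ g s) :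
    Tn ρ j (∫ s in (0 : ℝ)..t, f s) ≤ ∫ s in (0 : ℝ)..t, g s := by
  have hfi : IntervalIntegrable f volume 0 t := by
    apply ContinuousOn.intervalIntegrable
    rwa [uIcc_of_le ht]
  have hcn : ∀ n, coef (∫ s in (0 : ℝ)..t, f s) n = ∫ s in (0 : ℝ)..t, coef (f s) n := fun n =>
    ((coefR (d := d) (k := k) n).intervalIntegral_comp_comm hfi).symm
  have hni : ∀ n : Lat d, IntervalIntegrable (fun s => ‖coef (f s) n‖) volume 0 t := fun n => by
    apply ContinuousOn.intervalIntegrable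
    rw [uIcc_of_le ht]
    exact ((coefR (d := d) (k := k) n).continuous.comp_continuousOn hf).norm
  unfold Tn
  refine Summable.tsum_le_of_sum_le (summable_Tn h0 h1 hj _) fun S => ?_
  calc ∑ n ∈ S, (ρ * ‖n‖) ^ j * ‖coef (∫ s in (0 : ℝ)..t, f s) n‖
      ≤ ∑ n ∈ S, ∫ s in (0 : ℝ)..t, (ρ * ‖n‖) ^ j * ‖coef (f s) n‖ := by
        refine Finset.sum_le_sum fun n _ => ?_
        rw [hcn, intervalIntegral.integral_const_mul]
        refine mul_le_mul_of_nonneg_left ?_ (by positivity)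
        exact intervalIntegral.norm_integral_le_integral_norm ht
    _ = ∫ s in (0 : ℝ)..t, ∑ n ∈ S, (ρ * ‖n‖) ^ j * ‖coef (f s) n‖ :=
        (intervalIntegral.integral_finsetSum fun n _ => (hni n).const_mul _).symm
    _ ≤ ∫ s in (0 : ℝ)..t, g s := by
        refine intervalIntegral.integral_mono_on ht ?_ hg fun s hs => ?_
        · have h2 := IntervalIntegrable.sum S fun n (_ : n ∈ S) =>
            (hni n).const_mul ((ρ * ‖n‖) ^ j)
          refine h2.congr fun s _ => ?_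
          simp only [Finset.sum_apply]
        · refine le_trans ?_ (hfg s hs)
          exact (summable_Tn h0 h1 hj (f s)).sum_le_tsum S fun n _ => by positivity

end Vale.Agent.P139.N
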