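import Vale.Agent.P139.H579.CutFlow2

/-! # P139 / block N : Duhamel formula for cut-off eigenfunctions -/

open Set Filter Topology MeasureTheory FourierTransform
open scoped ComplexConjugate ContDiff

namespace Vale.Agent.P139.N

open Vale.Agent.P139.A Vale.Agent.P139.A.WA Vale.Agent.P139.H203 Vale.Agent.P139.BU
open Vale.Agent.P139.H201

variable {d k : ℕ}

/-- `g` solves `lam g = i Δ g - ½ y·∇ g - (a - i w) g + h` on `ℝ^d`, everything in the Wiener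
class. -/
structure Eig (K : ℕ) (a w lam : ℝ) (g h : E d → ℂ) : Prop where
  smooth : ContDiff ℝ 2 g
  wg : Wn (K + 1) g
  wp : ∀ j, Wn (K + 1) (pd j g)
  wh : Wn (K + 1) h
  eqn : ∀ y, (lam : ℂ) * g y = Complex.I * lap g y - (1 / 2) * eul g y
    - ((a : ℂ) - Complex.I * (w : ℂ)) * g y + h y

/-- cut-off and rescaled function on the torus -/
noncomputable def cu (k : ℕ) (χ f : E d → ℂ) (ℓ : ℝ) : WA d k :=
  per k fun x => χ x * f (ℓ⁻¹ • x)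

/-- the commutator terms -/
noncomputable def rho (k : ℕ) (χ g : E d → ℂ) (ℓ : ℝ) : WA d k :=
  (2 * Complex.I * (ℓ : ℂ)) • ∑ j, cu k (pd j χ) (pd j g) ℓ
    + (Complex.I * (ℓ : ℂ) ^ 2) • cu k (lap χ) g ℓ

theorem Up_eq_cu (f : E d → ℂ) (ℓ : ℝ) : Up k f ℓ = cu k cA f ℓ := rfl

/-- smooth cut-off supported in the unit ball -/
structure IsCut (χ : E d → ℂ) : Prop where
  smooth : ContDiff ℝ ∞ χ
  supp : ∀ x, 1 ≤ ‖x‖ → χ x = 0

theorem isCut_cA : IsCut (cA : E d → ℂ) := ⟨contDiff_cA, fun _ => cA_eq_zero⟩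
theorem isCut_c1 : IsCut (c1 : E d → ℂ) :=
  ⟨contDiff_c1, fun _ hx => c1_eq_zero (by linarith)⟩
theorem isCut_c2 : IsCut (c2 : E d → ℂ) :=
  ⟨contDiff_c2, fun _ hx => c2_eq_zero (by linarith)⟩

theorem IsCut.supp3 {χ : E d → ℂ} (h : IsCut χ) : ∀ x, 3 ≤ ‖x‖ → χ x = 0 :=
  fun x hx => h.supp x (by linarith)

theorem IsCut.pd {χ : E d → ℂ} (h : IsCut χ) (j : Fin d) : IsCut (pd j χ) :=
  ⟨(h.smooth.fderiv_right (m := ∞) (by norm_num)).clm_apply contDiff_const,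
    supp_pd h.supp (h.smooth.of_le (by exact_mod_cast le_top)) j⟩

theorem IsCut.lap {χ : E d → ℂ} (h : IsCut χ) : IsCut (lap χ) := by
  refine ⟨?_, fun x hx => ?_⟩
  · exact ContDiff.sum fun j _ => ((h.pd j).pd j).smooth
  · exact Finset.sum_eq_zero fun j _ => ((h.pd j).pd j).supp x hx

theorem IsCut.mul {χ ψ : E d → ℂ} (h : IsCut χ) (h' : ContDiff ℝ ∞ ψ) :
    IsCut (fun x => χ x * ψ x) :=
  ⟨h.smooth.mul h', fun x hx => by rw [h.supp x hx, zero_mul]⟩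

theorem IsCut.sub {χ ψ : E d → ℂ} (h : IsCut χ) (h' : IsCut ψ) :
    IsCut (fun x => χ x - ψ x) :=
  ⟨h.smooth.sub h'.smooth, fun x hx => by rw [h.supp x hx, h'.supp x hx, sub_zero]⟩

theorem IsCut.compact {χ : E d → ℂ} (h : IsCut χ) : HasCompactSupport χ := by
  refine HasCompactSupport.intro (K := Metric.closedBall (0 : E d) 1)
    (isCompact_closedBall _ _) fun x hx => h.supp x ?_
  rw [mem_closedBall_zero_iff, not_le] at hx
  exact hx.le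

theorem IsCut.integrable {χ f : E d → ℂ} (h : IsCut χ) (hf : Continuous f) (r : ℝ) :
    Integrable fun x => χ x * f (r • x) :=
  (h.smooth.continuous.mul (hf.comp (continuous_const_smul r))).integrable_of_hasCompactSupport
    h.compact.mul_right

theorem IsCut.loc {χ f : E d → ℂ} (h : IsCut χ) {ℓ : ℝ} (hℓ : 0 < ℓ) (hℓ1 : ℓ ≤ 1)
    (hf : Wn k f) : Loc k (fun x => χ x * f (ℓ⁻¹ • x)) :=
  Wn.loc h.smooth h.supp3 hℓ hℓ1 hf

theorem coef_cu {χ f : E d → ℂ} (h : IsCut χ) {ℓ : ℝ} (hℓ : 0 < ℓ) (hℓ1 : ℓ ≤ 1)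
    (hf : Wn k f) (n : Lat d) : coef (cu k χ f ℓ) n = perCoef (fun x => χ x * f (ℓ⁻¹ • x)) n :=
  (h.loc hℓ hℓ1 hf).coef n

theorem cu_bound {χ f : E d → ℂ} (h : IsCut χ) (hf : Wn k f) :
    ∃ C : ℝ, 0 ≤ C ∧ ∀ ℓ : ℝ, 0 < ℓ → ℓ ≤ 1 → Nn ℓ k (cu k χ f ℓ) ≤ C :=
  Wn.bound h.smooth h.supp3 hf

theorem cu_sub {χ f g : E d → ℂ} (h : IsCut χ) {ℓ : ℝ} (hℓ : 0 < ℓ) (hℓ1 : ℓ ≤ 1)
    (hf : Wn k f) (hg : Wn k g) : cu k χ f ℓ - cu k χ g ℓ = cu k χ (fun y => f y - g y) ℓ := by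
  rw [cu, cu, ((h.loc hℓ hℓ1 hf).sub (h.loc hℓ hℓ1 hg)).2, cu]
  congr 1
  ext x
  ring

theorem cu_add {χ f g : E d → ℂ} (h : IsCut χ) {ℓ : ℝ} (hℓ : 0 < ℓ) (hℓ1 : ℓ ≤ 1)
    (hf : Wn k f) (hg : Wn k g) : cu k χ f ℓ + cu k χ g ℓ = cu k χ (fun y => f y + g y) ℓ := by
  rw [cu, cu, ((h.loc hℓ hℓ1 hf).add (h.loc hℓ hℓ1 hg)).2, cu]
  congr 1
  ext x
  ring

theorem cu_smul {χ f : E d → ℂ} (h : IsCut χ) {ℓ : ℝ} (hℓ : 0 < ℓ) (hℓ1 : ℓ ≤ 1)
    (hf : Wn k f) (c : ℂ) : c • cu k χ f ℓ = cu k χ (fun y => c * f y) ℓ := by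
  rw [cu, ((h.loc hℓ hℓ1 hf).smul c).2, cu]
  congr 1
  ext x
  ring

theorem continuousOn_cu {χ f : E d → ℂ} (h : IsCut χ) (hf : Wn (k + 1) f) {ℓ : ℝ} (hℓ : 0 < ℓ)
    (hℓ1 : ℓ ≤ 1) (A : ℝ) : ContinuousOn (fun s => cu k χ f (sc ℓ s)) (Icc 0 A) := by
  refine continuousOn_per_scale h.smooth h.supp hf (ℓ := fun s => sc ℓ s)
    (continuous_sc ℓ).continuousOn (sc_pos hℓ A) (fun s hs => sc_le hℓ.le hs.2)
    (fun s hs => (sc_le_self hℓ.le hs.1).trans hℓ1)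

theorem Nn_sum_le {ι : Type*} (s : Finset ι) {ℓ : ℝ} (h0 : 0 ≤ ℓ) (h1 : ℓ ≤ 1) {j : ℕ}
    (hj : j ≤ k) (f : ι → WA d k) : Nn ℓ j (∑ i ∈ s, f i) ≤ ∑ i ∈ s, Nn ℓ j (f i) := by
  classical
  induction s using Finset.induction_on with
  | empty =>
    rw [Finset.sum_empty, Finset.sum_empty]
    have : Nn ℓ j (0 : WA d k) = 0 := by simp [Nn]
    exact this.le
  | insert a s ha ih =>
    rw [Finset.sum_insert ha, Finset.sum_insert ha]
    exact (Nn_add_le h0 h1 hj _ _).trans (by gcongr)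

/-- The commutator terms are `O(ℓ)`. -/
theorem rho_bound {χ g : E d → ℂ} (h : IsCut χ) (hg : Wn k g) (hp : ∀ j, Wn k (pd j g)) :
    ∃ C : ℝ, 0 ≤ C ∧ ∀ ℓ : ℝ, 0 < ℓ → ℓ ≤ 1 → Nn ℓ k (rho k χ g ℓ) ≤ C * ℓ := by
  choose B hB0 hB using fun j => cu_bound (k := k) (h.pd j) (hp j)
  obtain ⟨B', hB'0, hB'⟩ := cu_bound (k := k) h.lap hg
  refine ⟨2 * ∑ j, B j + B', by
    have : 0 ≤ ∑ j, B j := Finset.sum_nonneg fun j _ => hB0 j
    positivity, fun ℓ hℓ hℓ1 => ?_⟩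
  refine (Nn_add_le hℓ.le hℓ1 le_rfl _ _).trans ?_
  rw [Nn_smul, Nn_smul]
  have e1 : ‖(2 * Complex.I * (ℓ : ℂ))‖ = 2 * ℓ := by
    simp [abs_of_pos hℓ]
  have e2 : ‖(Complex.I * (ℓ : ℂ) ^ 2)‖ = ℓ ^ 2 := by
    simp
  rw [e1, e2]
  have h1 : Nn ℓ k (∑ j, cu k (BU.pd j χ) (BU.pd j g) ℓ) ≤ ∑ j, B j :=
    (Nn_sum_le _ hℓ.le hℓ1 le_rfl _).trans (Finset.sum_le_sum fun j _ => hB j ℓ hℓ hℓ1)
  have h2 := hB' ℓ hℓ hℓ1
  have h3 : ℓ ^ 2 ≤ ℓ := by nlinarith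
  have h4 := Nn_nonneg hℓ.le k (cu k (BU.lap χ) g ℓ)
  calc 2 * ℓ * Nn ℓ k (∑ j, cu k (BU.pd j χ) (BU.pd j g) ℓ) + ℓ ^ 2 * Nn ℓ k (cu k (BU.lap χ) g ℓ)
      ≤ 2 * ℓ * ∑ j, B j + ℓ * B' := by gcongr
    _ = _ := by ring

theorem continuousOn_rho {χ g : E d → ℂ} (h : IsCut χ) (hg : Wn (k + 1) g)
    (hp : ∀ j, Wn (k + 1) (pd j g)) {ℓ : ℝ} (hℓ : 0 < ℓ) (hℓ1 : ℓ ≤ 1) (A : ℝ) :
    ContinuousOn (fun s => rho k χ g (sc ℓ s)) (Icc 0 A) := by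
  have hsc : ContinuousOn (fun s => ((sc ℓ s : ℝ) : ℂ)) (Icc 0 A) :=
    (Complex.continuous_ofReal.comp (continuous_sc ℓ)).continuousOn
  refine ContinuousOn.add ?_ ?_
  · refine ContinuousOn.smul (continuousOn_const.mul hsc) ?_
    exact continuousOn_finsetSum _ fun j _ => continuousOn_cu (h.pd j) (hp j) hℓ hℓ1 A
  · refine ContinuousOn.smul (continuousOn_const.mul (hsc.pow 2)) ?_
    exact continuousOn_cu h.lap hg hℓ hℓ1 A

/-- pointwise identity behind the cut-off equation -/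
theorem cut_identity {χ g h : E d → ℂ} (hχ : IsCut χ) {a w lam : ℝ}
    (hg : ContDiff ℝ 2 g)
    (he : ∀ y, (lam : ℂ) * g y = Complex.I * lap g y - (1 / 2) * eul g y
      - ((a : ℂ) - Complex.I * (w : ℂ)) * g y + h y) {ℓ : ℝ} (hℓ : 0 < ℓ) (x : E d) :
    (lam : ℂ) * (χ x * g (ℓ⁻¹ • x)) + χ x * ((1 / 2 : ℂ) * eul g (ℓ⁻¹ • x))
      = (Complex.I * (ℓ : ℂ) ^ 2) * lap (fun x => χ x * g (ℓ⁻¹ • x)) x
        + (-((a : ℂ) - Complex.I * (w : ℂ))) * (χ x * g (ℓ⁻¹ • x))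
        + rem χ g h ℓ x := by
  have hχ2 : ContDiff ℝ 2 χ := by
    have := contDiff_infty.1 hχ.smooth 2
    exact_mod_cast this
  rw [lap_cut hχ2 hg, rem]
  have h1 := he (ℓ⁻¹ • x)
  have h2 : ((ℓ⁻¹ : ℝ) : ℂ) = (ℓ : ℂ)⁻¹ := by push_cast; rfl
  have h3 : (ℓ : ℂ) ≠ 0 := by exact_mod_cast hℓ.ne'
  rw [h2]
  have h4 : (ℓ : ℂ) ^ 2 * (ℓ : ℂ)⁻¹ = ℓ := by field_simp
  have h5 : (ℓ : ℂ) ^ 2 * (ℓ : ℂ)⁻¹ ^ 2 = 1 := by field_simp
  linear_combination χ x * h1 - 2 * Complex.I * (∑ j, pd j χ x * pd j g (ℓ⁻¹ • x)) * h4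
    - Complex.I * (χ x * lap g (ℓ⁻¹ • x)) * h5

theorem contDiff_two {χ : E d → ℂ} (hχ : IsCut χ) : ContDiff ℝ 2 χ := by
  have := contDiff_infty.1 hχ.smooth 2
  exact_mod_cast this

theorem rem_eq {χ g h : E d → ℂ} (hχ : IsCut χ) (hg : Wn k g) (hp : ∀ j, Wn k (pd j g))
    (hh : Wn k h) {ℓ : ℝ} (hℓ : 0 < ℓ) (hℓ1 : ℓ ≤ 1) (n : Lat d) :
    perCoef (rem χ g h ℓ) n = coef (cu k χ h ℓ - rho k χ g ℓ) n := by
  have i1 : Integrable fun x : E d => χ x * h (ℓ⁻¹ • x) := hχ.integrable hh.continuous _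
  have i2 : ∀ j, Integrable fun x : E d => pd j χ x * pd j g (ℓ⁻¹ • x) := fun j =>
    (hχ.pd j).integrable (hp j).continuous _
  have i2' : Integrable fun x : E d => (2 * Complex.I * (ℓ : ℂ)) *
      ∑ j, pd j χ x * pd j g (ℓ⁻¹ • x) :=
    (integrable_finsetSum _ fun j _ => i2 j).const_mul _
  have i3 : Integrable fun x : E d => (Complex.I * (ℓ : ℂ) ^ 2) * (lap χ x * g (ℓ⁻¹ • x)) :=
    (hχ.lap.integrable hg.continuous _).const_mul _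
  have e1 : perCoef (rem χ g h ℓ) n
      = perCoef (fun x => χ x * h (ℓ⁻¹ • x)) n
        - (2 * Complex.I * (ℓ : ℂ)) * ∑ j, perCoef (fun x => pd j χ x * pd j g (ℓ⁻¹ • x)) n
        - (Complex.I * (ℓ : ℂ) ^ 2) * perCoef (fun x => lap χ x * g (ℓ⁻¹ • x)) n := by
    have : perCoef (rem χ g h ℓ) n = perCoef (fun x => (χ x * h (ℓ⁻¹ • x)
        - (2 * Complex.I * (ℓ : ℂ)) * ∑ j, pd j χ x * pd j g (ℓ⁻¹ • x))
        - (Complex.I * (ℓ : ℂ) ^ 2) * (lap χ x * g (ℓ⁻¹ • x))) n := rfl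
    have i12 : Integrable fun x : E d => χ x * h (ℓ⁻¹ • x)
        - (2 * Complex.I * (ℓ : ℂ)) * ∑ j, pd j χ x * pd j g (ℓ⁻¹ • x) := i1.sub i2'
    rw [this, perCoef_sub i12 i3, perCoef_sub i1 i2', perCoef_const_mul,
      perCoef_const_mul, perCoef_sum _ fun j _ => i2 j]
  rw [e1, coef_sub, rho, coef_add, coef_smul, coef_smul, coef_cu hχ hℓ hℓ1 hh,
    coef_cu hχ.lap hℓ hℓ1 hg]
  have e2 : coef (∑ j, cu k (pd j χ) (pd j g) ℓ) n
      = ∑ j, perCoef (fun x => pd j χ x * pd j g (ℓ⁻¹ • x)) n := by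
    have : coef (∑ j, cu k (pd j χ) (pd j g) ℓ) n = ∑ j, coef (cu k (pd j χ) (pd j g) ℓ) n :=
      map_sum (coefR (d := d) (k := k) n) _ _
    rw [this]
    exact Finset.sum_congr rfl fun j _ => coef_cu (hχ.pd j) hℓ hℓ1 (hp j) n
  rw [e2]
  ring

/-- the cut-off eigenfunction curve -/
noncomputable def ecu (k : ℕ) (χ g : E d → ℂ) (lam ℓ s : ℝ) : WA d k :=
  ((Real.exp (lam * s) : ℝ) : ℂ) • cu k χ g (sc ℓ s)

/-- Fourier coefficients of the cut-off eigenfunction curve: differential equation. -/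
theorem hasDerivAt_ecu {χ g h : E d → ℂ} (hχ : IsCut χ) {K : ℕ} {a w lam : ℝ}
    (hE : Eig K a w lam g h) {ℓ : ℝ} (hℓ : 0 < ℓ) {t : ℝ} (ht1 : sc ℓ t ≤ 1) (n : Lat d) :
    HasDerivAt (fun s => ((Real.exp (lam * s) : ℝ) : ℂ)
        * perCoef (fun x => χ x * g ((sc ℓ s)⁻¹ • x)) n)
      (-(Complex.I * ((ℓ ^ 2 * Real.exp (-t) : ℝ) : ℂ) * sqNorm n) *
          (((Real.exp (lam * t) : ℝ) : ℂ) * perCoef (fun x => χ x * g ((sc ℓ t)⁻¹ • x)) n)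
        - ((a : ℂ) - Complex.I * (w : ℂ)) *
          (((Real.exp (lam * t) : ℝ) : ℂ) * perCoef (fun x => χ x * g ((sc ℓ t)⁻¹ • x)) n)
        + ((Real.exp (lam * t) : ℝ) : ℂ) * perCoef (rem χ g h (sc ℓ t)) n) t := by
  have hg1 : ContDiff ℝ 1 g := hE.smooth.of_le (by norm_num)
  have h1 : HasDerivAt (fun s : ℝ => ((Real.exp (lam * s) : ℝ) : ℂ))
      ((lam : ℂ) * ((Real.exp (lam * t) : ℝ) : ℂ)) t := by
    have h2 : HasDerivAt (fun s : ℝ => Real.exp (lam * s)) (Real.exp (lam * t) * lam) t := by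
      have := ((hasDerivAt_id t).const_mul lam).exp
      simpa using this
    refine h2.ofReal_comp.congr_deriv ?_
    push_cast
    ring
  have h3 := hasDerivAt_perCoef_sc hχ.smooth.continuous hχ.supp hg1 hℓ t n
  refine (h1.mul h3).congr_deriv ?_
  have hs0 := sc_pos hℓ t
  set r := sc ℓ t with hr
  have hr2 : ((ℓ ^ 2 * Real.exp (-t) : ℝ) : ℂ) = (r : ℂ) ^ 2 := by
    rw [← sc_sq]; push_cast; rfl
  have i0 : Integrable fun x : E d => χ x * g (r⁻¹ • x) :=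
    hχ.integrable hE.smooth.continuous _
  have i1 : Integrable fun x : E d => (lam : ℂ) * (χ x * g (r⁻¹ • x)) := i0.const_mul _
  have hec : Continuous (eul g) := (hg1.continuous_fderiv one_ne_zero).clm_apply continuous_id
  have i2 : Integrable fun x : E d => χ x * ((1 / 2 : ℂ) * eul g (r⁻¹ • x)) :=
    hχ.integrable (f := fun y => (1 / 2 : ℂ) * eul g y) (continuous_const.mul hec) _
  have hcd : ContDiff ℝ 2 fun x : E d => χ x * g (r⁻¹ • x) :=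
    (contDiff_two hχ).mul (hE.smooth.comp (contDiff_const_smul _))
  have hcc : HasCompactSupport fun x : E d => χ x * g (r⁻¹ • x) := hχ.compact.mul_right
  have hlapc : Continuous (lap fun x : E d => χ x * g (r⁻¹ • x)) := by
    refine continuous_finsetSum _ fun j _ => ?_
    have h4 : ContDiff ℝ 1 (pd j fun x : E d => χ x * g (r⁻¹ • x)) := by
      have := contDiff_pd (n := 1) (G := fun x : E d => χ x * g (r⁻¹ • x))
        (by norm_num; exact hcd) j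
      exact_mod_cast this
    exact continuous_pd h4 j
  have hlaps : HasCompactSupport (lap fun x : E d => χ x * g (r⁻¹ • x)) := by
    refine HasCompactSupport.intro (K := Metric.closedBall (0 : E d) 1)
      (isCompact_closedBall _ _) fun x hx => ?_
    rw [mem_closedBall_zero_iff, not_le] at hx
    rw [lap_cut (contDiff_two hχ) hE.smooth, hχ.lap.supp x hx.le, hχ.supp x hx.le]
    have : ∀ j, pd j χ x = 0 := fun j => (hχ.pd j).supp x hx.le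
    simp [this]
  have i3 : Integrable fun x : E d => (Complex.I * (r : ℂ) ^ 2) *
      lap (fun x => χ x * g (r⁻¹ • x)) x :=
    (hlapc.integrable_of_hasCompactSupport hlaps).const_mul _
  have i4 : Integrable fun x : E d => (-((a : ℂ) - Complex.I * (w : ℂ))) *
      (χ x * g (r⁻¹ • x)) := i0.const_mul _
  have i5 : Integrable (rem χ g h r) := by
    have j1 : Integrable fun x : E d => χ x * h (r⁻¹ • x) := hχ.integrable hE.wh.continuous _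
    have j2 : ∀ j, Integrable fun x : E d => pd j χ x * pd j g (r⁻¹ • x) := fun j =>
      (hχ.pd j).integrable (hE.wp j).continuous _
    have j2' : Integrable fun x : E d => (2 * Complex.I * (r : ℂ)) *
        ∑ j, pd j χ x * pd j g (r⁻¹ • x) :=
      (integrable_finsetSum _ fun j _ => j2 j).const_mul _
    have j3 : Integrable fun x : E d => (Complex.I * (r : ℂ) ^ 2) * (lap χ x * g (r⁻¹ • x)) :=
      (hχ.lap.integrable hE.wg.continuous _).const_mul _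
    exact (j1.sub j2').sub j3
  have key : (lam : ℂ) * perCoef (fun x => χ x * g (r⁻¹ • x)) n
        + perCoef (fun x => χ x * ((1 / 2 : ℂ) * eul g (r⁻¹ • x))) n
      = (Complex.I * (r : ℂ) ^ 2) * (-(sqNorm n : ℂ) * perCoef (fun x => χ x * g (r⁻¹ • x)) n)
        + (-((a : ℂ) - Complex.I * (w : ℂ))) * perCoef (fun x => χ x * g (r⁻¹ • x)) n
        + perCoef (rem χ g h r) n := by
    have i34 : Integrable fun x : E d => (Complex.I * (r : ℂ) ^ 2) *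
      lap (fun x => χ x * g (r⁻¹ • x)) x + (-((a : ℂ) - Complex.I * (w : ℂ))) *
      (χ x * g (r⁻¹ • x)) := i3.add i4
    rw [← perCoef_lap hcd hcc n, ← perCoef_const_mul, ← perCoef_const_mul, ← perCoef_const_mul,
      ← perCoef_add i1 i2, ← perCoef_add i3 i4, ← perCoef_add i34 i5]
    congr 1
    ext x
    exact cut_identity hχ hE.smooth hE.eqn hs0 x
  rw [hr2]
  linear_combination ((Real.exp (lam * t) : ℝ) : ℂ) * key

/-- **Duhamel formula for the cut-off eigenfunction curve.** -/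
theorem ecu_duhamel {χ g h : E d → ℂ} (hχ : IsCut χ) {a w lam : ℝ}
    (hE : Eig k a w lam g h) {ℓ A : ℝ} (hℓ : 0 < ℓ) (hℓ1 : ℓ ≤ 1) :
    ∀ t ∈ Icc 0 A, ecu k χ g lam ℓ t = Uf a w ℓ t 0 (ecu k χ g lam ℓ 0)
      + ∫ s in (0 : ℝ)..t, Uf a w ℓ t s (((Real.exp (lam * s) : ℝ) : ℂ) •
          (cu k χ h (sc ℓ s) - rho k χ g (sc ℓ s))) := by
  have hwg := hE.wg.mono (Nat.le_succ k)
  have hwp := fun j => (hE.wp j).mono (Nat.le_succ k)
  have hwh := hE.wh.mono (Nat.le_succ k)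
  have hec : ContinuousOn (fun s : ℝ => ((Real.exp (lam * s) : ℝ) : ℂ)) (Icc 0 A) := by
    fun_prop
  refine duhamel_of_coef (hec.smul ((continuousOn_cu hχ hE.wh hℓ hℓ1 A).sub
    (continuousOn_rho hχ hE.wg hE.wp hℓ hℓ1 A))) ?_
  intro t ht n
  have hs0 := sc_pos hℓ t
  have hs1 : sc ℓ t ≤ 1 := (sc_le_self hℓ.le ht.1).trans hℓ1
  have h1 := (hasDerivAt_ecu hχ hE hℓ hs1 n).hasDerivWithinAt (s := Icc 0 A)
  have h2 : ∀ s ∈ Icc 0 A, coef (ecu k χ g lam ℓ s) n = ((Real.exp (lam * s) : ℝ) : ℂ)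
      * perCoef (fun x => χ x * g ((sc ℓ s)⁻¹ • x)) n := by
    intro s hs
    rw [ecu, coef_smul, coef_cu hχ (sc_pos hℓ s) ((sc_le_self hℓ.le hs.1).trans hℓ1) hwg]
  refine (h1.congr h2 (h2 t ht)).congr_deriv ?_
  rw [h2 t ht, coef_smul, rem_eq hχ hwg hwp hwh hs0 hs1]

theorem continuousOn_ecu {χ g h : E d → ℂ} (hχ : IsCut χ) {a w lam : ℝ}
    (hE : Eig k a w lam g h) {ℓ : ℝ} (hℓ : 0 < ℓ) (hℓ1 : ℓ ≤ 1) (A : ℝ) :
    ContinuousOn (fun s => ecu k χ g lam ℓ s) (Icc 0 A) := by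
  have h1 : ContinuousOn (fun s : ℝ => ((Real.exp (lam * s) : ℝ) : ℂ)) (Icc 0 A) := by
    fun_prop
  exact h1.smul (continuousOn_cu hχ hE.wg hℓ hℓ1 A)

end Vale.Agent.P139.N
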