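import Vale.Agent.P139.H579.NNorm

/-! # P139 / block N : frames and the change of variables `Curve → RCurve` -/

open Set Filter Topology MeasureTheory
open scoped ComplexConjugate

namespace Vale.Agent.P139.N

open Vale.Agent.P139.A Vale.Agent.P139.A.WA Vale.Agent.P139.H203 Vale.Agent.P139.BU

variable {d k : ℕ}

theorem expi_add_right (n : Lat d) (x y : Fin d → ℝ) : expi n (x + y) = expi n x * expi n y := by
  unfold expi
  rw [← Complex.exp_add, ← mul_add, ← Finset.sum_add_distrib]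
  congr 2
  refine Finset.sum_congr rfl fun j _ => ?_
  rw [Pi.add_apply]
  push_cast
  ring

theorem ev_shift (c : ℂ) (x0 : Fin d → ℝ) (u : WA d k) (x : Fin d → ℝ) :
    ev (shift c x0 u) x = c * ev u (x + x0) := by
  unfold ev series
  rw [← tsum_mul_left]
  refine tsum_congr fun n => ?_
  rw [coef_shift, expi_add_right]
  ring

theorem shift_shift (c c' : ℂ) (x x' : Fin d → ℝ) (u : WA d k) :
    shift c x (shift c' x' u) = shift (c * c') (x + x') u := by
  ext n
  simp only [coef_shift, expi_add_right]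
  ring

theorem shift_add (c : ℂ) (x : Fin d → ℝ) (u v : WA d k) :
    shift c x (u + v) = shift c x u + shift c x v := by
  ext n
  simp only [coef_shift, coef_add]
  ring

theorem shift_sub (c : ℂ) (x : Fin d → ℝ) (u v : WA d k) :
    shift c x (u - v) = shift c x u - shift c x v := by
  ext n
  simp only [coef_shift, coef_sub]
  ring

theorem shift_smul (c c' : ℂ) (x : Fin d → ℝ) (u : WA d k) :
    shift (c' * c) x u = c' • shift c x u := by
  ext n
  simp only [coef_shift, coef_smul]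
  ring

theorem norm_shift (c : ℂ) (x : Fin d → ℝ) (u : WA d k) : ‖shift c x u‖ = ‖c‖ * ‖u‖ := by
  rw [norm_eq, norm_eq, ← tsum_mul_left]
  refine tsum_congr fun n => ?_
  rw [coef_shift, norm_mul, norm_mul, norm_expi, mul_one]
  ring

theorem F_shift (m : ℕ) (c : ℂ) (x : Fin d → ℝ) (u : WA d k) :
    F m (shift c x u) = shift ((‖c‖ : ℂ) ^ (2 * m) * c) x (F m u) := by
  apply ev_injective
  intro y
  rw [ev_F, ev_shift, ev_shift, ev_F, norm_mul]
  push_cast
  ring

theorem continuousOn_shift {s : Set ℝ} {c : ℝ → ℂ} (hc : ContinuousOn c s) (x : Fin d → ℝ)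
    {u : ℝ → WA d k} (hu : ContinuousOn u s) : ContinuousOn (fun t => shift (c t) x (u t)) s := by
  have h1 : ContinuousOn (fun t => shift 1 x (u t)) s := by
    intro t ht
    rw [ContinuousWithinAt, tendsto_iff_norm_sub_tendsto_zero]
    have h2 := tendsto_iff_norm_sub_tendsto_zero.1 (hu t ht)
    refine h2.congr fun r => ?_
    rw [← shift_sub, norm_shift, norm_one, one_mul]
  have h3 : ContinuousOn (fun t => c t • shift 1 x (u t)) s := hc.smul h1
  refine h3.congr fun t _ => ?_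
  show shift (c t) x (u t) = c t • shift 1 x (u t)
  rw [← shift_smul 1 (c t), mul_one]

/-- Composition of frames. -/
theorem toFrame_toFrame (m : ℕ) {ℓ ℓ' : ℝ} (hl : 0 < ℓ) (hl' : 0 < ℓ') (x x' : Fin d → ℝ)
    (θ θ' : ℝ) (u : WA d k) :
    toFrame m (ℓ' / ℓ) x' θ' (toFrame m ℓ x θ u) = toFrame m ℓ' (x' + x) (θ' + θ) u := by
  unfold toFrame
  rw [shift_shift]
  congr 1
  have h1 : (ℓ' / ℓ) ^ (2 * aa m) * ℓ ^ (2 * aa m) = ℓ' ^ (2 * aa m) := by
    rw [← Real.mul_rpow (div_pos hl' hl).le hl.le, div_mul_cancel₀ _ hl.ne']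
  rw [← h1]
  push_cast
  rw [mul_add, neg_add, Complex.exp_add]
  ring

theorem toFrame_sub (m : ℕ) (ℓ : ℝ) (x : Fin d → ℝ) (θ : ℝ) (u v : WA d k) :
    toFrame m ℓ x θ (u - v) = toFrame m ℓ x θ u - toFrame m ℓ x θ v := shift_sub _ _ _ _

theorem Nn_toFrame (m : ℕ) {ℓ : ℝ} (hl : 0 < ℓ) (x : Fin d → ℝ) (θ : ℝ) (u : WA d k) (ρ : ℝ)
    (j : ℕ) : Nn ρ j (toFrame m ℓ x θ u) = ℓ ^ (2 * aa m) * Nn ρ j u := by
  unfold toFrame
  rw [Nn_shift, norm_mul, Complex.norm_real, Real.norm_of_nonneg (Real.rpow_nonneg hl.le _)]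
  have : ‖Complex.exp (-(Complex.I * θ))‖ = 1 := by
    rw [show -(Complex.I * (θ : ℂ)) = ((-θ : ℝ) : ℂ) * Complex.I by push_cast; ring]
    exact Complex.norm_exp_ofReal_mul_I _
  rw [this, one_mul]

/-- The rescaled curve attached to a solution and a frame at time `t0`. -/
noncomputable def rescale (m : ℕ) (w t0 ℓ : ℝ) (x : Fin d → ℝ) (θ : ℝ) (u : ℝ → WA d k) (τ : ℝ) :
    WA d k :=
  toFrame m (ℓ * Real.exp (-τ / 2)) x (θ - w * τ) (u (t0 + ℓ ^ 2 * (1 - Real.exp (-τ))))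

theorem aa_pos {m : ℕ} (hm : 1 ≤ m) : 0 < aa m := by
  unfold aa
  have : (0 : ℝ) < m := by exact_mod_cast hm
  positivity

theorem rescale_zero (m : ℕ) (w t0 ℓ : ℝ) (x : Fin d → ℝ) (θ : ℝ) (u : ℝ → WA d k) :
    rescale m w t0 ℓ x θ u 0 = toFrame m ℓ x θ (u t0) := by
  unfold rescale
  simp

theorem rcurve_rescale {m : ℕ} (hm : 1 ≤ m) (w : ℝ) {T t0 ℓ : ℝ} (ht0 : 0 ≤ t0) (hl : 0 < ℓ)
    (hT : t0 + ℓ ^ 2 ≤ T) (x : Fin d → ℝ) (θ : ℝ) {u : ℝ → WA d k} (hu : Curve m T u) (A : ℝ) :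
    RCurve m w ℓ A (rescale m w t0 ℓ x θ u) := by
  set tt : ℝ → ℝ := fun τ => t0 + ℓ ^ 2 * (1 - Real.exp (-τ)) with htt
  have hmaps : MapsTo tt (Icc 0 A) (Icc 0 T) := by
    intro τ hτ
    have h1 : Real.exp (-τ) ≤ 1 := Real.exp_le_one_iff.2 (by linarith [hτ.1])
    have h2 := Real.exp_pos (-τ)
    have h3 : 0 ≤ ℓ ^ 2 := by positivity
    constructor
    · have : 0 ≤ ℓ ^ 2 * (1 - Real.exp (-τ)) := mul_nonneg h3 (by linarith)
      simp only [htt]
      linarith
    · have : ℓ ^ 2 * (1 - Real.exp (-τ)) ≤ ℓ ^ 2 * 1 := mul_le_mul_of_nonneg_left (by linarith) h3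
      simp only [htt]
      linarith
  have htt' : ∀ τ, HasDerivAt tt (ℓ ^ 2 * Real.exp (-τ)) τ := by
    intro τ
    have h1 : HasDerivAt (fun τ : ℝ => Real.exp (-τ)) (Real.exp (-τ) * -1) τ :=
      (hasDerivAt_neg τ).exp
    have h2 := ((h1.const_sub 1).const_mul (ℓ ^ 2)).const_add t0
    refine h2.congr_deriv ?_
    ring
  set c : ℝ → ℂ := fun τ => Complex.exp (-(Complex.I * ((θ - w * τ : ℝ) : ℂ))) *
    (((ℓ * Real.exp (-τ / 2)) ^ (2 * aa m) : ℝ) : ℂ) with hc
  have hcc : ∀ τ, c τ = Complex.exp (-(Complex.I * θ)) * ((ℓ ^ (2 * aa m) : ℝ) : ℂ) *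
      Complex.exp ((Complex.I * w - aa m) * τ) := by
    intro τ
    simp only [hc]
    rw [Real.mul_rpow hl.le (Real.exp_pos _).le, ← Real.exp_mul]
    rw [show -τ / 2 * (2 * aa m) = -(aa m * τ) by ring]
    push_cast
    rw [show (Complex.I * (w : ℂ) - (aa m : ℂ)) * (τ : ℂ) = Complex.I * w * τ + (-(aa m * τ)) by ring,
      Complex.exp_add, show -(Complex.I * ((θ : ℂ) - w * τ)) = -(Complex.I * θ) + Complex.I * w * τ
      by ring, Complex.exp_add]
    ring
  have hcd : ∀ τ, HasDerivAt c ((Complex.I * w - aa m) * c τ) τ := by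
    intro τ
    have h1 : HasDerivAt (fun τ : ℝ => ((Complex.I * w - aa m) * (τ : ℂ) : ℂ))
        (Complex.I * w - aa m) τ := by
      simpa using (Complex.ofRealCLM.hasDerivAt (x := τ)).const_mul (Complex.I * w - aa m : ℂ)
    have h2 := (h1.cexp).const_mul (Complex.exp (-(Complex.I * θ)) * ((ℓ ^ (2 * aa m) : ℝ) : ℂ))
    have h3 : c = fun τ : ℝ => Complex.exp (-(Complex.I * θ)) * ((ℓ ^ (2 * aa m) : ℝ) : ℂ) *
      Complex.exp ((Complex.I * w - aa m) * τ) := funext hcc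
    rw [h3]
    refine h2.congr_deriv ?_
    ring
  have hcn : ∀ τ, ‖c τ‖ ^ (2 * m) = ℓ ^ 2 * Real.exp (-τ) := by
    intro τ
    have h1 : ‖c τ‖ = (ℓ * Real.exp (-τ / 2)) ^ (2 * aa m) := by
      simp only [hc]
      rw [norm_mul, Complex.norm_real,
        Real.norm_of_nonneg (Real.rpow_nonneg (mul_pos hl (Real.exp_pos _)).le _)]
      have : ‖Complex.exp (-(Complex.I * ((θ - w * τ : ℝ) : ℂ)))‖ = 1 := by
        rw [show -(Complex.I * ((θ - w * τ : ℝ) : ℂ)) = ((-(θ - w * τ) : ℝ) : ℂ) * Complex.I by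
          push_cast; ring]
        exact Complex.norm_exp_ofReal_mul_I _
      rw [this, one_mul]
    have hm' : (m : ℝ) ≠ 0 := by
      have : (0 : ℝ) < m := by exact_mod_cast hm
      exact this.ne'
    rw [h1, ← Real.rpow_natCast, ← Real.rpow_mul (mul_pos hl (Real.exp_pos _)).le]
    have h2 : 2 * aa m * ((2 * m : ℕ) : ℝ) = ((2 : ℕ) : ℝ) := by
      unfold aa
      push_cast
      field_simp
    rw [h2, Real.rpow_natCast, mul_pow, ← Real.exp_nat_mul]
    congr 2
    push_cast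
    ring
  have hv : rescale m w t0 ℓ x θ u = fun τ => shift (c τ) x (u (tt τ)) := rfl
  have hctt : ContinuousOn tt (Icc 0 A) := fun τ _ => (htt' τ).continuousAt.continuousWithinAt
  refine ⟨?_, fun τ hτ n => ?_⟩
  · rw [hv]
    exact continuousOn_shift (fun τ _ => (hcd τ).continuousAt.continuousWithinAt) x
      (hu.cont.comp hctt hmaps)
  · rw [hv]
    simp only [coef_shift]
    have h1 := hu.eqn (tt τ) (hmaps hτ) n
    have h2 : HasDerivWithinAt (fun s => coef (u (tt s)) n)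
        ((-Complex.I * (sqNorm n * coef (u (tt τ)) n) - Complex.I * coef (F m (u (tt τ))) n) *
          ((ℓ ^ 2 * Real.exp (-τ) : ℝ) : ℂ)) (Icc 0 A) τ := by
      have h3 := h1.scomp τ (htt' τ).hasDerivWithinAt hmaps
      refine h3.congr_deriv ?_
      rw [Complex.real_smul]
      ring
    have h4 := (((hcd τ).hasDerivWithinAt (s := Icc 0 A)).mul_const (expi n x)).mul h2
    refine h4.congr_deriv ?_
    rw [F_shift, coef_shift]
    have h5 : ((‖c τ‖ : ℂ) ^ (2 * m)) = ((ℓ ^ 2 * Real.exp (-τ) : ℝ) : ℂ) := by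
      rw [← hcn τ]
      push_cast
      ring
    rw [h5]
    ring

end Vale.Agent.P139.N
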