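import Vale.Agent.P139.H579.Wop
import Vale.Agent.P139.H579.Cut

/-! # P139 / block N : Fourier coefficients of cut-off functions, derivatives -/

open Set Filter Topology MeasureTheory
open scoped ComplexConjugate ContDiff

namespace Vale.Agent.P139.N

open Vale.Agent.P139.A Vale.Agent.P139.A.WA Vale.Agent.P139.H203 Vale.Agent.P139.BU

variable {d k : ℕ}

/-- The character `e^{-i n·x}` on `E d`. -/
noncomputable def ch (n : Lat d) (x : E d) : ℂ := expi (-n) (WithLp.ofLp x)

/-- The linear form `x ↦ -i n·x`. -/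
noncomputable def chL (n : Lat d) : E d →L[ℝ] ℂ :=
  ∑ j, (-(Complex.I * (n j : ℂ))) • (Complex.ofRealCLM.comp (EuclideanSpace.proj j))

theorem chL_apply (n : Lat d) (x : E d) : chL n x = ∑ j, -(Complex.I * (n j : ℂ)) * (x j : ℂ) := by
  simp [chL]

theorem chL_single (n : Lat d) (j : Fin d) :
    chL n (EuclideanSpace.single j (1 : ℝ)) = -(Complex.I * (n j : ℂ)) := by
  rw [chL_apply, Finset.sum_eq_single j]
  · simp
  · intro i _ hij
    simp [hij]
  · simp

theorem ch_eq (n : Lat d) (x : E d) : ch n x = Complex.exp (chL n x) := by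
  rw [ch, expi, chL_apply, Finset.mul_sum]
  congr 1
  refine Finset.sum_congr rfl fun j _ => ?_
  simp only [Pi.neg_apply, Int.cast_neg]
  ring

theorem norm_ch (n : Lat d) (x : E d) : ‖ch n x‖ = 1 := norm_expi _ _

theorem hasFDerivAt_ch (n : Lat d) (x : E d) :
    HasFDerivAt (ch n) (ch n x • chL n) x := by
  have h1 : HasFDerivAt (fun y => Complex.exp (chL n y)) (Complex.exp (chL n x) • chL n) x :=
    (chL n).hasFDerivAt.cexp
  rw [ch_eq]
  exact h1.congr_of_eventuallyEq (Eventually.of_forall fun y => ch_eq n y)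

theorem continuous_ch (n : Lat d) : Continuous (ch n : E d → ℂ) :=
  continuous_iff_continuousAt.2 fun x => (hasFDerivAt_ch n x).continuousAt

theorem differentiable_ch (n : Lat d) : Differentiable ℝ (ch n : E d → ℂ) :=
  fun x => (hasFDerivAt_ch n x).differentiableAt

theorem perCoef_def (G : E d → ℂ) (n : Lat d) :
    perCoef G n = ((2 * Real.pi : ℂ) ^ d)⁻¹ * ∫ x : E d, G x * ch n x := rfl

theorem integrable_mul_ch {G : E d → ℂ} (hG : Integrable G) (n : Lat d) :
    Integrable fun x => G x * ch n x := by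
  refine hG.mono (hG.1.mul (continuous_ch n).aestronglyMeasurable)
    (Eventually.of_forall fun x => ?_)
  rw [norm_mul, norm_ch, mul_one]

theorem perCoef_add {G H : E d → ℂ} (hG : Integrable G) (hH : Integrable H) (n : Lat d) :
    perCoef (fun x => G x + H x) n = perCoef G n + perCoef H n := by
  rw [perCoef_def, perCoef_def, perCoef_def, ← mul_add,
    ← integral_add (integrable_mul_ch hG n) (integrable_mul_ch hH n)]
  congr 2
  ext x
  ring

theorem perCoef_const_mul (c : ℂ) (G : E d → ℂ) (n : Lat d) :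
    perCoef (fun x => c * G x) n = c * perCoef G n := by
  have h : ∫ x : E d, (c * G x) * ch n x = c * ∫ x : E d, G x * ch n x := by
    rw [← integral_const_mul]
    congr 1
    ext x
    ring
  rw [perCoef_def, perCoef_def, h]
  ring

theorem perCoef_neg (G : E d → ℂ) (n : Lat d) :
    perCoef (fun x => -G x) n = -perCoef G n := by
  have := perCoef_const_mul (-1) G n
  simpa using this

theorem perCoef_sub {G H : E d → ℂ} (hG : Integrable G) (hH : Integrable H) (n : Lat d) :
    perCoef (fun x => G x - H x) n = perCoef G n - perCoef H n := by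
  have h1 : perCoef (fun x => G x + -H x) n = perCoef G n + perCoef (fun x => -H x) n :=
    perCoef_add hG hH.neg n
  rw [perCoef_neg] at h1
  simpa only [sub_eq_add_neg] using h1

theorem perCoef_sum {ι : Type*} (s : Finset ι) {G : ι → E d → ℂ} (hG : ∀ i ∈ s, Integrable (G i))
    (n : Lat d) : perCoef (fun x => ∑ i ∈ s, G i x) n = ∑ i ∈ s, perCoef (G i) n := by
  simp only [perCoef_def]
  rw [← Finset.mul_sum, ← integral_finsetSum s fun i hi => integrable_mul_ch (hG i hi) n]
  congr 2
  ext x
  rw [Finset.sum_mul]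

theorem norm_perCoef_le {G : E d → ℂ} (n : Lat d) :
    ‖perCoef G n‖ ≤ ∫ x, ‖G x‖ := by
  rw [perCoef_def, norm_mul]
  have h1 : ‖∫ x : E d, G x * ch n x‖ ≤ ∫ x, ‖G x‖ := by
    refine (norm_integral_le_integral_norm _).trans (le_of_eq ?_)
    congr 1
    ext x
    rw [norm_mul, norm_ch, mul_one]
  have h2 : ‖((2 * Real.pi : ℂ) ^ d)⁻¹‖ ≤ 1 := by
    rw [norm_inv, norm_pow]
    apply inv_le_one_of_one_le₀
    apply one_le_pow₀
    have h3 : ‖(2 * Real.pi : ℂ)‖ = 2 * Real.pi := by
      rw [norm_mul, Complex.norm_real, Real.norm_of_nonneg Real.pi_pos.le]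
      simp
    rw [h3]
    linarith [Real.two_le_pi]
  calc _ ≤ 1 * ∫ x, ‖G x‖ := by gcongr
    _ = _ := one_mul _

/-- Coefficients of a partial derivative. -/
theorem perCoef_pd {G : E d → ℂ} (hG : ContDiff ℝ 1 G) (hc : HasCompactSupport G) (j : Fin d)
    (n : Lat d) : perCoef (pd j G) n = Complex.I * (n j : ℂ) * perCoef G n := by
  have hGi : Integrable G := hG.continuous.integrable_of_hasCompactSupport hc
  have hpc : Continuous (pd j G) := by
    have := (hG.continuous_fderiv one_ne_zero)
    exact this.clm_apply continuous_const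
  have hps : HasCompactSupport (pd j G) := by
    refine (hc.fderiv ℝ).mono ?_
    intro x hx
    rw [Function.mem_support] at hx ⊢
    intro h0
    apply hx
    rw [pd, h0]
    rfl
  have hpi : Integrable (pd j G) := hpc.integrable_of_hasCompactSupport hps
  have key := integral_mul_fderiv_eq_neg_fderiv_mul_of_integrable (μ := (volume : Measure (E d)))
    (f := ch n) (g := G) (v := EuclideanSpace.single j (1 : ℝ)) ?_ ?_ ?_
    (fun x _ => differentiable_ch n x)
    (fun x _ => (hG.differentiable one_ne_zero) x)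
  · rw [perCoef_def, perCoef_def, mul_left_comm]
    congr 1
    have e1 : ∫ x : E d, pd j G x * ch n x
        = ∫ x, ch n x * (fderiv ℝ G x) (EuclideanSpace.single j (1 : ℝ)) := by
      congr 1; ext x; rw [pd, mul_comm]
    rw [e1, key, ← integral_neg, ← integral_const_mul]
    congr 1
    ext x
    rw [(hasFDerivAt_ch n x).fderiv]
    simp only [smul_apply, chL_single, smul_eq_mul]
    ring
  · have : (fun x => (fderiv ℝ (ch n) x) (EuclideanSpace.single j (1 : ℝ)) * G x)
        = fun x => -(Complex.I * (n j : ℂ)) * (G x * ch n x) := by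
      ext x
      rw [(hasFDerivAt_ch n x).fderiv]
      simp only [smul_apply, chL_single, smul_eq_mul]
      ring
    rw [this]
    exact (integrable_mul_ch hGi n).const_mul _
  · have := integrable_mul_ch hpi n
    refine this.congr (Eventually.of_forall fun x => ?_)
    show pd j G x * ch n x = ch n x * _
    rw [pd, mul_comm]
  · have := integrable_mul_ch hGi n
    refine this.congr (Eventually.of_forall fun x => ?_)
    show G x * ch n x = ch n x * G x
    rw [mul_comm]

theorem continuous_pd {G : E d → ℂ} (hG : ContDiff ℝ 1 G) (j : Fin d) : Continuous (pd j G) :=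
  (hG.continuous_fderiv one_ne_zero).clm_apply continuous_const

theorem hasCompactSupport_pd {G : E d → ℂ} (hc : HasCompactSupport G) (j : Fin d) :
    HasCompactSupport (pd j G) := by
  refine (hc.fderiv ℝ).mono ?_
  intro x hx
  rw [Function.mem_support] at hx ⊢
  intro h0
  apply hx
  rw [pd, h0]
  rfl

theorem contDiff_pd {G : E d → ℂ} {n : ℕ} (hG : ContDiff ℝ (n + 1) G) (j : Fin d) :
    ContDiff ℝ n (pd j G) := by
  have h1 : ContDiff ℝ n (fderiv ℝ G) := hG.fderiv_right (by norm_cast)
  exact h1.clm_apply contDiff_const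

/-- Coefficients of the Laplacian. -/
theorem perCoef_lap {G : E d → ℂ} (hG : ContDiff ℝ 2 G) (hc : HasCompactSupport G) (n : Lat d) :
    perCoef (lap G) n = -(sqNorm n : ℂ) * perCoef G n := by
  have hG1 : ContDiff ℝ 1 G := hG.of_le (by norm_num)
  have hp : ∀ j, ContDiff ℝ 1 (pd j G) := fun j => by
    have := contDiff_pd (n := 1) (G := G) (by norm_num; exact hG) j
    exact_mod_cast this
  have hpp : ∀ j, Integrable (pd j (pd j G)) := fun j =>
    (continuous_pd (hp j) j).integrable_of_hasCompactSupport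
      (hasCompactSupport_pd (hasCompactSupport_pd hc j) j)
  have h1 : perCoef (lap G) n = ∑ j, perCoef (pd j (pd j G)) n :=
    perCoef_sum Finset.univ (fun j _ => hpp j) n
  rw [h1]
  have h2 : ∀ j, perCoef (pd j (pd j G)) n
      = -((n j : ℂ) ^ 2) * perCoef G n := by
    intro j
    rw [perCoef_pd (hp j) (hasCompactSupport_pd hc j), perCoef_pd hG1 hc]
    have := Complex.I_sq
    linear_combination ((n j : ℂ) ^ 2 * perCoef G n) * this
  simp_rw [h2]
  rw [← Finset.sum_mul, sqNorm]
  push_cast
  rw [Finset.sum_neg_distrib]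

/-! ### Dilations -/

theorem contDiff_dil {g : E d → ℂ} {n : ℕ∞} (hg : ContDiff ℝ n g) (r : ℝ) :
    ContDiff ℝ n fun x => g (r • x) :=
  hg.comp (contDiff_const_smul r)

theorem pd_dil {g : E d → ℂ} (hg : Differentiable ℝ g) (r : ℝ) (j : Fin d) (x : E d) :
    pd j (fun x => g (r • x)) x = (r : ℂ) * pd j g (r • x) := by
  have h1 : HasFDerivAt (fun y : E d => r • y) (r • ContinuousLinearMap.id ℝ (E d)) x :=
    (hasFDerivAt_id x).const_smul r
  have h2 : HasFDerivAt (fun y : E d => g (r • y))
      ((fderiv ℝ g (r • x)).comp (r • ContinuousLinearMap.id ℝ (E d))) x :=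
    HasFDerivAt.comp x (hg (r • x)).hasFDerivAt h1
  rw [pd, h2.fderiv]
  simp only [ContinuousLinearMap.comp_apply, smul_apply,
    ContinuousLinearMap.id_apply, map_smul, Complex.real_smul]
  rfl

theorem pd_mul {f g : E d → ℂ} (hf : Differentiable ℝ f) (hg : Differentiable ℝ g) (j : Fin d)
    (x : E d) : pd j (fun x => f x * g x) x = pd j f x * g x + f x * pd j g x := by
  have h : HasFDerivAt (fun x => f x * g x) (f x • fderiv ℝ g x + g x • fderiv ℝ f x) x :=
    (hf x).hasFDerivAt.mul (hg x).hasFDerivAt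
  rw [pd, h.fderiv]
  simp only [add_apply, smul_apply, smul_eq_mul]
  rw [pd, pd]
  ring

theorem pd_cut {χ g : E d → ℂ} (hχ : Differentiable ℝ χ) (hg : Differentiable ℝ g) (r : ℝ)
    (j : Fin d) (x : E d) :
    pd j (fun x => χ x * g (r • x)) x
      = pd j χ x * g (r • x) + (r : ℂ) * (χ x * pd j g (r • x)) := by
  have h1 : Differentiable ℝ fun x : E d => g (r • x) :=
    hg.comp (differentiable_id.const_smul r)
  rw [pd_mul hχ h1, pd_dil hg]
  ring

theorem pd_add {f g : E d → ℂ} (hf : Differentiable ℝ f) (hg : Differentiable ℝ g) (j : Fin d)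
    (x : E d) : pd j (fun x => f x + g x) x = pd j f x + pd j g x := by
  have h : HasFDerivAt (fun x => f x + g x) (fderiv ℝ f x + fderiv ℝ g x) x :=
    (hf x).hasFDerivAt.add (hg x).hasFDerivAt
  rw [pd, h.fderiv]
  simp only [add_apply]
  rw [pd, pd]

theorem pd_const_mul {f : E d → ℂ} (hf : Differentiable ℝ f) (c : ℂ) (j : Fin d)
    (x : E d) : pd j (fun x => c * f x) x = c * pd j f x := by
  have h : HasFDerivAt (fun x => c * f x) (c • fderiv ℝ f x) x :=
    (hf x).hasFDerivAt.const_mul c
  rw [pd, h.fderiv]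
  simp only [smul_apply, smul_eq_mul]
  rw [pd]

/-- Laplacian of a cut-off dilated function. -/
theorem lap_cut {χ g : E d → ℂ} (hχ : ContDiff ℝ 2 χ) (hg : ContDiff ℝ 2 g) (r : ℝ) (x : E d) :
    lap (fun x => χ x * g (r • x)) x
      = lap χ x * g (r • x) + 2 * (r : ℂ) * ∑ j, pd j χ x * pd j g (r • x)
        + (r : ℂ) ^ 2 * (χ x * lap g (r • x)) := by
  have hχ1 : Differentiable ℝ χ := hχ.differentiable (by norm_num)
  have hg1 : Differentiable ℝ g := hg.differentiable (by norm_num)
  have hpχ : ∀ j, Differentiable ℝ (pd j χ) := fun j => by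
    have := contDiff_pd (n := 1) (G := χ) (by norm_num; exact hχ) j
    exact this.differentiable (by norm_num)
  have hpg : ∀ j, Differentiable ℝ (pd j g) := fun j => by
    have := contDiff_pd (n := 1) (G := g) (by norm_num; exact hg) j
    exact this.differentiable (by norm_num)
  simp only [lap]
  have h : ∀ j, pd j (pd j fun x => χ x * g (r • x)) x
      = pd j (pd j χ) x * g (r • x) + 2 * (r : ℂ) * (pd j χ x * pd j g (r • x))
        + (r : ℂ) ^ 2 * (χ x * pd j (pd j g) (r • x)) := by
    intro j
    have e1 : (pd j fun x => χ x * g (r • x))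
        = fun x => pd j χ x * g (r • x) + (r : ℂ) * (χ x * pd j g (r • x)) := by
      ext y
      exact pd_cut hχ1 hg1 r j y
    have d1 : Differentiable ℝ fun x : E d => g (r • x) :=
      hg1.comp (differentiable_id.const_smul r)
    have d2 : Differentiable ℝ fun x : E d => pd j g (r • x) :=
      (hpg j).comp (differentiable_id.const_smul r)
    have f1 : Differentiable ℝ fun x : E d => pd j χ x * g (r • x) := (hpχ j).mul d1
    have f2 : Differentiable ℝ fun x : E d => χ x * pd j g (r • x) := hχ1.mul d2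
    have f3 : Differentiable ℝ fun x : E d => (r : ℂ) * (χ x * pd j g (r • x)) :=
      f2.const_mul _
    rw [e1, pd_add f1 f3, pd_const_mul f2, pd_cut (hpχ j) hg1, pd_cut hχ1 (hpg j)]
    ring
  simp_rw [h]
  simp only [Finset.sum_add_distrib, Finset.sum_mul, Finset.mul_sum]

end Vale.Agent.P139.N
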