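import Vale.Agent.P139.H579.Coef
import Vale.Agent.P139.H201.Ext4

/-! # P139 / block N : the cut-off of an eigenfunction solves the torus equation approximately -/

open Set Filter Topology MeasureTheory FourierTransform
open scoped ComplexConjugate ContDiff

namespace Vale.Agent.P139.N

open Vale.Agent.P139.A Vale.Agent.P139.A.WA Vale.Agent.P139.H203 Vale.Agent.P139.BU
open Vale.Agent.P139.H201

variable {d k : ℕ}

/-! ### Continuity in the Wiener algebra from coefficients -/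

theorem norm_gt_of_notMem {N : ℕ} {n : Lat d}
    (h : n ∉ Finset.Icc (fun _ => -(N : ℤ) : Lat d) (fun _ => (N : ℤ))) : (N : ℝ) ≤ ‖n‖ := by
  by_contra hlt
  push Not at hlt
  apply h
  rw [Finset.mem_Icc]
  constructor <;> intro j
  · have h1 : ‖n j‖ ≤ ‖n‖ := norm_le_pi_norm n j
    have h2 : |(n j : ℝ)| < N := by
      rw [← Int.norm_eq_abs]; exact h1.trans_lt hlt
    have h3 := (abs_lt.1 h2).1
    have h4 : (-(N : ℤ) : ℤ) < n j := by exact_mod_cast h3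
    exact h4.le
  · have h1 : ‖n j‖ ≤ ‖n‖ := norm_le_pi_norm n j
    have h2 : |(n j : ℝ)| < N := by
      rw [← Int.norm_eq_abs]; exact h1.trans_lt hlt
    have h3 := (abs_lt.1 h2).2
    have h4 : n j < (N : ℤ) := by exact_mod_cast h3
    exact h4.le

/-- Tail bound. -/
theorem norm_le_head_add_tail {v : WA d k} {v' : WA d (k + 1)} (hv : ∀ n, coef v' n = coef v n)
    (N : ℕ) : ‖v‖ ≤ ∑ n ∈ Finset.Icc (fun _ => -(N : ℤ) : Lat d) (fun _ => (N : ℤ)),
      W k n * ‖coef v n‖ + (1 + (N : ℝ))⁻¹ * ‖v'‖ := by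
  rw [norm_eq, ← v.summable.sum_add_tsum_compl (s := Finset.Icc (fun _ => -(N : ℤ) : Lat d)
    (fun _ => (N : ℤ)))]
  gcongr
  have h1 : Summable fun n : Lat d => (1 + (N : ℝ))⁻¹ * (W (k + 1) n * ‖coef v' n‖) :=
    v'.summable.mul_left _
  rw [norm_eq, ← tsum_mul_left]
  refine le_trans ?_ (Summable.tsum_subtype_le
    (fun n : Lat d => (1 + (N : ℝ))⁻¹ * (W (k + 1) n * ‖coef v' n‖))
    ((↑(Finset.Icc (fun _ => -(N : ℤ) : Lat d) (fun _ => (N : ℤ))) : Set (Lat d))ᶜ)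
    (fun n => ?_) h1)
  · refine Summable.tsum_le_tsum (fun n => ?_) ?_ ?_
    · have hn : (N : ℝ) ≤ ‖(n : Lat d)‖ := norm_gt_of_notMem (by
        have := n.2
        simpa using this)
      rw [hv, W, W, pow_succ]
      have h0 : (0 : ℝ) < 1 + N := by positivity
      rw [inv_mul_eq_div, le_div_iff₀ h0]
      have h2 : (1 : ℝ) + N ≤ 1 + ‖(n : Lat d)‖ := by linarith
      have h3 : 0 ≤ (1 + ‖(n : Lat d)‖) ^ k * ‖coef v n‖ := by positivity
      nlinarith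
    · exact v.summable.subtype _
    · exact h1.subtype _
  · have := W_pos (k := k + 1) n
    positivity

theorem continuousOn_of_coef {Y : Type*} [TopologicalSpace Y] {S : Set Y} {V : Y → WA d k}
    {V' : Y → WA d (k + 1)} (hV : ∀ y ∈ S, ∀ n, coef (V' y) n = coef (V y) n) {C : ℝ}
    (hC : ∀ y ∈ S, ‖V' y‖ ≤ C) (hc : ∀ n, ContinuousOn (fun y => coef (V y) n) S) :
    ContinuousOn V S := by
  intro y hy
  have hC0 : 0 ≤ C := (norm_nonneg _).trans (hC y hy)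
  rw [ContinuousWithinAt, tendsto_iff_norm_sub_tendsto_zero, Metric.tendsto_nhds]
  intro ε hε
  obtain ⟨N, hN⟩ := exists_nat_gt (4 * C / ε)
  have hN0 : (0 : ℝ) < 1 + N := by positivity
  have htail : (1 + (N : ℝ))⁻¹ * (2 * C) < ε / 2 := by
    rw [inv_mul_lt_iff₀ hN0]
    rw [div_lt_iff₀ hε] at hN
    nlinarith
  have hhead : Tendsto (fun z => ∑ n ∈ Finset.Icc (fun _ => -(N : ℤ) : Lat d)
      (fun _ => (N : ℤ)), W k n * ‖coef (V z) n - coef (V y) n‖) (𝓝[S] y) (𝓝 0) := by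
    have h1 : (0 : ℝ) = ∑ n ∈ Finset.Icc (fun _ => -(N : ℤ) : Lat d)
      (fun _ => (N : ℤ)), W k n * 0 := by simp
    rw [h1]
    refine tendsto_finsetSum _ fun n _ => Tendsto.const_mul _ ?_
    exact tendsto_iff_norm_sub_tendsto_zero.1 (hc n y hy)
  filter_upwards [(Metric.tendsto_nhds.1 hhead) (ε / 2) (by positivity), self_mem_nhdsWithin]
    with z hz hzS
  rw [Real.dist_eq, sub_zero] at hz ⊢
  rw [abs_of_nonneg (norm_nonneg _)]
  have h2 := norm_le_head_add_tail (v := V z - V y) (v' := V' z - V' y) (fun n => by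
    rw [coef_sub, coef_sub, hV z hzS, hV y hy]) N
  have h3 : ‖V' z - V' y‖ ≤ 2 * C := by
    refine (norm_sub_le _ _).trans ?_
    linarith [hC z hzS, hC y hy]
  simp only [coef_sub] at h2
  have h4 := (le_abs_self _).trans_lt hz
  calc ‖V z - V y‖ ≤ _ := h2
    _ ≤ _ + (1 + (N : ℝ))⁻¹ * (2 * C) := by gcongr
    _ < ε := by linarith

/-! ### Functions with weighted integrable Fourier densities -/

/-- `f` is the inverse Fourier integral of a density with `s` moments. -/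
def Wn (s : ℕ) (f : E d → ℂ) : Prop :=
  ∃ φ : E d → ℂ, Integrable φ ∧ Integrable (fun ξ => (1 + ‖ξ‖) ^ s * ‖φ ξ‖) ∧
    ∀ x, f x = 𝓕⁻ φ x

theorem Wn.of_rep {s : ℕ} {f : E d → ℂ} {C : ℝ} (h : WienerRep s f C) : Wn s f := by
  obtain ⟨φ, h1, h2, h3, _⟩ := h
  refine ⟨φ, h1, ?_, h3⟩
  refine (h2.const_mul (2 ^ s)).mono ((by fun_prop : Continuous fun ξ : E d =>
    (1 + ‖ξ‖) ^ s).aestronglyMeasurable.mul h1.1.norm) (Eventually.of_forall fun ξ => ?_)
  rw [Real.norm_of_nonneg (by positivity), Real.norm_of_nonneg (by positivity), ← mul_assoc]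
  gcongr
  exact one_add_pow_le s (norm_nonneg ξ)

theorem Wn.mono {s s' : ℕ} (hs : s' ≤ s) {f : E d → ℂ} (h : Wn s f) : Wn s' f := by
  obtain ⟨φ, h1, h2, h3⟩ := h
  refine ⟨φ, h1, ?_, h3⟩
  refine h2.mono ((by fun_prop : Continuous fun ξ : E d =>
    (1 + ‖ξ‖) ^ s').aestronglyMeasurable.mul h1.1.norm) (Eventually.of_forall fun ξ => ?_)
  rw [Real.norm_of_nonneg (by positivity), Real.norm_of_nonneg (by positivity)]
  gcongr
  linarith [norm_nonneg ξ]

theorem Wn.continuous {s : ℕ} {f : E d → ℂ} (h : Wn s f) : Continuous f := by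
  obtain ⟨φ, h1, _, h3⟩ := h
  have h4 : f = 𝓕⁻ φ := funext h3
  rw [h4, Real.fourierInv_eq_fourier_comp_neg]
  exact VectorFourier.fourierIntegral_continuous Real.continuous_fourierChar
    (by exact continuous_inner) h1.comp_neg

theorem Wn.loc {χ f : E d → ℂ} (hχ : ContDiff ℝ ∞ χ) (hs : ∀ x, 3 ≤ ‖x‖ → χ x = 0) {ℓ : ℝ}
    (hℓ : 0 < ℓ) (hℓ1 : ℓ ≤ 1) (hf : Wn k f) : Loc k (fun x => χ x * f (ℓ⁻¹ • x)) := by
  obtain ⟨φ, h1, h2, h3⟩ := hf
  simp_rw [h3]
  exact Loc.ext hχ hs hℓ hℓ1 h1 h2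

theorem Wn.bound {χ f : E d → ℂ} (hχ : ContDiff ℝ ∞ χ) (hs : ∀ x, 3 ≤ ‖x‖ → χ x = 0)
    (hf : Wn k f) : ∃ C : ℝ, 0 ≤ C ∧ ∀ ℓ : ℝ, 0 < ℓ → ℓ ≤ 1 →
      Nn ℓ k (per k (fun x => χ x * f (ℓ⁻¹ • x))) ≤ C := by
  obtain ⟨φ, h1, h2, h3⟩ := hf
  obtain ⟨C, hC, H⟩ := Nn_ext_le (k := k) hχ hs le_rfl
  refine ⟨C * ∫ ξ : E d, (1 + ‖ξ‖) ^ k * ‖φ ξ‖, ?_, fun ℓ hℓ hℓ1 => ?_⟩
  · have : 0 ≤ ∫ ξ : E d, (1 + ‖ξ‖) ^ k * ‖φ ξ‖ := integral_nonneg fun ξ => by positivity
    positivity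
  · simp_rw [h3]
    exact H ℓ hℓ hℓ1 φ h1 h2

/-- continuity of the coefficients in the scale -/
theorem continuousOn_perCoef_scale {χ f : E d → ℂ} (hχ : Continuous χ)
    (hs : ∀ x, 1 ≤ ‖x‖ → χ x = 0) (hf : Continuous f) {Y : Type*} [TopologicalSpace Y]
    [FirstCountableTopology Y] {S : Set Y}
    {r : Y → ℝ} (hr : ContinuousOn r S) {M : ℝ} (hM : ∀ y ∈ S, |r y| ≤ M) (n : Lat d) :
    ContinuousOn (fun y => perCoef (fun x => χ x * f (r y • x)) n) S := by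
  have hχc : HasCompactSupport χ := by
    refine HasCompactSupport.intro (K := Metric.closedBall (0 : E d) 1)
      (isCompact_closedBall _ _) fun x hx => hs x ?_
    rw [mem_closedBall_zero_iff, not_le] at hx
    exact hx.le
  obtain ⟨B, hB⟩ := (isCompact_closedBall (0 : E d) M).exists_bound_of_continuousOn
    (f := f) hf.continuousOn
  simp only [perCoef_def]
  refine ContinuousOn.mul continuousOn_const ?_
  refine continuousOn_of_dominated (bound := fun x => ‖χ x‖ * B) ?_ ?_ ?_ ?_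
  · intro y _
    exact ((hχ.mul (hf.comp (continuous_const_smul (r y)))).mul
      (continuous_ch n)).aestronglyMeasurable
  · intro y hy
    refine Eventually.of_forall fun x => ?_
    rw [norm_mul, norm_ch, mul_one, norm_mul]
    by_cases hx : 1 ≤ ‖x‖
    · rw [hs x hx]; simp
    · push Not at hx
      gcongr
      apply hB
      rw [mem_closedBall_zero_iff, norm_smul, Real.norm_eq_abs]
      have h1 := hM y hy
      have h0 := abs_nonneg (r y)
      have h2 := norm_nonneg x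
      nlinarith
  · exact (hχ.norm.mul continuous_const).integrable_of_hasCompactSupport
      (hχc.norm.mul_right)
  · refine Eventually.of_forall fun x => ?_
    refine ContinuousOn.mul (continuousOn_const.mul ?_) continuousOn_const
    exact hf.comp_continuousOn (hr.smul continuousOn_const)

/-- continuity of the cut-off dilated functions in the Wiener algebra -/
theorem continuousOn_per_scale {χ f : E d → ℂ} (hχ : ContDiff ℝ ∞ χ)
    (hs : ∀ x, 1 ≤ ‖x‖ → χ x = 0) (hf : Wn (k + 1) f) {Y : Type*} [TopologicalSpace Y]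
    [FirstCountableTopology Y] {S : Set Y}
    {ℓ : Y → ℝ} (hℓc : ContinuousOn ℓ S) {ℓm : ℝ} (hℓm : 0 < ℓm) (hℓ : ∀ y ∈ S, ℓm ≤ ℓ y)
    (hℓ1 : ∀ y ∈ S, ℓ y ≤ 1) :
    ContinuousOn (fun y => per k (fun x => χ x * f ((ℓ y)⁻¹ • x))) S := by
  have hs3 : ∀ x, 3 ≤ ‖x‖ → χ x = 0 := fun x hx => hs x (by linarith)
  obtain ⟨C, hC, H⟩ := Wn.bound (k := k + 1) hχ hs3 hf
  refine continuousOn_of_coef (V' := fun y => per (k + 1) (fun x => χ x * f ((ℓ y)⁻¹ • x)))
    (C := (ℓm⁻¹) ^ (k + 1) * C) ?_ ?_ ?_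
  · intro y hy n
    have h0 : 0 < ℓ y := hℓm.trans_le (hℓ y hy)
    rw [(Wn.loc hχ hs3 h0 (hℓ1 y hy) hf).coef,
      (Wn.loc hχ hs3 h0 (hℓ1 y hy) (hf.mono (Nat.le_succ k))).coef]
  · intro y hy
    have h0 : 0 < ℓ y := hℓm.trans_le (hℓ y hy)
    refine (norm_le_Nn h0 (hℓ1 y hy) _).trans ?_
    have h1 := H (ℓ y) h0 (hℓ1 y hy)
    have h2 : (ℓ y)⁻¹ ≤ ℓm⁻¹ := inv_anti₀ hℓm (hℓ y hy)
    have h3 := Nn_nonneg h0.le (k + 1) (per (k + 1) fun x => χ x * f ((ℓ y)⁻¹ • x))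
    have h4 : 0 ≤ (ℓ y)⁻¹ := by positivity
    gcongr
  · intro n
    have h1 : ContinuousOn (fun y => (ℓ y)⁻¹) S :=
      hℓc.inv₀ fun y hy => (hℓm.trans_le (hℓ y hy)).ne'
    refine (continuousOn_perCoef_scale hχ.continuous hs hf.continuous h1
      (M := ℓm⁻¹) ?_ n).congr ?_
    · intro y hy
      have h0 : 0 < ℓ y := hℓm.trans_le (hℓ y hy)
      rw [abs_of_pos (inv_pos.2 h0)]
      exact inv_anti₀ hℓm (hℓ y hy)
    · intro y hy
      have h0 : 0 < ℓ y := hℓm.trans_le (hℓ y hy)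
      exact (Wn.loc hχ hs3 h0 (hℓ1 y hy) (hf.mono (Nat.le_succ k))).coef n

end Vale.Agent.P139.N
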