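import Vale.Agent.P139.H579.CutFlow

/-! # P139 / block N : the cut-off of an eigenfunction solves the torus equation approximately -/

open Set Filter Topology MeasureTheory FourierTransform
open scoped ComplexConjugate ContDiff

namespace Vale.Agent.P139.N

open Vale.Agent.P139.A Vale.Agent.P139.A.WA Vale.Agent.P139.H203 Vale.Agent.P139.BU
open Vale.Agent.P139.H201

variable {d k : ℕ}

theorem hasDerivAt_sc (ℓ t : ℝ) : HasDerivAt (fun s => sc ℓ s) (-(1 / 2) * sc ℓ t) t := by
  have h1 : HasDerivAt (fun s : ℝ => -s / 2) (-1 / 2) t := by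
    have := (hasDerivAt_id t).neg.div_const 2
    simpa using this
  have h2 := (h1.exp).const_mul ℓ
  refine h2.congr_deriv ?_
  rw [sc]
  ring

theorem continuous_sc (ℓ : ℝ) : Continuous fun s => sc ℓ s := by
  unfold sc; fun_prop

theorem hasDerivAt_sc_inv {ℓ : ℝ} (hℓ : 0 < ℓ) (t : ℝ) :
    HasDerivAt (fun s => (sc ℓ s)⁻¹) (1 / 2 * (sc ℓ t)⁻¹) t := by
  have h0 := (sc_pos hℓ t).ne'
  refine ((hasDerivAt_sc ℓ t).inv h0).congr_deriv ?_
  field_simp

/-- derivative in the rescaled time of the coefficients of a cut-off rescaled function -/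
theorem hasDerivAt_perCoef_sc {χ g : E d → ℂ} (hχ : Continuous χ) (hs : ∀ x, 1 ≤ ‖x‖ → χ x = 0)
    (hg : ContDiff ℝ 1 g) {ℓ : ℝ} (hℓ : 0 < ℓ) (t : ℝ) (n : Lat d) :
    HasDerivAt (fun s => perCoef (fun x => χ x * g ((sc ℓ s)⁻¹ • x)) n)
      (perCoef (fun x => χ x * ((1 / 2 : ℂ) * eul g ((sc ℓ t)⁻¹ • x))) n) t := by
  have hχc : HasCompactSupport χ := by
    refine HasCompactSupport.intro (K := Metric.closedBall (0 : E d) 1)
      (isCompact_closedBall _ _) fun x hx => hs x ?_
    rw [mem_closedBall_zero_iff, not_le] at hx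
    exact hx.le
  have hec : Continuous (eul g) := (hg.continuous_fderiv one_ne_zero).clm_apply continuous_id
  set R := (sc ℓ (t + 1))⁻¹ with hR
  obtain ⟨B, hB⟩ := (isCompact_closedBall (0 : E d) R).exists_bound_of_continuousOn
    (f := eul g) hec.continuousOn
  have hB0 : 0 ≤ B := by
    have := hB 0 (by
      rw [mem_closedBall_zero_iff, norm_zero]
      exact (inv_pos.2 (sc_pos hℓ _)).le)
    exact (norm_nonneg _).trans this
  simp only [perCoef_def]
  refine HasDerivAt.const_mul _ ?_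
  have key := hasDerivAt_integral_of_dominated_loc_of_deriv_le (μ := (volume : Measure (E d)))
    (F := fun s x => χ x * g ((sc ℓ s)⁻¹ • x) * ch n x)
    (F' := fun s x => χ x * ((1 / 2 : ℂ) * eul g ((sc ℓ s)⁻¹ • x)) * ch n x)
    (x₀ := t) (s := Metric.ball t 1) (bound := fun x => ‖χ x‖ * ((1 / 2) * B))
    (Metric.ball_mem_nhds t one_pos) ?_ ?_ ?_ ?_ ?_ ?_
  · exact key.2
  · refine Eventually.of_forall fun s => ?_
    exact ((hχ.mul (hg.continuous.comp (continuous_const_smul _))).mul
      (continuous_ch n)).aestronglyMeasurable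
  · refine ((hχ.mul (hg.continuous.comp (continuous_const_smul _))).mul
      (continuous_ch n)).integrable_of_hasCompactSupport ?_
    exact (hχc.mul_right).mul_right
  · exact ((hχ.mul (continuous_const.mul (hec.comp (continuous_const_smul _)))).mul
      (continuous_ch n)).aestronglyMeasurable
  · refine Eventually.of_forall fun x s hsb => ?_
    rw [norm_mul, norm_ch, mul_one, norm_mul]
    by_cases hx : 1 ≤ ‖x‖
    · rw [hs x hx]; simp
    · push Not at hx
      have h1 : ‖eul g ((sc ℓ s)⁻¹ • x)‖ ≤ B := by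
        apply hB
        rw [mem_closedBall_zero_iff, norm_smul, Real.norm_eq_abs,
          abs_of_pos (inv_pos.2 (sc_pos hℓ s))]
        have h2 : (sc ℓ s)⁻¹ ≤ R := by
          rw [hR]
          apply inv_anti₀ (sc_pos hℓ _)
          apply sc_le hℓ.le
          rw [Metric.mem_ball, Real.dist_eq] at hsb
          linarith [(abs_lt.1 hsb).2]
        have h3 : 0 < (sc ℓ s)⁻¹ := inv_pos.2 (sc_pos hℓ s)
        have := norm_nonneg x
        nlinarith
      rw [norm_mul]
      have h4 : ‖(1 / 2 : ℂ)‖ = 1 / 2 := by norm_num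
      rw [h4]
      gcongr
  · exact (hχ.norm.mul continuous_const).integrable_of_hasCompactSupport
      (hχc.norm.mul_right)
  · refine Eventually.of_forall fun x s _ => ?_
    refine HasDerivAt.mul_const (HasDerivAt.const_mul _ ?_) _
    have h1 : HasDerivAt (fun s => (sc ℓ s)⁻¹ • x) ((1 / 2 * (sc ℓ s)⁻¹) • x) s :=
      (hasDerivAt_sc_inv hℓ s).smul_const x
    have h2 : HasFDerivAt g (fderiv ℝ g ((sc ℓ s)⁻¹ • x)) ((sc ℓ s)⁻¹ • x) :=
      ((hg.differentiable one_ne_zero) _).hasFDerivAt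
    have h3 := h2.comp_hasDerivAt s h1
    refine h3.congr_deriv ?_
    rw [mul_smul, map_smul, eul, Complex.real_smul]
    push_cast
    ring

/-- The remainder of the cut-off: source plus commutator terms. -/
noncomputable def rem (χ g h : E d → ℂ) (ℓ : ℝ) (x : E d) : ℂ :=
  χ x * h (ℓ⁻¹ • x)
    - (2 * Complex.I * (ℓ : ℂ)) * ∑ j, pd j χ x * pd j g (ℓ⁻¹ • x)
    - (Complex.I * (ℓ : ℂ) ^ 2) * (lap χ x * g (ℓ⁻¹ • x))

theorem supp_pd {χ : E d → ℂ} {ρ : ℝ} (hs : ∀ x, ρ ≤ ‖x‖ → χ x = 0) (hχ : ContDiff ℝ 1 χ)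
    (j : Fin d) : ∀ x, ρ ≤ ‖x‖ → pd j χ x = 0 := by
  have h1 : ∀ x, ρ < ‖x‖ → pd j χ x = 0 := by
    intro x hx
    have h2 : χ =ᶠ[𝓝 x] fun _ => 0 := by
      have h3 : ∀ᶠ y in 𝓝 x, ρ < ‖y‖ := continuous_norm.continuousAt.eventually_const_lt hx
      filter_upwards [h3] with y hy
      exact hs y hy.le
    rw [pd, h2.fderiv_eq]
    simp
  intro x hx
  rcases hx.lt_or_eq with h | h
  · exact h1 x h
  · by_cases hd : x = 0
    · -- then `ρ = 0`, so the function vanishes identically
      have h4 : χ = fun _ => 0 := by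
        ext y
        apply hs
        rw [h, hd, norm_zero]
        exact norm_nonneg y
      rw [h4, pd]
      simp
    · -- limit along the ray
      have hc : Continuous (fun s : ℝ => pd j χ ((1 + s) • x)) :=
        (continuous_pd hχ j).comp (by fun_prop)
      have h5 : Tendsto (fun s : ℝ => pd j χ ((1 + s) • x)) (𝓝[>] 0) (𝓝 (pd j χ x)) := by
        have := hc.tendsto 0
        simp only [add_zero, one_smul] at this
        exact this.mono_left nhdsWithin_le_nhds
      have h6 : (fun s : ℝ => pd j χ ((1 + s) • x)) =ᶠ[𝓝[>] 0] fun _ => 0 := by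
        filter_upwards [self_mem_nhdsWithin] with s hs'
        apply h1
        rw [norm_smul, Real.norm_of_nonneg (by linarith [mem_Ioi.1 hs'] : (0:ℝ) ≤ 1 + s), h]
        have h7 : 0 < ‖x‖ := norm_pos_iff.2 hd
        have h8 : 0 < s := hs'
        nlinarith
      exact tendsto_nhds_unique (h5.congr' h6) tendsto_const_nhds |>.trans rfl

end Vale.Agent.P139.N
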