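import Vale.Agent.P139.H579.Frame
import Vale.Agent.P139.BU.Persist

/-! # P139 / block N, step (N4) : the iteration `RStep → NoLongBall` -/

open Set Filter Topology MeasureTheory
open scoped ComplexConjugate

namespace Vale.Agent.P139.N

open Vale.Agent.P139.A Vale.Agent.P139.A.WA Vale.Agent.P139.H203 Vale.Agent.P139.BU

variable {d : ℕ}

/-- The state of the iteration at time `t` with scale `μ`. -/
def State (d m : ℕ) (Q : E d → ℂ) (K : ℕ) (η ℓ0 : ℝ) (u : ℝ → WA d K) (j : ℕ) (t μ : ℝ) : Prop :=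
  0 < μ ∧ μ ≤ ℓ0 / 2 ^ j ∧ 0 ≤ t ∧ t ≤ 4 / 3 * (ℓ0 ^ 2 - μ ^ 2) ∧
    ∃ (x : Fin d → ℝ) (θ : ℝ), Nn μ K (toFrame m μ x θ (u t) - Up K Q μ) ≤ η

theorem state_step {m : ℕ} (hm : 1 ≤ m) {w : ℝ} {Q : E d → ℂ} {K : ℕ} {A η ℓ₁ : ℝ}
    (hA : 0 < A) (h : RInv d m w Q K A η ℓ₁) {ℓ0 : ℝ} (hl0 : ℓ0 ≤ ℓ₁) {u : ℝ → WA d K}
    (hu : Curve m (4 / 3 * ℓ0 ^ 2) u) {j : ℕ} {t μ : ℝ}
    (hs : State d m Q K η ℓ0 u j t μ) : ∃ t' μ', State d m Q K η ℓ0 u (j + 1) t' μ' := by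
  obtain ⟨hμ, hμj, ht, htμ, x, θ, hN⟩ := hs
  have h2j : (1 : ℝ) ≤ 2 ^ j := one_le_pow₀ (by norm_num)
  have hl00 : 0 < ℓ0 := by
    have : 0 < ℓ0 / 2 ^ j := hμ.trans_le hμj
    by_contra hcon
    push Not at hcon
    have : ℓ0 / 2 ^ j ≤ 0 := div_nonpos_of_nonpos_of_nonneg hcon (by positivity)
    linarith
  have hμl : μ ≤ ℓ0 := hμj.trans (div_le_self hl00.le h2j)
  have hT : t + μ ^ 2 ≤ 4 / 3 * ℓ0 ^ 2 := by nlinarith
  have hR := rcurve_rescale hm w ht hμ hT x θ hu A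
  have h0 : Nn μ K (rescale m w t μ x θ u 0 - Up K Q μ) ≤ η := by
    rw [rescale_zero]
    exact hN
  obtain ⟨μ', x1, θ1, hμ', hμ'2, hN'⟩ := h μ _ hμ (hμl.trans hl0) hR h0
  have hexp := Real.exp_pos (-A)
  have hexp1 : Real.exp (-A) ≤ 1 := Real.exp_le_one_iff.2 (by linarith)
  have hμsq : 0 < μ ^ 2 := by positivity
  have hμ'sq : μ' ^ 2 ≤ μ ^ 2 / 4 := by nlinarith
  refine ⟨t + μ ^ 2 * (1 - Real.exp (-A)), μ', hμ', ?_, ?_, ?_, x1 + x, θ1 + (θ - w * A), ?_⟩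
  · calc μ' ≤ μ / 2 := hμ'2
      _ ≤ (ℓ0 / 2 ^ j) / 2 := by linarith
      _ = ℓ0 / 2 ^ (j + 1) := by rw [pow_succ]; field_simp
  · have : 0 ≤ μ ^ 2 * (1 - Real.exp (-A)) := mul_nonneg hμsq.le (by linarith)
    linarith
  · have : μ ^ 2 * (1 - Real.exp (-A)) ≤ μ ^ 2 * 1 := mul_le_mul_of_nonneg_left (by linarith) hμsq.le
    nlinarith
  · have h1 := toFrame_toFrame m (mul_pos hμ (Real.exp_pos (-A / 2))) hμ' x x1 (θ - w * A) θ1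
      (u (t + μ ^ 2 * (1 - Real.exp (-A))))
    have h2 : rescale m w t μ x θ u A =
        toFrame m (μ * Real.exp (-A / 2)) x (θ - w * A) (u (t + μ ^ 2 * (1 - Real.exp (-A)))) := rfl
    rw [h2, h1] at hN'
    exact hN'

/-- (N4) From the one-step statement to the absence of long solutions in a ball. -/
theorem noLongBall_of_rinv {m : ℕ} (hm : 1 ≤ m) {w : ℝ} {Q : E d → ℂ} {K : ℕ} {A η ℓ₁ : ℝ}
    (hA : 0 < A) (hη0 : 0 < η) (hl : 0 < ℓ₁) (h : RInv d m w Q K A η ℓ₁)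
    {c : ℝ} (hc : 2 * η < c) (hlow : ∀ μ, 0 < μ → μ ≤ 1 → c ≤ Nn μ K (Up K Q μ)) :
    ∃ T₀, NoLongBall d m K T₀ := by
  set ℓ0 : ℝ := min ℓ₁ 1 with hℓ0
  have hl0 : 0 < ℓ0 := lt_min hl one_pos
  have hl1 : ℓ0 ≤ 1 := min_le_right _ _
  have hll : ℓ0 ≤ ℓ₁ := min_le_left _ _
  have ha := aa_pos hm
  refine ⟨4 / 3 * ℓ0 ^ 2, shift (((ℓ0 ^ (2 * aa m))⁻¹ : ℝ) : ℂ) 0 (Up K Q ℓ0), η, hη0,
    fun u hu0 hu => ?_⟩
  -- the initial state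
  have hS0 : State d m Q K η ℓ0 u 0 0 ℓ0 := by
    refine ⟨hl0, by simp, le_rfl, by simp, 0, 0, ?_⟩
    have h1 : toFrame m ℓ0 0 0 (shift (((ℓ0 ^ (2 * aa m))⁻¹ : ℝ) : ℂ) 0 (Up K Q ℓ0)) = Up K Q ℓ0 := by
      unfold toFrame
      rw [shift_shift]
      ext n
      rw [coef_shift]
      have h2 : (ℓ0 ^ (2 * aa m) : ℝ) ≠ 0 := (Real.rpow_pos_of_pos hl0 _).ne'
      have h3 : ((ℓ0 ^ (2 * aa m) : ℝ) : ℂ) ≠ 0 := by exact_mod_cast h2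
      have h4 : expi n (0 + 0 : Fin d → ℝ) = 1 := by simp [expi]
      rw [h4]
      push_cast
      field_simp
      simp
    rw [← h1, ← toFrame_sub, Nn_toFrame m hl0]
    have h5 : ℓ0 ^ (2 * aa m) ≤ 1 := Real.rpow_le_one hl0.le hl1 (by positivity)
    have h6 := Nn_le_norm hl0.le hl1 (le_refl K)
      (u 0 - shift (((ℓ0 ^ (2 * aa m))⁻¹ : ℝ) : ℂ) 0 (Up K Q ℓ0))
    calc ℓ0 ^ (2 * aa m) * Nn ℓ0 K (u 0 - shift (((ℓ0 ^ (2 * aa m))⁻¹ : ℝ) : ℂ) 0 (Up K Q ℓ0))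
        ≤ 1 * ‖u 0 - shift (((ℓ0 ^ (2 * aa m))⁻¹ : ℝ) : ℂ) 0 (Up K Q ℓ0)‖ :=
          mul_le_mul h5 h6 (Nn_nonneg hl0.le _ _) zero_le_one
      _ ≤ η := by rw [one_mul]; exact hu0.le
  have hS : ∀ j, ∃ t μ, State d m Q K η ℓ0 u j t μ := by
    intro j
    induction j with
    | zero => exact ⟨0, ℓ0, hS0⟩
    | succ j ih =>
      obtain ⟨t, μ, hs⟩ := ih
      exact state_step hm hA h hll hu hs
  -- the solution is bounded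
  obtain ⟨R, hR⟩ := isCompact_Icc.exists_bound_of_continuousOn hu.cont
  have hR0 : 0 ≤ R := (norm_nonneg _).trans (hR 0 ⟨le_rfl, by positivity⟩)
  have hlim : Tendsto (fun j : ℕ => (ℓ0 / 2 ^ j) ^ (2 * aa m) * R) atTop (𝓝 0) := by
    have h1 : Tendsto (fun j : ℕ => ℓ0 / (2 : ℝ) ^ j) atTop (𝓝 0) := by
      have := (tendsto_pow_atTop_nhds_zero_of_lt_one (r := (1 / 2 : ℝ)) (by norm_num)
        (by norm_num)).const_mul ℓ0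
      rw [mul_zero] at this
      refine this.congr fun j => ?_
      rw [one_div, inv_pow]
      rfl
    have h2 := h1.rpow_const (p := 2 * aa m) (Or.inr (by positivity))
    rw [Real.zero_rpow (by positivity)] at h2
    simpa using h2.mul_const R
  obtain ⟨j, hj⟩ := ((hlim.eventually (gt_mem_nhds (show (0 : ℝ) < c - η by linarith)))).exists
  obtain ⟨t, μ, hμ, hμj, ht, htμ, x, θ, hN⟩ := hS j
  have hμ1 : μ ≤ 1 := hμj.trans ((div_le_self hl0.le (one_le_pow₀ (by norm_num))).trans hl1)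
  have hμsq : 0 < μ ^ 2 := by positivity
  have htT : t ∈ Icc (0 : ℝ) (4 / 3 * ℓ0 ^ 2) := ⟨ht, by linarith⟩
  have h1 := hlow μ hμ hμ1
  have h2 : Nn μ K (Up K Q μ) ≤ Nn μ K (toFrame m μ x θ (u t)) +
      Nn μ K (toFrame m μ x θ (u t) - Up K Q μ) := by
    have h3 := Nn_sub_le hμ.le hμ1 (le_refl K) (toFrame m μ x θ (u t))
      (toFrame m μ x θ (u t) - Up K Q μ)
    rwa [sub_sub_cancel] at h3
  rw [Nn_toFrame m hμ] at h2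
  have h4 : μ ^ (2 * aa m) * Nn μ K (u t) ≤ (ℓ0 / 2 ^ j) ^ (2 * aa m) * R := by
    refine mul_le_mul (Real.rpow_le_rpow hμ.le hμj (by positivity))
      ((Nn_le_norm hμ.le hμ1 le_rfl _).trans (hR t htT)) (Nn_nonneg hμ.le _ _)
      (Real.rpow_nonneg (by positivity) _)
  linarith

theorem noLongBall_of_stepStable {m : ℕ} (hm : 1 ≤ m) {w : ℝ} {Q : E d → ℂ}
    (h : StepStable d m w Q)
    (hlow : ∀ (K : ℕ) μ, 0 < μ → μ ≤ 1 → ‖Q 0‖ ≤ Nn μ K (Up K Q μ)) :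
    ∃ K T₀, NoLongBall d m K T₀ := by
  obtain ⟨K, A, η, ℓ₁, hA, hη, hη2, hl, hR⟩ := h
  obtain ⟨T₀, hT⟩ := noLongBall_of_rinv hm hA hη hl hR hη2 (hlow K)
  exact ⟨K, T₀, hT⟩

end Vale.Agent.P139.N
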