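import Vale.Agent.P139.H579.N0b

/-! # P139 / block N : matching of the cut-offs of the modes -/

open Set Filter Topology MeasureTheory FourierTransform
open scoped ComplexConjugate ContDiff

namespace Vale.Agent.P139.N

open Vale.Agent.P139.A Vale.Agent.P139.A.WA Vale.Agent.P139.H203 Vale.Agent.P139.BU
open Vale.Agent.P139.H201 Vale.Agent.P139.H730 Vale.Agent.P139.H605

variable {d k j : ℕ}

theorem dn_cu {χ f : E d → ℂ} (hχ : IsCut χ) (hf : Wn k f) (h : j ≤ k) {ℓ : ℝ} (hℓ : 0 < ℓ)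
    (hℓ1 : ℓ ≤ 1) : dn h (cu k χ f ℓ) = cu j χ f ℓ := by
  ext n
  rw [coef_dn, coef_cu hχ hℓ hℓ1 hf, coef_cu hχ hℓ hℓ1 (hf.mono h)]

theorem cut_diff_zero {x : BU.E d} (hx : ‖x‖ ≤ 1 / 8) : cA x - c2 x = 0 := by
  rw [cA_eq_one (by linarith), c2_eq_one hx, sub_self]

/-- The two cut-offs of a mode differ by a small amount. -/
theorem mode_match_torus {m : ℕ} (hm : 1 ≤ m) {w : ℝ} {Q : E d → ℂ} (hQ : IsProfile d m w Q)
    (j : ℕ) : ∀ A : ℝ, 0 < A → ∀ ε : ℝ, 0 < ε → ∃ ℓ₀ : ℝ, 0 < ℓ₀ ∧ ℓ₀ ≤ 1 ∧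
      ∀ ℓ : ℝ, 0 < ℓ → ℓ ≤ ℓ₀ → ∀ (α : ℝ) (β : Fin d → ℝ) (γ : ℝ), ∀ t ∈ Icc (0 : ℝ) A,
        Nn (sc ℓ t) j (dn (Nat.le_succ j) (Up (j + 1) (modeFlow m w Q α β γ t) (sc ℓ t))
          - cu j c2 (modeFlow m w Q α β γ t) (sc ℓ t)) ≤ ε * msz α β γ := by
  intro A hA ε hε
  have hcut : IsCut (fun x : BU.E d => cA x - c2 x) := isCut_cA.sub isCut_c2
  set ε1 := ε / Real.exp A with hε1
  have hε10 : 0 < ε1 := by positivity
  have hz : ∀ x : BU.E d, ‖x‖ ≤ 1 / 8 → cA x - c2 x = 0 := fun x hx => cut_diff_zero hx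
  obtain ⟨ℓ1, h10, h11, h1⟩ := fLem d j _ (phaseMode Q) (1 / 8) (by norm_num) hcut hz
    (wn_phase hm hQ j) ε1 hε10
  choose ℓ2 h20 h21 h2 using fun i => fLem d j _ (pd i Q) (1 / 8) (by norm_num) hcut hz
    (wn_pd hm hQ j i) ε1 hε10
  obtain ⟨ℓ3, h30, h31, h3⟩ := fLem d j _ (timeMode m w Q) (1 / 8) (by norm_num) hcut hz
    (wn_time hm hQ j) ε1 hε10
  obtain ⟨ℓm, hm0, hmle⟩ : ∃ ℓm : ℝ, 0 < ℓm ∧ ∀ i, ℓm ≤ ℓ2 i := by
    rcases isEmpty_or_nonempty (Fin d) with he | hne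
    · exact ⟨1, one_pos, fun i => (he.false i).elim⟩
    · obtain ⟨i, hi⟩ := Finite.exists_min ℓ2
      exact ⟨ℓ2 i, h20 i, hi⟩
  refine ⟨min (min ℓ1 ℓ3) ℓm, by positivity, (min_le_left _ _).trans ((min_le_left _ _).trans h11),
    ?_⟩
  intro ℓ hℓ hℓle α β γ t ht
  have l1 : ℓ ≤ ℓ1 := hℓle.trans ((min_le_left _ _).trans (min_le_left _ _))
  have l3 : ℓ ≤ ℓ3 := hℓle.trans ((min_le_left _ _).trans (min_le_right _ _))
  have l2 : ∀ i, ℓ ≤ ℓ2 i := fun i => (hℓle.trans (min_le_right _ _)).trans (hmle i)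
  have hℓ1 : ℓ ≤ 1 := l1.trans h11
  have hs0 := sc_pos hℓ t
  have hsℓ : sc ℓ t ≤ ℓ := sc_le_self hℓ.le ht.1
  have hs1 : sc ℓ t ≤ 1 := hsℓ.trans hℓ1
  have hw1 := wn_modeOf hm hQ (j + 1) α (fun i => Real.exp (t / 2) * β i) (Real.exp t * γ)
  have hw := wn_modeOf hm hQ j α (fun i => Real.exp (t / 2) * β i) (Real.exp t * γ)
  rw [Up_eq_cu, modeFlow, dn_cu isCut_cA hw1 _ hs0 hs1, Nn_cu_sub_le isCut_cA isCut_c2 hs0 hs1 hw,
    cu_modeOf hm hQ hcut hs0 hs1]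
  refine (Nn_add_le hs0.le hs1 le_rfl _ _).trans ?_
  have e1 := Nn_add_le hs0.le hs1 le_rfl ((α : ℂ) • cu j (fun x => cA x - c2 x) (phaseMode Q)
    (sc ℓ t)) (∑ i, ((Real.exp (t / 2) * β i : ℝ) : ℂ) •
      cu j (fun x => cA x - c2 x) (pd i Q) (sc ℓ t))
  have e2 := Nn_sum_le Finset.univ hs0.le hs1 le_rfl fun i =>
    ((Real.exp (t / 2) * β i : ℝ) : ℂ) • cu j (fun x => cA x - c2 x) (pd i Q) (sc ℓ t)
  simp only [Nn_smul, Complex.norm_real, Real.norm_eq_abs] at e1 e2 ⊢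
  have hE : 1 ≤ Real.exp A := Real.one_le_exp hA.le
  have hEt : Real.exp t ≤ Real.exp A := Real.exp_le_exp.2 ht.2
  have hEt2 : Real.exp (t / 2) ≤ Real.exp A := Real.exp_le_exp.2 (by linarith [ht.1, ht.2])
  have hεe : ε1 * Real.exp A = ε := by
    rw [hε1]
    field_simp
  have a1 : |α| * Nn (sc ℓ t) j (cu j (fun x => cA x - c2 x) (phaseMode Q) (sc ℓ t))
      ≤ |α| * ε := by
    have := h1 (sc ℓ t) hs0 (hsℓ.trans l1)
    have h5 : ε1 ≤ ε := by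
      rw [← hεe]
      exact le_mul_of_one_le_right hε10.le hE
    gcongr
    linarith
  have a2 : ∑ i, |Real.exp (t / 2) * β i| * Nn (sc ℓ t) j (cu j (fun x => cA x - c2 x) (pd i Q)
      (sc ℓ t)) ≤ ∑ i, |β i| * ε := by
    refine Finset.sum_le_sum fun i _ => ?_
    have h6 := h2 i (sc ℓ t) hs0 (hsℓ.trans (l2 i))
    have h7 := Nn_nonneg hs0.le j (cu j (fun x => cA x - c2 x) (pd i Q) (sc ℓ t))
    rw [abs_mul, abs_of_pos (Real.exp_pos _), ← hεe]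
    calc Real.exp (t / 2) * |β i| * Nn (sc ℓ t) j (cu j (fun x => cA x - c2 x) (pd i Q) (sc ℓ t))
        ≤ Real.exp A * |β i| * ε1 := by gcongr
      _ = _ := by ring
  have a3 : |Real.exp t * γ| * Nn (sc ℓ t) j (cu j (fun x => cA x - c2 x) (timeMode m w Q)
      (sc ℓ t)) ≤ |γ| * ε := by
    have h6 := h3 (sc ℓ t) hs0 (hsℓ.trans l3)
    have h7 := Nn_nonneg hs0.le j (cu j (fun x => cA x - c2 x) (timeMode m w Q) (sc ℓ t))
    rw [abs_mul, abs_of_pos (Real.exp_pos _), ← hεe]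
    calc Real.exp t * |γ| * Nn (sc ℓ t) j (cu j (fun x => cA x - c2 x) (timeMode m w Q) (sc ℓ t))
        ≤ Real.exp A * |γ| * ε1 := by gcongr
      _ = _ := by ring
  have a4 : ε * msz α β γ = |α| * ε + ∑ i, |β i| * ε + |γ| * ε := by
    rw [msz, ← Finset.sum_mul]
    ring
  rw [a4]
  linarith

end Vale.Agent.P139.N
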