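import Vale.Agent.P139.H579.Sym
import Vale.Agent.P139.H605.Step1Def

/-! # P139 / block N : mild residual of the cut-off profile and of the cut-off modes -/

open Set Filter Topology MeasureTheory FourierTransform
open scoped ComplexConjugate ContDiff

namespace Vale.Agent.P139.N

open Vale.Agent.P139.A Vale.Agent.P139.A.WA Vale.Agent.P139.H203 Vale.Agent.P139.BU
open Vale.Agent.P139.H201 Vale.Agent.P139.H730 Vale.Agent.P139.H605

variable {d k : ℕ}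

/-- the cut-off lemma far from the origin (statement) -/
def FLem (d k : ℕ) : Prop :=
  ∀ (ψ f : E d → ℂ) (r0 : ℝ), 0 < r0 → IsCut ψ → (∀ x, ‖x‖ ≤ r0 → ψ x = 0) → Wn k f →
    ∀ ε : ℝ, 0 < ε → ∃ ℓ0 : ℝ, 0 < ℓ0 ∧ ℓ0 ≤ 1 ∧ ∀ ℓ : ℝ, 0 < ℓ → ℓ ≤ ℓ0 → Nn ℓ k (cu k ψ f ℓ) ≤ ε

/-! ### Duhamel integrals -/

/-- the Duhamel integral -/
noncomputable def duh (a w ℓ : ℝ) (f : ℝ → WA d k) (t : ℝ) : WA d k :=
  ∫ s in (0 : ℝ)..t, Uf a w ℓ t s (f s)

theorem continuousOn_Uf_right (a w ℓ t : ℝ) {A : ℝ} {f : ℝ → WA d k}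
    (hf : ContinuousOn f (Icc 0 A)) : ContinuousOn (fun s => Uf a w ℓ t s (f s)) (Icc 0 A) :=
  continuousOn_Uf a w ℓ continuousOn_const continuousOn_id hf

theorem intervalIntegrable_Uf (a w ℓ t' : ℝ) {A t : ℝ} {f : ℝ → WA d k}
    (hf : ContinuousOn f (Icc 0 A)) (ht : t ∈ Icc 0 A) :
    IntervalIntegrable (fun s => Uf a w ℓ t' s (f s)) volume 0 t := by
  apply ContinuousOn.intervalIntegrable
  rw [uIcc_of_le ht.1]
  exact (continuousOn_Uf_right a w ℓ t' hf).mono (Icc_subset_Icc_right ht.2)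

theorem duh_eq (a w ℓ : ℝ) {A t : ℝ} {f : ℝ → WA d k}
    (hf : ContinuousOn f (Icc 0 A)) (ht : t ∈ Icc 0 A) :
    duh a w ℓ f t = Uf a w ℓ t 0 (∫ s in (0 : ℝ)..t, Uf a w ℓ 0 s (f s)) := by
  rw [duh, ← (Uf a w ℓ t 0).intervalIntegral_comp_comm (intervalIntegrable_Uf a w ℓ 0 hf ht)]
  congr 1
  ext s
  rw [Uf_comp]

theorem continuousOn_duh (a w ℓ : ℝ) {A : ℝ} (hA : 0 ≤ A) {f : ℝ → WA d k}
    (hf : ContinuousOn f (Icc 0 A)) : ContinuousOn (duh a w ℓ f) (Icc 0 A) := by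
  have h1 : ContinuousOn (fun t => ∫ s in (0 : ℝ)..t, Uf a w ℓ 0 s (f s)) (Icc 0 A) := by
    have h2 : IntegrableOn (fun s => Uf a w ℓ 0 s (f s)) (uIcc 0 A) volume := by
      rw [uIcc_of_le hA]
      exact (continuousOn_Uf_right a w ℓ 0 hf).integrableOn_Icc
    have h3 := intervalIntegral.continuousOn_primitive_interval h2
    rwa [uIcc_of_le hA] at h3
  have h4 : ContinuousOn (fun t => Uf a w ℓ t 0 (∫ s in (0 : ℝ)..t, Uf a w ℓ 0 s (f s)))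
      (Icc 0 A) := continuousOn_Uf a w ℓ continuousOn_id continuousOn_const h1
  exact h4.congr fun t ht => duh_eq a w ℓ hf ht

theorem duh_add (a w ℓ : ℝ) {A t : ℝ} {f g : ℝ → WA d k}
    (hf : ContinuousOn f (Icc 0 A)) (hg : ContinuousOn g (Icc 0 A)) (ht : t ∈ Icc 0 A) :
    duh a w ℓ (fun s => f s + g s) t = duh a w ℓ f t + duh a w ℓ g t := by
  rw [duh, duh, duh, ← intervalIntegral.integral_add (intervalIntegrable_Uf a w ℓ t hf ht)
    (intervalIntegrable_Uf a w ℓ t hg ht)]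
  congr 1
  ext s
  rw [map_add]

theorem duh_smul (a w ℓ : ℝ) (c : ℂ) (t : ℝ) (f : ℝ → WA d k) :
    duh a w ℓ (fun s => c • f s) t = c • duh a w ℓ f t := by
  rw [duh, duh, ← intervalIntegral.integral_smul]
  congr 1
  ext s
  rw [map_smul]

/-- Bound of the Duhamel integral in the scaled norm. -/
theorem Nn_duh_le {a w ℓ A : ℝ} (ha : 0 ≤ a) (hℓ : 0 ≤ ℓ) (hℓ1 : ℓ ≤ 1)
    {f : ℝ → WA d k} (hf : ContinuousOn f (Icc 0 A)) {γ : ℝ} (hγ : 0 ≤ γ)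
    (h : ∀ s ∈ Icc 0 A, Nn (sc ℓ s) k (f s) ≤ γ) :
    ∀ t ∈ Icc 0 A, Nn (sc ℓ t) k (duh a w ℓ f t) ≤ A * γ := by
  intro t ht
  have hsub : Icc 0 t ⊆ Icc 0 A := Icc_subset_Icc_right ht.2
  have h0 : 0 ≤ sc ℓ t := mul_nonneg hℓ (Real.exp_pos _).le
  have h1 : sc ℓ t ≤ 1 := (sc_le_self hℓ ht.1).trans hℓ1
  refine (Nn_integral_le h0 h1 le_rfl ht.1 ((continuousOn_Uf_right a w ℓ t hf).mono hsub)
    (g := fun _ => γ) intervalIntegrable_const fun s hs => ?_).trans ?_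
  · refine (Nn_Uf_le hℓ hℓ1 le_rfl hs.1 hs.2 (f s)).trans ?_
    have h2 : Real.exp (-(a * (t - s))) ≤ 1 := by
      rw [Real.exp_le_one_iff, neg_nonpos]
      exact mul_nonneg ha (by linarith [hs.2])
    have h3 := h s (hsub hs)
    have h4 : 0 ≤ Nn (sc ℓ s) k (f s) :=
      Nn_nonneg (mul_nonneg hℓ (Real.exp_pos _).le) _ _
    calc _ ≤ 1 * γ := by gcongr
      _ = γ := one_mul _
  · rw [intervalIntegral.integral_const, sub_zero, smul_eq_mul]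
    exact mul_le_mul_of_nonneg_right ht.2 hγ

/-! ### Multiplication and nonlinearity of cut-off functions -/

theorem isCut_cA_pow (n : ℕ) : IsCut (fun x : E d => cA x * cA x ^ n) :=
  isCut_cA.mul (contDiff_cA.pow n)

theorem W1_smul_real (m : ℕ) (c z : ℂ) (hc : conj c = c) : W1 m (c * z) = c ^ (2 * m) * W1 m z := by
  rw [W1, W1, map_mul, hc, pow_mul, ← mul_pow]
  congr 1
  ring

theorem W2_smul_real {m : ℕ} (hm : 1 ≤ m) (c z : ℂ) (hc : conj c = c) :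
    W2 m (c * z) = c ^ (2 * m) * W2 m z := by
  obtain ⟨n, rfl⟩ : ∃ n, m = n + 1 := ⟨m - 1, by omega⟩
  rw [W2, W2, map_mul, hc, Nat.add_sub_cancel]
  ring

/-- the nonlinearity of the cut-off profile -/
theorem F_Up {m : ℕ} {Q : E d → ℂ} {ℓ : ℝ} (hℓ : 0 < ℓ) (hℓ1 : ℓ ≤ 1) (hQ : Wn k Q) :
    (-Complex.I) • F m (Up k Q ℓ) = cu k (fun x => cA x * cA x ^ (2 * m)) (NQ m Q) ℓ := by
  have h1 : Loc k (fun x => cA x * Q (ℓ⁻¹ • x)) := isCut_cA.loc hℓ hℓ1 hQ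
  obtain ⟨h2, h3⟩ := Loc.F h1 m
  rw [Up, h3, (h2.smul (-Complex.I)).2, cu]
  congr 1
  ext x
  rw [W1_smul_real m _ _ (conj_cA x), NQ]
  ring

/-- the linearised potential on cut-off functions -/
theorem BW_cu {m : ℕ} (hm : 1 ≤ m) {Q g χ : E d → ℂ} {ℓ : ℝ} (hℓ : 0 < ℓ) (hℓ1 : ℓ ≤ 1)
    (hQ : Wn k Q) (hg : Wn k g) (hχ : IsCut χ) (hχr : ∀ x, conj (χ x) = χ x) :
    BW m (Up k Q ℓ) (cu k χ g ℓ) = cu k (fun x => χ x * cA x ^ (2 * m)) (BQ m Q g) ℓ := by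
  have h1 : Loc k (fun x => cA x * Q (ℓ⁻¹ • x)) := isCut_cA.loc hℓ hℓ1 hQ
  have h2 : Loc k (fun x => χ x * g (ℓ⁻¹ • x)) := hχ.loc hℓ hℓ1 hg
  refine (Loc.of_ev (fun x hx => ?_) (fun x => ?_)).2
  · show χ x * cA x ^ (2 * m) * BQ m Q g (ℓ⁻¹ • x) = 0
    rw [hχ.supp3 x hx]
    ring
  · rw [ev_BW, Up, cu, h1.ev_per, h2.ev_per]
    simp only [perF]
    rw [W1_smul_real m _ _ (conj_cA _), W2_smul_real hm _ _ (conj_cA _), BQ, map_mul, hχr]
    ring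

theorem Nn_cu_sub_le {χ ψ f : E d → ℂ} (hχ : IsCut χ) (hψ : IsCut ψ) {ℓ : ℝ} (hℓ : 0 < ℓ)
    (hℓ1 : ℓ ≤ 1) (hf : Wn k f) :
    cu k χ f ℓ - cu k ψ f ℓ = cu k (fun x => χ x - ψ x) f ℓ := by
  rw [cu, cu, ((hχ.loc hℓ hℓ1 hf).sub (hψ.loc hℓ hℓ1 hf)).2, cu]
  congr 1
  ext x
  ring

/-! ### The approximate equations -/

/-- `E` solves the linearised torus equation up to the additive error `H`. -/
structure LinMild (m : ℕ) (a w ℓ A : ℝ) (W E H : ℝ → WA d k) (γ : ℝ) : Prop where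
  contE : ContinuousOn E (Icc 0 A)
  contH : ContinuousOn H (Icc 0 A)
  eqn : ∀ t ∈ Icc 0 A, E t = Uf a w ℓ t 0 (E 0)
    + (∫ s in (0 : ℝ)..t, Uf a w ℓ t s (BW m (W s) (E s))) + H t
  bound : ∀ t ∈ Icc 0 A, Nn (sc ℓ t) k (H t) ≤ γ

theorem BW_smul (m : ℕ) (W h : WA d k) (c : ℝ) : BW m W ((c : ℂ) • h) = (c : ℂ) • BW m W h := by
  apply ev_injective
  intro x
  rw [ev_smul, ev_BW, ev_BW, ev_smul, map_mul, Complex.conj_ofReal]
  ring

theorem LinMild.add {m : ℕ} {a w ℓ A : ℝ} {W E H E' H' : ℝ → WA d k} {γ γ' : ℝ}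
    (hℓ : 0 ≤ ℓ) (hℓ1 : ℓ ≤ 1)
    (hW : ContinuousOn W (Icc 0 A)) (h : LinMild m a w ℓ A W E H γ)
    (h' : LinMild m a w ℓ A W E' H' γ') :
    LinMild m a w ℓ A W (fun t => E t + E' t) (fun t => H t + H' t) (γ + γ') where
  contE := h.contE.add h'.contE
  contH := h.contH.add h'.contH
  eqn t ht := by
    have e1 := h.eqn t ht
    have e2 := h'.eqn t ht
    have e3 := duh_add a w ℓ (f := fun s => BW m (W s) (E s)) (g := fun s => BW m (W s) (E' s))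
      (continuousOn_BW hW h.contE) (continuousOn_BW hW h'.contE) ht
    simp only [duh] at e3
    have e4 : (∫ s in (0 : ℝ)..t, Uf a w ℓ t s (BW m (W s) (E s + E' s)))
        = (∫ s in (0 : ℝ)..t, Uf a w ℓ t s (BW m (W s) (E s)))
          + ∫ s in (0 : ℝ)..t, Uf a w ℓ t s (BW m (W s) (E' s)) := by
      rw [← e3]
      simp only [BW_add]
    show E t + E' t = Uf a w ℓ t 0 (E 0 + E' 0) + _ + (H t + H' t)
    rw [e4, map_add (Uf a w ℓ t 0), e1, e2]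
    abel
  bound t ht := by
    have h0 : 0 ≤ sc ℓ t := mul_nonneg hℓ (Real.exp_pos _).le
    have h1 : sc ℓ t ≤ 1 := (sc_le_self hℓ ht.1).trans hℓ1
    exact (Nn_add_le h0 h1 le_rfl _ _).trans (add_le_add (h.bound t ht) (h'.bound t ht))

theorem LinMild.smul {m : ℕ} {a w ℓ A : ℝ} {W E H : ℝ → WA d k} {γ : ℝ}
    (h : LinMild m a w ℓ A W E H γ) (c : ℝ) :
    LinMild m a w ℓ A W (fun t => (c : ℂ) • E t) (fun t => (c : ℂ) • H t) (|c| * γ) where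
  contE := h.contE.const_smul (c : ℂ)
  contH := h.contH.const_smul (c : ℂ)
  eqn t ht := by
    have e1 := h.eqn t ht
    have e3 := duh_smul a w ℓ (c : ℂ) t (fun s => BW m (W s) (E s))
    simp only [duh] at e3
    have e4 : (∫ s in (0 : ℝ)..t, Uf a w ℓ t s (BW m (W s) ((c : ℂ) • E s)))
        = (c : ℂ) • ∫ s in (0 : ℝ)..t, Uf a w ℓ t s (BW m (W s) (E s)) := by
      rw [← e3]
      simp only [BW_smul]
    show (c : ℂ) • E t = Uf a w ℓ t 0 ((c : ℂ) • E 0) + _ + (c : ℂ) • H t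
    rw [e4, map_smul (Uf a w ℓ t 0), e1, smul_add, smul_add]
  bound t ht := by
    rw [Nn_smul, Complex.norm_real, Real.norm_eq_abs]
    exact mul_le_mul_of_nonneg_left (h.bound t ht) (abs_nonneg c)

theorem LinMild.zero (m : ℕ) (a w ℓ A : ℝ) (W : ℝ → WA d k) :
    LinMild m a w ℓ A W (fun _ => 0) (fun _ => 0) 0 where
  contE := continuousOn_const
  contH := continuousOn_const
  eqn t ht := by simp [BW_zero]
  bound t ht := by
    have : Nn (sc ℓ t) k (0 : WA d k) = 0 := by simp [Nn]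
    exact this.le

theorem LinMild.sum {ι : Type*} (S : Finset ι) {m : ℕ} {a w ℓ A : ℝ} {W : ℝ → WA d k}
    {E H : ι → ℝ → WA d k} {γ : ι → ℝ}
    (hℓ : 0 ≤ ℓ) (hℓ1 : ℓ ≤ 1) (hW : ContinuousOn W (Icc 0 A))
    (h : ∀ i ∈ S, LinMild m a w ℓ A W (E i) (H i) (γ i)) :
    LinMild m a w ℓ A W (fun t => ∑ i ∈ S, E i t) (fun t => ∑ i ∈ S, H i t)
      (∑ i ∈ S, γ i) := by
  classical
  induction S using Finset.induction_on with
  | empty =>
    simp only [Finset.sum_empty]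
    exact LinMild.zero m a w ℓ A W
  | insert i S hi ih =>
    simp only [Finset.sum_insert hi]
    exact LinMild.add hℓ hℓ1 hW (h i (Finset.mem_insert_self i S))
      (ih fun j hj => h j (Finset.mem_insert_of_mem hj))

/-- A cut-off eigenfunction solves the linearised torus equation up to a small error. -/
theorem ecu_linMild (hF : FLem d k) {m : ℕ} (hm : 1 ≤ m) {w lam A : ℝ} (hA : 0 ≤ A)
    {Q g χ : E d → ℂ} (hQ : Wn (k + 1) Q) (hχ : IsCut χ) (hχr : ∀ x, conj (χ x) = χ x)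
    (hE : Eig k (aa m) w lam g (BQ m Q g))
    {r0 : ℝ} (hr0 : 0 < r0) (hdiff : ∀ x, ‖x‖ ≤ r0 → χ x - χ x * cA x ^ (2 * m) = 0) :
    ∀ ε : ℝ, 0 < ε → ∃ ℓ0 : ℝ, 0 < ℓ0 ∧ ℓ0 ≤ 1 ∧ ∀ ℓ : ℝ, 0 < ℓ → ℓ ≤ ℓ0 → ∃ H : ℝ → WA d k,
      LinMild m (aa m) w ℓ A (fun s => Up k Q (sc ℓ s)) (fun s => ecu k χ g lam ℓ s) H ε := by
  intro ε hε
  set M := Real.exp (|lam| * A) with hM
  have hM0 : 0 < M := Real.exp_pos _
  have hwh := hE.wh.mono (Nat.le_succ k)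
  have hwg := hE.wg.mono (Nat.le_succ k)
  have hQk := hQ.mono (Nat.le_succ k)
  have hψ : IsCut (fun x : BU.E d => χ x * cA x ^ (2 * m)) := hχ.mul (contDiff_cA.pow _)
  set ε1 := ε / (2 * (A + 1) * M) with hε1
  have hε10 : 0 < ε1 := by positivity
  obtain ⟨ℓ1, hℓ10, hℓ11, h1⟩ := hF _ (BQ m Q g) r0 hr0 (hχ.sub hψ) hdiff hwh ε1 hε10
  obtain ⟨C, hC0, hC⟩ := rho_bound hχ hwg (fun j => (hE.wp j).mono (Nat.le_succ k))
  refine ⟨min ℓ1 (ε1 / (C + 1)), by positivity, (min_le_left _ _).trans hℓ11, ?_⟩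
  intro ℓ hℓ hℓle
  have hℓ1' : ℓ ≤ 1 := hℓle.trans ((min_le_left _ _).trans hℓ11)
  -- the difference of the sources
  set D : ℝ → WA d k := fun s => ((Real.exp (lam * s) : ℝ) : ℂ) •
    (cu k χ (BQ m Q g) (sc ℓ s) - rho k χ g (sc ℓ s)) -
      BW m (Up k Q (sc ℓ s)) (ecu k χ g lam ℓ s) with hD
  have hWc : ContinuousOn (fun s => Up k Q (sc ℓ s)) (Icc 0 A) :=
    continuousOn_cu isCut_cA hQ hℓ hℓ1' A
  have hEc : ContinuousOn (fun s => ecu k χ g lam ℓ s) (Icc 0 A) :=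
    continuousOn_ecu hχ hE hℓ hℓ1' A
  have hBc : ContinuousOn (fun s => BW m (Up k Q (sc ℓ s)) (ecu k χ g lam ℓ s)) (Icc 0 A) :=
    continuousOn_BW hWc hEc
  have hec : ContinuousOn (fun s : ℝ => ((Real.exp (lam * s) : ℝ) : ℂ)) (Icc 0 A) := by
    fun_prop
  have hSc : ContinuousOn (fun s => ((Real.exp (lam * s) : ℝ) : ℂ) •
      (cu k χ (BQ m Q g) (sc ℓ s) - rho k χ g (sc ℓ s))) (Icc 0 A) :=
    hec.smul ((continuousOn_cu hχ hE.wh hℓ hℓ1' A).sub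
      (continuousOn_rho hχ hE.wg hE.wp hℓ hℓ1' A))
  have hDc : ContinuousOn D (Icc 0 A) := hSc.sub hBc
  refine ⟨duh (aa m) w ℓ D, hEc, continuousOn_duh _ _ _ hA hDc, ?_, ?_⟩
  · intro t ht
    have e1 := ecu_duhamel hχ hE hℓ hℓ1' t ht
    have e2 := duh_add (aa m) w ℓ hBc hDc ht
    simp only [duh] at e2
    have e3 : (∫ s in (0 : ℝ)..t, Uf (aa m) w ℓ t s (((Real.exp (lam * s) : ℝ) : ℂ) •
          (cu k χ (BQ m Q g) (sc ℓ s) - rho k χ g (sc ℓ s))))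
        = ∫ s in (0 : ℝ)..t, Uf (aa m) w ℓ t s
            (BW m (Up k Q (sc ℓ s)) (ecu k χ g lam ℓ s) + D s) := by
      apply intervalIntegral.integral_congr
      intro s _
      show Uf (aa m) w ℓ t s _ = Uf (aa m) w ℓ t s (_ + D s)
      congr 1
      rw [hD]
      exact (add_sub_cancel _ _).symm
    rw [duh, add_assoc, ← e2, e1, e3]
  · have hb : ∀ s ∈ Icc 0 A, Nn (sc ℓ s) k (D s) ≤ 2 * M * ε1 := by
      intro s hs
      have hs0 := sc_pos hℓ s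
      have hs1 : sc ℓ s ≤ ℓ := sc_le_self hℓ.le hs.1
      have hs1' : sc ℓ s ≤ 1 := hs1.trans hℓ1'
      have e1 : BW m (Up k Q (sc ℓ s)) (ecu k χ g lam ℓ s) = ((Real.exp (lam * s) : ℝ) : ℂ) •
          cu k (fun x => χ x * cA x ^ (2 * m)) (BQ m Q g) (sc ℓ s) := by
        rw [ecu, BW_smul, BW_cu hm hs0 hs1' hQk hwg hχ hχr]
      have e2 : D s = ((Real.exp (lam * s) : ℝ) : ℂ) •
          (cu k (fun x => χ x - χ x * cA x ^ (2 * m)) (BQ m Q g) (sc ℓ s)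
            - rho k χ g (sc ℓ s)) := by
        rw [hD]
        simp only
        rw [e1, ← smul_sub, ← Nn_cu_sub_le hχ hψ hs0 hs1' hwh]
        congr 1
        abel
      rw [e2, Nn_smul, Complex.norm_real, Real.norm_of_nonneg (Real.exp_pos _).le]
      have h2 : Real.exp (lam * s) ≤ M := by
        rw [hM]
        apply Real.exp_le_exp.2
        calc lam * s ≤ |lam| * s := mul_le_mul_of_nonneg_right (le_abs_self _) hs.1
          _ ≤ |lam| * A := mul_le_mul_of_nonneg_left hs.2 (abs_nonneg _)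
      have h3 : Nn (sc ℓ s) k (cu k (fun x => χ x - χ x * cA x ^ (2 * m)) (BQ m Q g) (sc ℓ s)
            - rho k χ g (sc ℓ s)) ≤ 2 * ε1 := by
        refine (Nn_sub_le hs0.le hs1' le_rfl _ _).trans ?_
        have h4 := h1 (sc ℓ s) hs0 (hs1.trans (hℓle.trans (min_le_left _ _)))
        have h5 := hC (sc ℓ s) hs0 hs1'
        have h6 : C * sc ℓ s ≤ ε1 := by
          have h7 : sc ℓ s ≤ ε1 / (C + 1) := hs1.trans (hℓle.trans (min_le_right _ _))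
          rw [le_div_iff₀ (by positivity)] at h7
          nlinarith
        linarith
      have h8 : 0 ≤ Nn (sc ℓ s) k (cu k (fun x => χ x - χ x * cA x ^ (2 * m)) (BQ m Q g)
          (sc ℓ s) - rho k χ g (sc ℓ s)) := Nn_nonneg hs0.le _ _
      calc _ ≤ M * (2 * ε1) := by gcongr
        _ = _ := by ring
    intro t ht
    refine (Nn_duh_le (aa_nonneg m) hℓ.le hℓ1' hDc (by positivity) hb t ht).trans ?_
    rw [hε1]
    have : A * (2 * M * (ε / (2 * (A + 1) * M))) = A / (A + 1) * ε := by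
      field_simp
    rw [this]
    have h9 : A / (A + 1) ≤ 1 := by
      rw [div_le_one (by positivity)]
      linarith
    calc A / (A + 1) * ε ≤ 1 * ε := by gcongr
      _ = ε := one_mul _

end Vale.Agent.P139.N
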