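import Vale.Agent.P139.H203.Emb
import Vale.Agent.P139.BU.Core
import Mathlib.Analysis.Calculus.BumpFunction.FiniteDimension
import Mathlib.Analysis.Calculus.BumpFunction.InnerProduct

/-!
# P139 / block N : common definitions (torus side)

* `Nn ℓ j h = ∑ (1+ℓ‖n‖)^j |h_n|` : scaled norm (submultiplicative), `Tn ℓ j h` : its top part.
* `per k G` : the torus function which equals `G` on the ball of radius `3` (`G` smooth, supported
  there), `perCoef G n` its Fourier coefficients.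
* `cA, cB, cC` : cut-offs, `cA = 1` on the ball `1/2`, `cB = 1` on the ball `1` (which contains the
  support of `cA`), `cC = 1` on the ball `2` (which contains the support of `cB`).
* `Up k Q ℓ` : cut-off profile `Per (cA(x) Q(x/ℓ))`.
* `toFrame` : the solution seen in a frame `(ℓ, x0, θ)`.
* `RCurve` : the rescaled equation on `[0,A]`, scale `ℓ0 e^{-τ/2}`.
* `OneStep` : the one-step statement.
-/

open Set Filter Topology MeasureTheory
open scoped ComplexConjugate ContDiff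

namespace Vale.Agent.P139.N

open Vale.Agent.P139.A Vale.Agent.P139.A.WA Vale.Agent.P139.H203 Vale.Agent.P139.BU

variable {d k : ℕ}

/-- Scaled weighted Wiener norm on the torus. -/
noncomputable def Nn (ℓ : ℝ) (j : ℕ) (h : WA d k) : ℝ :=
  ∑' n : Lat d, (1 + ℓ * ‖n‖) ^ j * ‖coef h n‖

/-- Top order part of the scaled norm. -/
noncomputable def Tn (ℓ : ℝ) (j : ℕ) (h : WA d k) : ℝ :=
  ∑' n : Lat d, (ℓ * ‖n‖) ^ j * ‖coef h n‖

/-- Fourier coefficients of the periodisation of `G`. -/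
noncomputable def perCoef (G : E d → ℂ) (n : Lat d) : ℂ :=
  ((2 * Real.pi : ℂ) ^ d)⁻¹ * ∫ x : E d, G x * expi (-n) (WithLp.ofLp x)

open Classical in
/-- The element of the Wiener algebra with the Fourier coefficients `perCoef G`. -/
noncomputable def per (k : ℕ) (G : E d → ℂ) : WA d k :=
  if h : Summable fun n : Lat d => W k n * ‖perCoef G n‖ then mk (perCoef G) h else 0

/-- Inner cut-off: `1` on the ball of radius `1/2`, `0` outside the ball of radius `1`. -/
noncomputable def bA (d : ℕ) : ContDiffBump (0 : E d) := ⟨1 / 2, 1, by norm_num, by norm_num⟩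

/-- Middle cut-off: `1` on the ball of radius `1`, `0` outside the ball of radius `2`. -/
noncomputable def bB (d : ℕ) : ContDiffBump (0 : E d) := ⟨1, 2, by norm_num, by norm_num⟩

/-- Outer cut-off: `1` on the ball of radius `2`, `0` outside the ball of radius `3`. -/
noncomputable def bC (d : ℕ) : ContDiffBump (0 : E d) := ⟨2, 3, by norm_num, by norm_num⟩

/-- Inner cut-off, complex valued. -/
noncomputable def cA (x : E d) : ℂ := ((bA d x : ℝ) : ℂ)

/-- Middle cut-off, complex valued. -/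
noncomputable def cB (x : E d) : ℂ := ((bB d x : ℝ) : ℂ)

/-- Outer cut-off, complex valued. -/
noncomputable def cC (x : E d) : ℂ := ((bC d x : ℝ) : ℂ)

/-- Cut-off rescaled function `x ↦ cA(x) f(x/ℓ)` on the torus. -/
noncomputable def Up (k : ℕ) (f : E d → ℂ) (ℓ : ℝ) : WA d k :=
  per k fun x => cA x * f (ℓ⁻¹ • x)

theorem summable_frame (c : ℂ) (x0 : Fin d → ℝ) (u : WA d k) :
    Summable fun n : Lat d => W k n * ‖c * expi n x0 * coef u n‖ := by
  have := u.summable.mul_left ‖c‖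
  refine this.congr fun n => ?_
  rw [norm_mul, norm_mul, norm_expi, mul_one]
  ring

/-- The element with the Fourier coefficients `c e^{i n·x0} u_n`, so
`ev (shift c x0 u) x = c * ev u (x + x0)`. -/
noncomputable def shift (c : ℂ) (x0 : Fin d → ℝ) (u : WA d k) : WA d k :=
  mk (fun n => c * expi n x0 * coef u n) (summable_frame c x0 u)

@[simp] theorem coef_shift (c : ℂ) (x0 : Fin d → ℝ) (u : WA d k) (n : Lat d) :
    coef (shift c x0 u) n = c * expi n x0 * coef u n := coef_mk _ _ n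

/-- `u` seen in the frame `(ℓ, x0, θ)`: `v(x) = e^{-iθ} ℓ^{2a} u(x0 + x)`. -/
noncomputable def toFrame (m : ℕ) (ℓ : ℝ) (x0 : Fin d → ℝ) (θ : ℝ) (u : WA d k) : WA d k :=
  shift (Complex.exp (-(Complex.I * θ)) * ((ℓ ^ (2 * aa m) : ℝ) : ℂ)) x0 u

/-- The perturbation of the cut-off profile in the frame `(ℓ, x0, θ)`. -/
noncomputable def pert (m : ℕ) (Q : E d → ℂ) (ℓ : ℝ) (x0 : Fin d → ℝ) (θ : ℝ) (u : WA d k) :
    WA d k :=
  toFrame m ℓ x0 θ u - Up k Q ℓ

/-- The rescaled equation on `[0,A]`: `v_τ = i ℓ² Δ v - (a - i w) v - i |v|^{2m} v` with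
`ℓ = ℓ0 e^{-τ/2}`, read on every Fourier coefficient. -/
structure RCurve (m : ℕ) (w ℓ0 A : ℝ) (v : ℝ → WA d k) : Prop where
  cont : ContinuousOn v (Icc 0 A)
  eqn : ∀ τ ∈ Icc 0 A, ∀ n, HasDerivWithinAt (fun s => coef (v s) n)
    (-(Complex.I * ((ℓ0 ^ 2 * Real.exp (-τ) : ℝ) : ℂ) * sqNorm n) * coef (v τ) n
      - ((aa m : ℂ) - Complex.I * (w : ℂ)) * coef (v τ) n
      - Complex.I * coef (F m (v τ)) n) (Icc 0 A) τ

/-- One step in the rescaled frame (invariance of the `η`-neighbourhood): a rescaled curve which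
starts `η`-close to the cut-off profile is, after the time `A`, `η`-close to it in a new frame,
the scale of which is at most one half of the old one. -/
def RInv (d m : ℕ) (w : ℝ) (Q : E d → ℂ) (K : ℕ) (A η ℓ₁ : ℝ) : Prop :=
  ∀ (ℓ : ℝ) (v : ℝ → WA d K), 0 < ℓ → ℓ ≤ ℓ₁ → RCurve m w ℓ A v →
    Nn ℓ K (v 0 - Up K Q ℓ) ≤ η →
    ∃ (μ : ℝ) (x1 : Fin d → ℝ) (θ : ℝ), 0 < μ ∧ μ ≤ ℓ / 2 ∧
      Nn μ K (toFrame m (μ / (ℓ * Real.exp (-A / 2))) x1 θ (v A) - Up K Q μ) ≤ η

/-- Output of the one-step analysis. -/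
def StepStable (d m : ℕ) (w : ℝ) (Q : E d → ℂ) : Prop :=
  ∃ (K : ℕ) (A η ℓ₁ : ℝ), 0 < A ∧ 0 < η ∧ 2 * η < ‖Q 0‖ ∧ 0 < ℓ₁ ∧ RInv d m w Q K A η ℓ₁

end Vale.Agent.P139.N
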