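import Vale.Agent.P139.H579.N0b
import Vale.Agent.P139.H579.Iter
import Vale.Agent.P139.H510.RC7
import Vale.Agent.P139.BU.TFinal

/-! # P139 / block N : from the one-step theorem to `BallBlowup` -/

open Set Filter Topology MeasureTheory FourierTransform
open scoped ComplexConjugate ContDiff

namespace Vale.Agent.P139.N

open Vale.Agent.P139.A Vale.Agent.P139.A.WA Vale.Agent.P139.H203 Vale.Agent.P139.BU
open Vale.Agent.P139.H201 Vale.Agent.P139.H605

variable {d k : ℕ}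

/-- The cut-off profile is bounded below. -/
theorem norm_Q_zero_le {m : ℕ} (hm : 1 ≤ m) {w : ℝ} {Q : E d → ℂ} (hQ : IsProfile d m w Q)
    (K : ℕ) {μ : ℝ} (hμ : 0 < μ) (hμ1 : μ ≤ 1) : ‖Q 0‖ ≤ Nn μ K (Up K Q μ) := by
  have h1 := isCut_cA.loc (k := K) hμ hμ1 (wn_profile hm hQ K)
  have h2 := h1.ev_per (WithLp.ofLp (0 : E d))
  rw [perF_eq (by simp : ‖(0 : E d)‖ ≤ 3), cA_eq_one (by simp), one_mul, smul_zero] at h2
  have h3 := norm_ev_le_Nn hμ.le hμ1 (le_refl K) (Up K Q μ) (WithLp.ofLp (0 : E d))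
  rw [Up, h2] at h3
  exact h3

/-- **From the one-step theorem to blow-up on a ball of data.** -/
theorem ballBlowup_of_step1 {m : ℕ} (hm : 1 ≤ m) {w : ℝ} {Q : E d → ℂ}
    (hQ : IsProfile d m w Q) (h : Step1 d m w Q) : BallBlowup d m := by
  obtain ⟨K, T₀, hT⟩ := noLongBall_of_stepStable hm (H510.stepStable_of_step1 hm hQ h)
    (fun K μ hμ hμ1 => norm_Q_zero_le hm hQ K hμ hμ1)
  exact hT.ballBlowup

/-- Mode stability is monotone in the number of derivatives. -/
theorem modeStable_mono {m K K' : ℕ} (hK : K ≤ K') {w : ℝ} {Q : E d → ℂ}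
    (h : ModeStable m K w Q) : ModeStable m K' w Q where
  eig lam hl f g hf hg h1 h2 := by
    refine h.eig lam hl f g ?_ ?_ h1 h2
    · exact ⟨hf.1.of_le (by exact_mod_cast hK), fun i hi => hf.2 i (hi.trans hK)⟩
    · exact ⟨hg.1.of_le (by exact_mod_cast hK), fun i hi => hg.2 i (hi.trans hK)⟩
  jordan lam hl f g f0 g0 hf hg hm h1 h2 := by
    refine h.jordan lam hl f g f0 g0 ?_ ?_ hm h1 h2
    · exact ⟨hf.1.of_le (by exact_mod_cast hK), fun i hi => hf.2 i (hi.trans hK)⟩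
    · exact ⟨hg.1.of_le (by exact_mod_cast hK), fun i hi => hg.2 i (hi.trans hK)⟩

/-- **(X4)** from the one-step theorem. -/
theorem profileBlowup_of_step1 {m : ℕ} (hm : 1 ≤ m)
    (h : ∀ (K : ℕ) (w : ℝ) (Q : E d → ℂ), 2 ≤ K → IsProfile d m w Q → ModeStable m K w Q →
      Step1 d m w Q) : ProfileBlowup d m := by
  intro K w Q hQ hS
  exact ballBlowup_of_step1 hm hQ
    (h (max K 2) w Q (le_max_right _ _) hQ (modeStable_mono (le_max_left _ _) hS))

end Vale.Agent.P139.N
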