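import Vale.Agent.P139.H579.CutFlow3
import Vale.Agent.P139.H730.Modes
import Vale.Agent.P139.H510.RC1

/-! # P139 / block N : symbols, the profile and the modes as `Eig` -/

open Set Filter Topology MeasureTheory FourierTransform
open scoped ComplexConjugate ContDiff

namespace Vale.Agent.P139.N

open Vale.Agent.P139.A Vale.Agent.P139.A.WA Vale.Agent.P139.H203 Vale.Agent.P139.BU
open Vale.Agent.P139.H201 Vale.Agent.P139.H730 Vale.Agent.P139.H510

variable {d k : ℕ}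

theorem Symb.symN {δ : ℝ} {f : E d → ℂ} (hf : Symb δ f) (N : ℕ) :
    ∃ A : ℝ, 0 ≤ A ∧ SymN N δ A f := by
  choose C hC0 hC using fun k => hf.exists_nonneg k
  refine ⟨∑ i ∈ Finset.range (N + 1), C i, Finset.sum_nonneg fun i _ => hC0 i,
    hf.1.of_le (by exact_mod_cast le_top), fun k hk x => (hC k x).trans ?_⟩
  have h1 : C k ≤ ∑ i ∈ Finset.range (N + 1), C i :=
    Finset.single_le_sum (f := C) (fun i _ => hC0 i) (Finset.mem_range.2 (by omega))
  have h2 : (0 : ℝ) ≤ (1 + ‖x‖) ^ (-δ - (k : ℝ)) := by positivity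
  exact mul_le_mul_of_nonneg_right h1 h2

theorem Symb.mul {δ δ' : ℝ} {f g : E d → ℂ} (hf : Symb δ f) (hg : Symb δ' g) :
    Symb (δ + δ') (fun x => f x * g x) := by
  refine ⟨hf.1.mul hg.1, fun k => ?_⟩
  obtain ⟨A, _, hA⟩ := Symb.symN hf k
  obtain ⟨B, _, hB⟩ := Symb.symN hg k
  exact ⟨_, fun x => (hA.mul hB).2 k le_rfl x⟩

theorem symb_one : Symb (d := d) 0 (fun _ => (1 : ℂ)) := by
  refine ⟨contDiff_const, fun k => ⟨1, fun x => ?_⟩⟩
  rcases Nat.eq_zero_or_pos k with h | h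
  · subst h
    simp
  · rw [iteratedFDeriv_const_of_ne h.ne']
    simp only [Pi.zero_apply, norm_zero, one_mul]
    positivity

theorem Symb.pow {δ : ℝ} {f : E d → ℂ} (hf : Symb δ f) (n : ℕ) :
    Symb (n * δ) (fun x => f x ^ n) := by
  induction n with
  | zero => simpa using (symb_one (d := d))
  | succ n ih =>
    have h := Symb.mul ih hf
    have e1 : (n : ℝ) * δ + δ = ((n + 1 : ℕ) : ℝ) * δ := by push_cast; ring
    rw [e1] at h
    simpa [pow_succ] using h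

/-- Symbols of negative order are in the Wiener class. -/
theorem Symb.wn {δ : ℝ} (hδ : 0 < δ) {f : E d → ℂ} (hf : Symb δ f) (s : ℕ) : Wn s f := by
  obtain ⟨C, _, H⟩ := WienerRep.symbol (E d) ℂ s hδ
  obtain ⟨A, hA0, hA⟩ := Symb.symN hf (nd (E d) s)
  exact Wn.of_rep (H f A hA0 hA.1 hA.2)

theorem symb_W1 {m : ℕ} {w : ℝ} {Q : E d → ℂ} (hQ : IsProfile d m w Q) :
    Symb (m * (2 * aa m + 2 * aa m)) (fun x => W1 m (Q x)) :=
  Symb.pow (Symb.mul (IsProfile.symb hQ) (IsProfile.symb hQ).conj) m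

theorem symb_W2 {m : ℕ} {w : ℝ} {Q : E d → ℂ} (hQ : IsProfile d m w Q) :
    Symb ((m + 1 : ℕ) * (2 * aa m) + (m - 1 : ℕ) * (2 * aa m)) (fun x => W2 m (Q x)) :=
  Symb.mul (Symb.pow (IsProfile.symb hQ) (m + 1)) (Symb.pow (IsProfile.symb hQ).conj (m - 1))

theorem aa_pos' {m : ℕ} (hm : 1 ≤ m) : 0 < aa m := aa_pos hm

/-- potential part of the linearised operator on real pairs -/
noncomputable def BQ (m : ℕ) (Q e : E d → ℂ) (y : E d) : ℂ :=
  -(Complex.I * (((m : ℂ) + 1) * W1 m (Q y) * e y + (m : ℂ) * W2 m (Q y) * conj (e y)))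

theorem symb_BQ {m : ℕ} {w : ℝ} {Q e : E d → ℂ} (hQ : IsProfile d m w Q)
    {δ : ℝ} (he : Symb δ e) : Symb δ (BQ m Q e) := by
  have ha := aa_nonneg m
  have h1 : Symb δ (fun y => W1 m (Q y) * e y) :=
    (Symb.mul (symb_W1 hQ) he).mono (by
      have : 0 ≤ (m : ℝ) * (2 * aa m + 2 * aa m) := by positivity
      linarith)
  have h2 : Symb δ (fun y => W2 m (Q y) * conj (e y)) :=
    (Symb.mul (symb_W2 hQ) he.conj).mono (by
      have : 0 ≤ ((m + 1 : ℕ) : ℝ) * (2 * aa m) + ((m - 1 : ℕ) : ℝ) * (2 * aa m) := by positivity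
      linarith)
  have h3 := ((h1.const_mul ((m : ℂ) + 1)).add (h2.const_mul (m : ℂ))).const_mul (-Complex.I)
  have e1 : BQ m Q e = fun y => -Complex.I * (((m : ℂ) + 1) * (W1 m (Q y) * e y)
      + (m : ℂ) * (W2 m (Q y) * conj (e y))) := by
    ext y
    rw [BQ]
    ring
  rw [e1]
  exact h3

/-- source of the profile equation -/
noncomputable def NQ (m : ℕ) (Q : E d → ℂ) (y : E d) : ℂ := -(Complex.I * (W1 m (Q y) * Q y))

theorem symb_NQ {m : ℕ} {w : ℝ} {Q : E d → ℂ} (hQ : IsProfile d m w Q) :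
    Symb (2 * aa m) (NQ m Q) := by
  have ha := aa_nonneg m
  have h1 : Symb (2 * aa m) (fun y => W1 m (Q y) * Q y) :=
    (Symb.mul (symb_W1 hQ) (IsProfile.symb hQ)).mono (by
      have : 0 ≤ (m : ℝ) * (2 * aa m + 2 * aa m) := by positivity
      linarith)
  have h3 := h1.const_mul (-Complex.I)
  have e1 : NQ m Q = fun y => -Complex.I * (W1 m (Q y) * Q y) := by
    ext y
    rw [NQ]
    ring
  rw [e1]
  exact h3

theorem eig_of_symb {K : ℕ} {a w lam δ δ' : ℝ} (hδ : 0 < δ) (hδ' : 0 < δ') {g h : E d → ℂ}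
    (hg : Symb δ g) (hh : Symb δ' h)
    (he : ∀ y, (lam : ℂ) * g y = Complex.I * lap g y - (1 / 2) * eul g y
      - ((a : ℂ) - Complex.I * (w : ℂ)) * g y + h y) : Eig K a w lam g h where
  smooth := by
    have := contDiff_infty.1 hg.1 2
    exact_mod_cast this
  wg := Symb.wn hδ hg _
  wp j := Symb.wn (by linarith) (hg.pd j) _
  wh := Symb.wn hδ' hh _
  eqn := he

/-- The profile. -/
theorem eig_profile {m : ℕ} {w : ℝ} {Q : E d → ℂ} (hm : 1 ≤ m) (hQ : IsProfile d m w Q) (K : ℕ) :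
    Eig K (aa m) w 0 Q (NQ m Q) := by
  have ha : 0 < 2 * aa m := by have := aa_pos' hm; positivity
  refine eig_of_symb ha ha (IsProfile.symb hQ) (symb_NQ hQ) fun y => ?_
  have h := IsProfile.eqn' hQ y
  rw [NQ]
  push_cast
  linear_combination -h

theorem eig_mode {m : ℕ} {w lam : ℝ} {Q e : E d → ℂ} (hQ : IsProfile d m w Q)
    {δ : ℝ} (hδ : 0 < δ) (he : Symb δ e)
    (hL : ∀ x, LL1 m w Q e (fun x => conj (e x)) x = (lam : ℂ) * e x) (K : ℕ) :
    Eig K (aa m) w lam e (BQ m Q e) := by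
  refine eig_of_symb hδ hδ he (symb_BQ hQ he) fun y => ?_
  rw [← hL y, LL1, BQ]
  ring

theorem eig_phase {m : ℕ} {w : ℝ} {Q : E d → ℂ} (hm : 1 ≤ m) (hQ : IsProfile d m w Q) (K : ℕ) :
    Eig K (aa m) w 0 (phaseMode Q) (BQ m Q (phaseMode Q)) := by
  have ha : 0 < 2 * aa m := by have := aa_pos' hm; positivity
  refine eig_mode hQ ha (symb_phaseMode hQ) (fun x => ?_) K
  rw [LL1_phaseMode hQ x]
  simp

theorem eig_pd {m : ℕ} {w : ℝ} {Q : E d → ℂ} (hm : 1 ≤ m) (hQ : IsProfile d m w Q) (K : ℕ)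
    (j : Fin d) : Eig K (aa m) w (1 / 2) (pd j Q) (BQ m Q (pd j Q)) := by
  have ha : 0 < 2 * aa m + 1 := by have := aa_pos' hm; positivity
  refine eig_mode hQ ha (symb_pd hQ j) (fun x => ?_) K
  rw [LL1_pd hQ j x]
  push_cast
  ring

theorem eig_time {m : ℕ} {w : ℝ} {Q : E d → ℂ} (hm : 1 ≤ m) (hQ : IsProfile d m w Q) (K : ℕ) :
    Eig K (aa m) w 1 (timeMode m w Q) (BQ m Q (timeMode m w Q)) := by
  have ha : 0 < 2 * aa m := by have := aa_pos' hm; positivity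
  refine eig_mode hQ ha (symb_timeMode hQ) (fun x => ?_) K
  rw [LL1_timeMode hm hQ x]
  push_cast
  ring

end Vale.Agent.P139.N
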