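import Vale.Agent.P139.H579.NFinal
import Vale.Agent.P139.H605.Fin

/-! # P139 / block N : a mode stable self-similar profile gives blow-up on a ball of data -/

namespace Vale.Agent.P139.N

open Vale.Agent.P139.BU Vale.Agent.P139.H605

/-- **(X4)** A mode stable profile gives blow-up in finite time for a whole ball of periodic
data. -/
theorem profileBlowup (d : ℕ) {m : ℕ} (hm : 1 ≤ m) : ProfileBlowup d m :=
  profileBlowup_of_step1 hm fun _ _ _ _ hQ hS =>
    step1_of hm hQ hS (fun _ => mildProfile hm hQ) (fun _ => mildModes hm hQ)

end Vale.Agent.P139.N
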